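import Vale.Agent.P249.TP.Spec

/-!
# P249, phase 2: basic lemmas (helper557)
-/

open Finset
open scoped BigOperators

namespace Vale.Agent.P249.TP

/-! ### signs -/

@[simp] lemma sg_zero : sg 0 = 1 := by simp [sg]

@[simp] lemma sg_one : sg 1 = -1 := by simp [sg]

lemma zmod2_cases (x : ZMod 2) : x = 0 ∨ x = 1 := by
  fin_cases x
  · exact Or.inl rfl
  · exact Or.inr rfl

lemma zmod2_add_self (x : ZMod 2) : x + x = 0 := by
  fin_cases x <;> rfl

lemma zmod2_neg (x : ZMod 2) : -x = x := by
  fin_cases x <;> rfl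

lemma zmod2_sub (x y : ZMod 2) : x - y = x + y := by rw [sub_eq_add_neg, zmod2_neg]

lemma zmod2_add_eq_zero {x y : ZMod 2} : x + y = 0 ↔ x = y := by
  rw [← zmod2_sub, sub_eq_zero]

lemma sg_add (x y : ZMod 2) : sg (x + y) = sg x * sg y := by
  rcases zmod2_cases x with rfl | rfl <;> rcases zmod2_cases y with rfl | rfl
  · simp
  · simp
  · simp
  · rw [zmod2_add_self]; simp

@[simp] lemma abs_sg (x : ZMod 2) : |sg x| = 1 := by
  rcases zmod2_cases x with rfl | rfl <;> simp

@[simp] lemma sg_mul_self (x : ZMod 2) : sg x * sg x = 1 := by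
  rcases zmod2_cases x with rfl | rfl <;> simp

lemma sg_inj {x y : ZMod 2} (h : sg x = sg y) : x = y := by
  rcases zmod2_cases x with rfl | rfl <;> rcases zmod2_cases y with rfl | rfl <;>
    first | rfl | (exfalso; simp at h; norm_num at h)

lemma sg_eq_or (x : ZMod 2) : sg x = 1 ∨ sg x = -1 := by
  rcases zmod2_cases x with rfl | rfl <;> simp

/-- `1_{x = β}` in terms of signs. -/
lemma ite_eq_sg (x β : ZMod 2) : (if x = β then (1 : ℝ) else 0) = (1 + sg β * sg x) / 2 := by
  rcases zmod2_cases x with rfl | rfl <;> rcases zmod2_cases β with rfl | rfl <;> simp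

/-! ### pairing and Walsh functions -/

section walsh

variable {I : Type}

lemma V_add_self (S : V I) : S + S = 0 := by
  funext i; exact zmod2_add_self _

lemma V_neg (S : V I) : -S = S := by
  funext i; exact zmod2_neg _

lemma V_sub (S T : V I) : S - T = S + T := by rw [sub_eq_add_neg, V_neg]

lemma V_add_add_cancel (S T : V I) : S + T + T = S := by rw [add_assoc, V_add_self, add_zero]

lemma V_add_eq_zero {S T : V I} : S + T = 0 ↔ S = T := by
  rw [← V_sub, sub_eq_zero]

variable [Fintype I]

lemma pr_comm (S y : V I) : pr S y = pr y S := by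
  unfold pr
  exact Finset.sum_congr rfl fun i _ => mul_comm _ _

lemma pr_add_left (S T y : V I) : pr (S + T) y = pr S y + pr T y := by
  unfold pr
  simp only [Pi.add_apply, add_mul, Finset.sum_add_distrib]

lemma pr_add_right (S y z : V I) : pr S (y + z) = pr S y + pr S z := by
  rw [pr_comm, pr_add_left, pr_comm y, pr_comm z]

@[simp] lemma pr_zero_left (y : V I) : pr 0 y = 0 := by simp [pr]

@[simp] lemma pr_zero_right (y : V I) : pr y 0 = 0 := by simp [pr]

lemma pr_smul_left (c : ZMod 2) (S y : V I) : pr (c • S) y = c * pr S y := by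
  unfold pr
  simp only [Pi.smul_apply, smul_eq_mul, Finset.mul_sum, mul_assoc]

lemma pr_sum_left {κ : Type*} (s : Finset κ) (f : κ → V I) (y : V I) :
    pr (∑ j ∈ s, f j) y = ∑ j ∈ s, pr (f j) y := by
  unfold pr
  simp only [Finset.sum_apply, Finset.sum_mul]
  rw [Finset.sum_comm]

lemma pr_single [DecidableEq I] (i : I) (y : V I) : pr (Pi.single i 1) y = y i := by
  unfold pr
  rw [Finset.sum_eq_single i]
  · simp
  · intro j _ hj; simp [hj]
  · intro h; exact absurd (Finset.mem_univ _) h

lemma w_comm (S y : V I) : w S y = w y S := by unfold w; rw [pr_comm]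

lemma w_add (S T y : V I) : w (S + T) y = w S y * w T y := by
  unfold w; rw [pr_add_left, sg_add]

lemma w_add_right (S y z : V I) : w S (y + z) = w S y * w S z := by
  unfold w; rw [pr_add_right, sg_add]

@[simp] lemma w_zero (y : V I) : w 0 y = 1 := by simp [w]

@[simp] lemma w_zero_right (y : V I) : w y 0 = 1 := by simp [w]

@[simp] lemma abs_w (S y : V I) : |w S y| = 1 := abs_sg _

@[simp] lemma w_mul_self (S y : V I) : w S y * w S y = 1 := sg_mul_self _

lemma w_single [DecidableEq I] (i : I) (y : V I) : w (Pi.single i 1) y = sg (y i) := by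
  unfold w; rw [pr_single]

lemma w_eq_or (S y : V I) : w S y = 1 ∨ w S y = -1 := sg_eq_or _

lemma w_sum {κ : Type*} (s : Finset κ) (f : κ → V I) (y : V I) :
    w (∑ j ∈ s, f j) y = ∏ j ∈ s, w (f j) y := by
  classical
  induction s using Finset.induction_on with
  | empty => simp
  | insert a s ha ih => rw [Finset.sum_insert ha, Finset.prod_insert ha, w_add, ih]

end walsh

section fourier

variable {I : Type} [Fintype I] [DecidableEq I]

lemma card_V : Fintype.card (V I) = 2 ^ Fintype.card I := by
  rw [Fintype.card_pi]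
  simp [ZMod.card]

lemma card_V_real : (Fintype.card (V I) : ℝ) = 2 ^ Fintype.card I := by
  rw [card_V]; push_cast; rfl

lemma sum_add_right {β : Type*} [AddCommMonoid β] (f : V I → β) (T : V I) :
    ∑ S, f (S + T) = ∑ S, f S :=
  Fintype.sum_equiv (Equiv.addRight T) _ _ fun _ => rfl

lemma sum_add_left {β : Type*} [AddCommMonoid β] (f : V I → β) (T : V I) :
    ∑ S, f (T + S) = ∑ S, f S :=
  Fintype.sum_equiv (Equiv.addLeft T) _ _ fun _ => rfl

/-- orthogonality -/
lemma sum_w_left (S : V I) : ∑ y, w S y = if S = 0 then (2 : ℝ) ^ Fintype.card I else 0 := by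
  split_ifs with h
  · subst h
    simp only [w_zero, Finset.sum_const, Finset.card_univ, nsmul_eq_mul, mul_one]
    exact card_V_real
  · obtain ⟨i, hi⟩ : ∃ i, S i ≠ 0 := by
      by_contra hc
      push Not at hc
      exact h (funext hc)
    have hi1 : S i = 1 := (zmod2_cases _).resolve_left hi
    have h1 : ∑ y, w S (y + Pi.single i 1) = ∑ y, w S y :=
      sum_add_right (fun y => w S y) (Pi.single i 1)
    have h2 : ∀ y, w S (y + Pi.single i 1) = -w S y := by
      intro y
      rw [w_add_right, w_comm S (Pi.single i 1), w_single, hi1]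
      simp
    simp only [h2, Finset.sum_neg_distrib] at h1
    linarith

lemma sum_w_right (y : V I) : ∑ S, w S y = if y = 0 then (2 : ℝ) ^ Fintype.card I else 0 := by
  rw [← sum_w_left y]
  exact Finset.sum_congr rfl fun S _ => w_comm _ _

/-- Fourier inversion -/
lemma hat_inv (ω : V I → ℝ) (ζ : V I) :
    ∑ z, hat ω z * w z ζ = 2 ^ Fintype.card I * ω ζ := by
  unfold hat
  simp only [Finset.sum_mul]
  rw [Finset.sum_comm]
  have h : ∀ ζ', ∑ z, ω ζ' * w z ζ' * w z ζ =
      if ζ' = ζ then (2 : ℝ) ^ Fintype.card I * ω ζ' else 0 := by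
    intro ζ'
    have h1 : ∀ z, ω ζ' * w z ζ' * w z ζ = ω ζ' * w z (ζ' + ζ) := by
      intro z; rw [w_add_right, mul_assoc]
    simp only [h1, ← Finset.mul_sum, sum_w_right, V_add_eq_zero]
    split_ifs <;> ring
  simp only [h]
  simp

lemma abs_hat_le (ω : V I → ℝ) (z : V I) : |hat ω z| ≤ ∑ ζ, |ω ζ| := by
  unfold hat
  refine (Finset.abs_sum_le_sum_abs _ _).trans (le_of_eq ?_)
  exact Finset.sum_congr rfl fun ζ _ => by rw [abs_mul, abs_w, mul_one]

end fourier

/-! ### averages -/

section average

variable {Ω Ω' : Type} [Fintype Ω] [Fintype Ω']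

lemma av_def (f : Ω → ℝ) : av f = (∑ x, f x) / Fintype.card Ω := rfl

lemma av_const [Nonempty Ω] (c : ℝ) : av (fun _ : Ω => c) = c := by
  unfold av
  have h : (Fintype.card Ω : ℝ) ≠ 0 := by
    exact_mod_cast Fintype.card_ne_zero
  simp only [Finset.sum_const, Finset.card_univ, nsmul_eq_mul]
  field_simp

lemma av_nonneg {f : Ω → ℝ} (h : ∀ x, 0 ≤ f x) : 0 ≤ av f :=
  div_nonneg (Finset.sum_nonneg fun x _ => h x) (Nat.cast_nonneg _)

lemma av_mono {f g : Ω → ℝ} (h : ∀ x, f x ≤ g x) : av f ≤ av g :=
  div_le_div_of_nonneg_right (Finset.sum_le_sum fun x _ => h x) (Nat.cast_nonneg _)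

lemma av_congr {f g : Ω → ℝ} (h : ∀ x, f x = g x) : av f = av g := by
  unfold av; rw [Finset.sum_congr rfl fun x _ => h x]

lemma av_add (f g : Ω → ℝ) : av (fun x => f x + g x) = av f + av g := by
  unfold av; rw [Finset.sum_add_distrib, add_div]

lemma av_sub (f g : Ω → ℝ) : av (fun x => f x - g x) = av f - av g := by
  unfold av; rw [Finset.sum_sub_distrib, sub_div]

lemma av_neg (f : Ω → ℝ) : av (fun x => -f x) = -av f := by
  unfold av; rw [Finset.sum_neg_distrib, neg_div]

lemma av_mul_left (c : ℝ) (f : Ω → ℝ) : av (fun x => c * f x) = c * av f := by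
  unfold av; rw [← Finset.mul_sum, mul_div_assoc]

lemma av_mul_right (c : ℝ) (f : Ω → ℝ) : av (fun x => f x * c) = av f * c := by
  unfold av; rw [← Finset.sum_mul, div_mul_eq_mul_div]

lemma av_sum {κ : Type*} (s : Finset κ) (f : κ → Ω → ℝ) :
    av (fun x => ∑ j ∈ s, f j x) = ∑ j ∈ s, av (f j) := by
  unfold av; rw [Finset.sum_comm, Finset.sum_div]

lemma abs_av_le (f : Ω → ℝ) : |av f| ≤ av fun x => |f x| := by
  unfold av
  rw [abs_div, Nat.abs_cast]
  exact div_le_div_of_nonneg_right (Finset.abs_sum_le_sum_abs _ _) (Nat.cast_nonneg _)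

lemma av_le_of_le [Nonempty Ω] {f : Ω → ℝ} {c : ℝ} (h : ∀ x, f x ≤ c) : av f ≤ c :=
  (av_mono h).trans (av_const c).le

lemma le_av_of_le [Nonempty Ω] {f : Ω → ℝ} {c : ℝ} (h : ∀ x, c ≤ f x) : c ≤ av f :=
  (av_const c).symm.le.trans (av_mono h)

lemma abs_av_le_of_le [Nonempty Ω] {f : Ω → ℝ} {c : ℝ} (h : ∀ x, |f x| ≤ c) : |av f| ≤ c :=
  (abs_av_le f).trans (av_le_of_le h)

lemma av_equiv (e : Ω ≃ Ω') (f : Ω' → ℝ) : av (fun x => f (e x)) = av f := by
  unfold av
  rw [Fintype.card_congr e, Fintype.sum_equiv e _ _ fun _ => rfl]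

lemma av_prod (f : Ω × Ω' → ℝ) : av f = av fun x => av fun y => f (x, y) := by
  unfold av
  rw [Fintype.sum_prod_type, Fintype.card_prod]
  push_cast
  rw [← Finset.sum_div, div_div, mul_comm]

lemma av_comm (f : Ω → Ω' → ℝ) : av (fun x => av fun y => f x y) = av fun y => av fun x => f x y := by
  unfold av
  simp only [← Finset.sum_div]
  rw [Finset.sum_comm, div_div, div_div, mul_comm (Fintype.card Ω : ℝ)]

lemma exists_le_av [Nonempty Ω] (f : Ω → ℝ) : ∃ x, f x ≤ av f := by
  by_contra h
  push Not at h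
  have h1 : ∑ _x : Ω, av f < ∑ x, f x :=
    Finset.sum_lt_sum_of_nonempty Finset.univ_nonempty fun x _ => h x
  have h2 : (0 : ℝ) < Fintype.card Ω := by exact_mod_cast Fintype.card_pos
  simp only [Finset.sum_const, Finset.card_univ, nsmul_eq_mul] at h1
  unfold av at h1
  rw [mul_div_cancel₀ _ h2.ne'] at h1
  exact lt_irrefl _ h1

lemma exists_av_le [Nonempty Ω] (f : Ω → ℝ) : ∃ x, av f ≤ f x := by
  obtain ⟨x, hx⟩ := exists_le_av fun x => -f x
  rw [av_neg] at hx
  exact ⟨x, by linarith⟩

/-- Markov's inequality -/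
lemma markov {f : Ω → ℝ} (hf : ∀ x, 0 ≤ f x) {t : ℝ} (ht : 0 < t) :
    av (fun x => if t ≤ f x then (1 : ℝ) else 0) ≤ av f / t := by
  rw [le_div_iff₀ ht, mul_comm, ← av_mul_left]
  refine av_mono fun x => ?_
  split_ifs with h
  · linarith
  · simpa using hf x

end average

/-- the image of the uniform distribution under a surjective homomorphism is uniform -/
lemma av_surj {G H : Type} [AddCommGroup G] [Fintype G] [AddCommGroup H] [Fintype H]
    (φ : G →+ H) (hφ : Function.Surjective φ) (f : H → ℝ) : av (fun x => f (φ x)) = av f := by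
  classical
  have key : ∀ y : H, ((univ.filter fun x => φ x = y).card) =
      ((univ.filter fun x => φ x = 0).card) := by
    intro y
    obtain ⟨x₀, hx₀⟩ := hφ y
    refine Finset.card_bij (fun x _ => x - x₀) ?_ ?_ ?_
    · intro x hx
      simp only [Finset.mem_filter, Finset.mem_univ, true_and] at hx ⊢
      rw [map_sub, hx, hx₀, sub_self]
    · intro a _ b _ h
      exact sub_left_injective h
    · intro b hb
      simp only [Finset.mem_filter, Finset.mem_univ, true_and] at hb
      refine ⟨b + x₀, ?_, by simp⟩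
      simp only [Finset.mem_filter, Finset.mem_univ, true_and]
      rw [map_add, hb, hx₀, zero_add]
  set N := (univ.filter fun x => φ x = 0).card with hN
  have h1 : ∑ x, f (φ x) = N * ∑ y, f y := by
    rw [← Finset.sum_fiberwise_of_maps_to (s := univ) (t := univ) (g := φ)
      (fun x _ => Finset.mem_univ _), Finset.mul_sum]
    refine Finset.sum_congr rfl fun y _ => ?_
    rw [Finset.sum_congr rfl (g := fun _ => f y)]
    · rw [Finset.sum_const, key y, nsmul_eq_mul]
    · intro x hx
      rw [(Finset.mem_filter.1 hx).2]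
  have h2 : Fintype.card G = N * Fintype.card H := by
    rw [← Finset.card_univ, Finset.card_eq_sum_card_fiberwise (f := φ) (t := univ)
      (fun x _ => Finset.mem_univ _)]
    simp only [key]
    rw [Finset.sum_const, smul_eq_mul, Finset.card_univ, mul_comm]
  have hN0 : 0 < N := by
    rw [hN, Finset.card_pos]
    exact ⟨0, by simp⟩
  unfold av
  rw [h1, h2]
  push_cast
  have hN1 : (N : ℝ) ≠ 0 := by exact_mod_cast hN0.ne'
  rw [mul_div_mul_left _ _ hN1]

/-! ### tensors -/

section tensors

variable {k s n : ℕ}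

lemma blk_add (A : Fr k s n) (c c' : V (Fin k → Fin s)) : blk A (c + c') = blk A c + blk A c' := by
  unfold blk
  rw [← Finset.sum_add_distrib]
  exact Finset.sum_congr rfl fun j _ => by rw [Pi.add_apply, add_smul]

@[simp] lemma blk_zero (A : Fr k s n) : blk A 0 = 0 := by
  unfold blk
  exact Finset.sum_eq_zero fun j _ => by simp

lemma blk_single (A : Fr k s n) (j : Fin k → Fin s) :
    blk A (Pi.single j 1) = tens fun l => A l (j l) := by
  classical
  unfold blk
  rw [Finset.sum_eq_single j]
  · simp
  · intro j' _ hj'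
    simp [hj']
  · intro h; exact absurd (Finset.mem_univ _) h

lemma tens_update_add (x : Fin k → V (Fin n)) (l : Fin k) (y y' : V (Fin n)) :
    tens (Function.update x l (y + y')) =
      tens (Function.update x l y) + tens (Function.update x l y') := by
  classical
  funext i
  simp only [tens, Pi.add_apply]
  rw [← Finset.mul_prod_erase Finset.univ _ (Finset.mem_univ l),
    ← Finset.mul_prod_erase Finset.univ (fun l' => Function.update x l y l' (i l'))
      (Finset.mem_univ l),
    ← Finset.mul_prod_erase Finset.univ (fun l' => Function.update x l y' l' (i l'))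
      (Finset.mem_univ l)]
  have h : ∀ z : V (Fin n), ∏ l' ∈ Finset.univ.erase l, Function.update x l z l' (i l') =
      ∏ l' ∈ Finset.univ.erase l, x l' (i l') := by
    intro z
    refine Finset.prod_congr rfl fun l' hl' => ?_
    rw [Function.update_of_ne (Finset.ne_of_mem_erase hl')]
  rw [h, h, h]
  simp only [Function.update_self, Pi.add_apply]
  ring

/-- the two ways of writing the sum in the mode test -/
lemma tens_add_tens_update (x : Fin k → V (Fin n)) (l : Fin k) (y : V (Fin n)) :
    tens x + tens (Function.update x l y) = tens (Function.update x l (x l + y)) := by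
  rw [tens_update_add, Function.update_eq_self]

/-- expansion of a rank one tensor whose factors lie in the span of the frame -/
lemma blk_tens (A : Fr k s n) (z : Fin k → V (Fin s)) :
    blk A (tens z) = tens fun l => ∑ j, z l j • A l j := by
  classical
  funext i
  unfold blk tens
  simp only [Finset.sum_apply, Pi.smul_apply, smul_eq_mul]
  rw [Finset.prod_univ_sum]
  simp only [Fintype.piFinset_univ]
  refine Finset.sum_congr rfl fun j _ => ?_
  rw [← Finset.prod_mul_distrib]

lemma single_eq_tens (i : Fin k → Fin n) :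
    (Pi.single i 1 : V (Fin k → Fin n)) = tens fun l => Pi.single (i l) 1 := by
  classical
  funext i'
  unfold tens
  by_cases h : i' = i
  · subst h
    simp
  · rw [Pi.single_eq_of_ne h]
    obtain ⟨l, hl⟩ : ∃ l, i' l ≠ i l := by
      by_contra hc
      push Not at hc
      exact h (funext hc)
    symm
    refine Finset.prod_eq_zero (Finset.mem_univ l) ?_
    exact Pi.single_eq_of_ne hl _

lemma inK_blk (A : Fr k s n) (c : V (Fin k → Fin s)) : InK k n s (blk A c) := ⟨A, c, rfl⟩

lemma inK_tens (x : Fin k → V (Fin n)) : InK k n 1 (tens x) := by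
  refine ⟨fun l _ => x l, Pi.single (fun _ => 0) 1, ?_⟩
  rw [blk_single]

lemma card_index : Fintype.card (Fin k → Fin n) = n ^ k := by simp

end tensors

end Vale.Agent.P249.TP
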