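import Vale.Agent.P249.TP.Spec

/-!
# RK: Fourier transform of a random matrix of rank at most `s` over `F_2`
-/

open Finset
open scoped BigOperators

namespace Vale.Agent.P249.TP.Rk

open Vale.Agent.P249.TP

lemma sg_zero : sg 0 = 1 := by simp [sg]

lemma sg_add (x y : ZMod 2) : sg (x + y) = sg x * sg y := by
  revert x y; unfold sg
  have h : ∀ x y : ZMod 2, ((x + y = 0) ↔ ((x = 0 ∧ y = 0) ∨ (x ≠ 0 ∧ y ≠ 0))) := by decide
  intro x y
  by_cases hx : x = 0 <;> by_cases hy : y = 0 <;> simp [hx, hy, h x y]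

lemma sg_sum {κ : Type*} (s : Finset κ) (f : κ → ZMod 2) : sg (∑ j ∈ s, f j) = ∏ j ∈ s, sg (f j) := by
  classical
  induction s using Finset.induction_on with
  | empty => simp [sg_zero]
  | insert a s ha ih => rw [Finset.sum_insert ha, Finset.prod_insert ha, sg_add, ih]

/-- the linear map attached to a matrix -/
noncomputable def L {b : ℕ} (z : V (Fin b × Fin b)) : (V (Fin b)) →ₗ[ZMod 2] (V (Fin b)) :=
  Matrix.mulVecLin (Matrix.of fun i j => z (i, j))

lemma L_apply {b : ℕ} (z : V (Fin b × Fin b)) (c : V (Fin b)) (i : Fin b) :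
    L z c i = ∑ j, z (i, j) * c j := by
  simp [L, Matrix.mulVec, dotProduct]

lemma L_inj {b : ℕ} : Function.Injective (L (b := b)) := by
  intro z z' h
  have h1 : (Matrix.of fun i j => z (i, j)) = (Matrix.of fun i j => z' (i, j)) := by
    apply Matrix.toLin'.injective
    simpa [L, Matrix.toLin'_apply'] using h
  funext ⟨i, j⟩
  exact congrFun (congrFun h1 i) j

lemma sum_sg_pr {I : Type} [Fintype I] [DecidableEq I] (y : V I) :
    ∑ a : V I, sg (pr a y) = if y = 0 then (2 : ℝ) ^ Fintype.card I else 0 := by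
  classical
  have h : ∑ a : V I, sg (pr a y) = ∏ i : I, ∑ t : ZMod 2, sg (t * y i) := by
    rw [Finset.prod_univ_sum, Fintype.piFinset_univ]
    refine Finset.sum_congr rfl fun a _ => ?_
    rw [pr, sg_sum]
  rw [h]
  by_cases hy : y = 0
  · subst hy
    simp [sg_zero, Finset.prod_const, Finset.card_univ]
  · rw [if_neg hy]
    obtain ⟨i, hi⟩ : ∃ i, y i ≠ 0 := by
      by_contra hcon
      push Not at hcon
      exact hy (funext hcon)
    apply Finset.prod_eq_zero (Finset.mem_univ i)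
    have hy1 : y i = 1 := by
      generalize y i = t at hi
      revert hi; revert t; decide
    rw [hy1]
    have : ∀ g : ZMod 2 → ℝ, ∑ t : ZMod 2, g t = g 0 + g 1 := fun g => Fin.sum_univ_two g
    rw [this]
    simp [sg]

lemma sum_pair {b : ℕ} (z : V (Fin b × Fin b)) :
    ∑ a : V (Fin b), ∑ c : V (Fin b), sg (pr a (L z c)) =
      (2 : ℝ) ^ b * Nat.card (LinearMap.ker (L z)) := by
  classical
  rw [Finset.sum_comm]
  simp_rw [sum_sg_pr]
  rw [← Finset.sum_filter, Finset.sum_const, nsmul_eq_mul, Fintype.card_fin, mul_comm]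
  congr 2
  rw [Nat.card_eq_fintype_card, Fintype.card_subtype]
  congr 1
  ext c
  simp [LinearMap.mem_ker]

lemma w_eq {s b : ℕ} (z : V (Fin b × Fin b)) (q1 q2 : Fin s → V (Fin b)) :
    w z (fun a => ∑ j, q1 j a.1 * q2 j a.2) = ∏ j, sg (pr (q1 j) (L z (q2 j))) := by
  rw [w, ← sg_sum]
  congr 1
  unfold pr
  simp_rw [L_apply, Finset.mul_sum]
  rw [Finset.sum_comm]
  refine Finset.sum_congr rfl fun j _ => ?_
  rw [Fintype.sum_prod_type]
  refine Finset.sum_congr rfl fun i _ => Finset.sum_congr rfl fun i' _ => ?_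
  ring

lemma av_eq {s b : ℕ} (z : V (Fin b × Fin b)) :
    av (fun q : (Fin s → V (Fin b)) × (Fin s → V (Fin b)) =>
      w z (fun a => ∑ j, q.1 j a.1 * q.2 j a.2)) =
      ((Nat.card (LinearMap.ker (L z)) : ℝ) / 2 ^ b) ^ s := by
  classical
  have h1 : ∑ q : (Fin s → V (Fin b)) × (Fin s → V (Fin b)),
      w z (fun a => ∑ j, q.1 j a.1 * q.2 j a.2) =
      ∏ _j : Fin s, ∑ a : V (Fin b), ∑ c : V (Fin b), sg (pr a (L z c)) := by
    rw [Fintype.sum_prod_type]
    rw [Finset.prod_univ_sum, Fintype.piFinset_univ]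
    refine Finset.sum_congr rfl fun q1 _ => ?_
    rw [Finset.prod_univ_sum, Fintype.piFinset_univ]
    exact Finset.sum_congr rfl fun q2 _ => w_eq z q1 q2
  have h2 : (Fintype.card ((Fin s → V (Fin b)) × (Fin s → V (Fin b))) : ℝ) =
      ((2 : ℝ) ^ b * 2 ^ b) ^ s := by
    rw [Fintype.card_prod, Fintype.card_fun, Fintype.card_fun, Fintype.card_fin, Fintype.card_fin,
      ZMod.card]
    push_cast
    rw [mul_pow]
  rw [av, h1, h2, sum_pair, Finset.prod_const, Finset.card_univ, Fintype.card_fin, ← div_pow]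
  congr 1
  have : (2 : ℝ) ^ b ≠ 0 := by positivity
  field_simp

/-- rank -/
noncomputable def rk {b : ℕ} (z : V (Fin b × Fin b)) : ℕ := Module.finrank (ZMod 2) (LinearMap.range (L z))

lemma rk_le {b : ℕ} (z : V (Fin b × Fin b)) : rk z ≤ b := by
  have := Submodule.finrank_le (LinearMap.range (L z))
  rw [Module.finrank_fintype_fun_eq_card, Fintype.card_fin] at this
  exact this

lemma card_ker {b : ℕ} (z : V (Fin b × Fin b)) :
    Nat.card (LinearMap.ker (L z)) * 2 ^ rk z = 2 ^ b := by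
  have h1 : Nat.card (LinearMap.ker (L z)) = 2 ^ Module.finrank (ZMod 2) (LinearMap.ker (L z)) := by
    rw [Module.natCard_eq_pow_finrank (K := ZMod 2), Nat.card_zmod]
  have h2 := LinearMap.finrank_range_add_finrank_ker (L z)
  rw [h1, ← pow_add]
  congr 1
  simp only [Module.finrank_fintype_fun_eq_card, Fintype.card_fin] at h2
  rw [rk]
  omega

lemma av_eq' {s b : ℕ} (z : V (Fin b × Fin b)) :
    av (fun q : (Fin s → V (Fin b)) × (Fin s → V (Fin b)) =>
      w z (fun a => ∑ j, q.1 j a.1 * q.2 j a.2)) = (1 / 2 ^ rk z) ^ s := by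
  rw [av_eq]
  congr 1
  have h := card_ker z
  have h' : (Nat.card (LinearMap.ker (L z)) : ℝ) * 2 ^ rk z = 2 ^ b := by exact_mod_cast h
  have h3 : (2 : ℝ) ^ rk z ≠ 0 := by positivity
  rw [← h']
  have h4 : (Nat.card (LinearMap.ker (L z)) : ℝ) ≠ 0 := by
    intro h0
    rw [h0, zero_mul] at h'
    exact absurd h'.symm (by positivity)
  field_simp

/-- number of matrices of rank `ρ` -/
lemma card_rk (b ρ : ℕ) : Nat.card {z : V (Fin b × Fin b) // rk z = ρ} ≤ 2 ^ (2 * b * ρ) := by
  classical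
  -- factor through `F_2^ρ`
  have key : ∀ z : {z : V (Fin b × Fin b) // rk z = ρ},
      ∃ XY : Matrix (Fin b) (Fin ρ) (ZMod 2) × Matrix (Fin ρ) (Fin b) (ZMod 2),
        XY.1 * XY.2 = Matrix.of fun i j => z.1 (i, j) := by
    intro ⟨z, hz⟩
    have hfin : Module.finrank (ZMod 2) (LinearMap.range (L z)) =
        Module.finrank (ZMod 2) (Fin ρ → ZMod 2) := by
      rw [Module.finrank_fintype_fun_eq_card, Fintype.card_fin]; exact hz
    let e := LinearEquiv.ofFinrankEq (LinearMap.range (L z)) (Fin ρ → ZMod 2) hfin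
    let Y : (Fin b → ZMod 2) →ₗ[ZMod 2] (Fin ρ → ZMod 2) := e.toLinearMap ∘ₗ (L z).rangeRestrict
    let X : (Fin ρ → ZMod 2) →ₗ[ZMod 2] (Fin b → ZMod 2) :=
      (LinearMap.range (L z)).subtype ∘ₗ e.symm.toLinearMap
    have hXY : X ∘ₗ Y = L z := by
      ext1 i
      apply LinearMap.ext
      intro c
      simp [X, Y]
    refine ⟨(LinearMap.toMatrix' X, LinearMap.toMatrix' Y), ?_⟩
    rw [← LinearMap.toMatrix'_comp, hXY]
    apply Matrix.toLin'.injective
    rw [Matrix.toLin'_toMatrix']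
    rfl
  choose f hf using key
  have hinj : Function.Injective f := by
    intro z z' h
    have h1 := hf z
    rw [h, hf z'] at h1
    apply Subtype.ext
    funext ⟨i, j⟩
    exact (congrFun (congrFun h1 i) j).symm
  have h1 := Nat.card_le_card_of_injective f hinj
  refine h1.trans (le_of_eq ?_)
  rw [Nat.card_prod]
  have h2 : Nat.card (Matrix (Fin b) (Fin ρ) (ZMod 2)) = 2 ^ (b * ρ) := by
    change Nat.card (Fin b → Fin ρ → ZMod 2) = 2 ^ (b * ρ)
    rw [Nat.card_eq_fintype_card, Fintype.card_fun, Fintype.card_fun, ZMod.card, Fintype.card_fin,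
      Fintype.card_fin, ← pow_mul]
    congr 1
    ring
  have h3 : Nat.card (Matrix (Fin ρ) (Fin b) (ZMod 2)) = 2 ^ (ρ * b) := by
    change Nat.card (Fin ρ → Fin b → ZMod 2) = 2 ^ (ρ * b)
    rw [Nat.card_eq_fintype_card, Fintype.card_fun, Fintype.card_fun, ZMod.card, Fintype.card_fin,
      Fintype.card_fin, ← pow_mul]
    congr 1
    ring
  rw [h2, h3, ← pow_add]
  congr 1
  ring

lemma rk_pos {b : ℕ} {z : V (Fin b × Fin b)} (hz : z ≠ 0) : 1 ≤ rk z := by
  by_contra h
  have h0 : rk z = 0 := by omega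
  have h1 : LinearMap.range (L z) = ⊥ := Submodule.finrank_eq_zero.mp h0
  have h2 : L z = 0 := LinearMap.range_eq_bot.mp h1
  apply hz
  apply L_inj
  rw [h2]
  apply LinearMap.ext
  intro c
  funext i
  rw [L_apply]
  simp

theorem specRk : SpecRk := by
  classical
  intro s b r hrs
  have hrs1 : 1 ≤ r * s := by
    have : (0 : ℝ) ≤ b := Nat.cast_nonneg b
    linarith
  set x : ℝ := (2 : ℝ) ^ (2 * (b : ℝ) - r * s) with hx
  have hx0 : 0 < x := by positivity
  have hx1 : x ≤ 1 / 2 := by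
    rw [hx]
    calc (2 : ℝ) ^ (2 * (b : ℝ) - r * s) ≤ (2 : ℝ) ^ (-1 : ℝ) :=
          Real.rpow_le_rpow_of_exponent_le (by norm_num) (by linarith)
      _ = 1 / 2 := by rw [Real.rpow_neg (by norm_num), Real.rpow_one]; norm_num
  have hterm : ∀ z : V (Fin b × Fin b),
      |av (fun q : (Fin s → V (Fin b)) × (Fin s → V (Fin b)) =>
        w z (fun a => ∑ j, q.1 j a.1 * q.2 j a.2))| ^ r = (2 : ℝ) ^ (-(r * s) * rk z) := by
    intro z
    rw [av_eq', abs_of_nonneg (by positivity)]
    rw [one_div, ← Real.rpow_natCast, ← Real.rpow_natCast, ← Real.rpow_neg (by norm_num),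
      ← Real.rpow_mul (by norm_num), ← Real.rpow_mul (by norm_num)]
    congr 1
    ring
  simp_rw [hterm]
  -- group by the rank
  have hgroup : ∑ z ∈ univ.filter (fun z : V (Fin b × Fin b) => z ≠ 0),
      (2 : ℝ) ^ (-(r * s) * rk z) ≤
      ∑ ρ ∈ Finset.Icc 1 b, ∑ z ∈ univ.filter (fun z : V (Fin b × Fin b) => rk z = ρ),
        (2 : ℝ) ^ (-(r * s) * ρ) := by
    rw [← Finset.sum_fiberwise_of_maps_to (s := univ.filter (fun z : V (Fin b × Fin b) => z ≠ 0))
      (t := Finset.Icc 1 b) (g := fun z => rk z)]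
    · refine Finset.sum_le_sum fun ρ _ => ?_
      calc ∑ z ∈ (univ.filter (fun z : V (Fin b × Fin b) => z ≠ 0)).filter (fun z => rk z = ρ),
            (2 : ℝ) ^ (-(r * s) * rk z)
          = ∑ z ∈ (univ.filter (fun z : V (Fin b × Fin b) => z ≠ 0)).filter (fun z => rk z = ρ),
            (2 : ℝ) ^ (-(r * s) * ρ) := by
            refine Finset.sum_congr rfl fun z hz => ?_
            rw [(Finset.mem_filter.mp hz).2]
        _ ≤ _ := by
            apply Finset.sum_le_sum_of_subset_of_nonneg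
            · intro z hz
              rw [Finset.mem_filter] at hz ⊢
              exact ⟨Finset.mem_univ _, hz.2⟩
            · intros; positivity
    · intro z hz
      rw [Finset.mem_Icc]
      exact ⟨rk_pos (Finset.mem_filter.mp hz).2, rk_le z⟩
  refine hgroup.trans ?_
  have hbound : ∀ ρ ∈ Finset.Icc 1 b,
      ∑ z ∈ univ.filter (fun z : V (Fin b × Fin b) => rk z = ρ), (2 : ℝ) ^ (-(r * s) * ρ) ≤
        x ^ ρ := by
    intro ρ _
    rw [Finset.sum_const, nsmul_eq_mul]
    have h1 : ((univ.filter (fun z : V (Fin b × Fin b) => rk z = ρ)).card : ℝ) ≤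
        (2 : ℝ) ^ (2 * (b : ℝ) * ρ) := by
      have h2 := card_rk b ρ
      rw [Nat.card_eq_fintype_card, Fintype.card_subtype] at h2
      calc ((univ.filter (fun z : V (Fin b × Fin b) => rk z = ρ)).card : ℝ)
          ≤ ((2 ^ (2 * b * ρ) : ℕ) : ℝ) := by exact_mod_cast h2
        _ = (2 : ℝ) ^ (2 * (b : ℝ) * ρ) := by
            push_cast
            rw [← Real.rpow_natCast]
            push_cast
            rfl
    calc _ ≤ (2 : ℝ) ^ (2 * (b : ℝ) * ρ) * (2 : ℝ) ^ (-(r * s) * ρ) :=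
          mul_le_mul_of_nonneg_right h1 (by positivity)
      _ = x ^ ρ := by
          rw [← Real.rpow_add (by norm_num), hx, ← Real.rpow_natCast,
            ← Real.rpow_mul (by norm_num)]
          congr 1
          ring
  refine (Finset.sum_le_sum hbound).trans ?_
  -- geometric sum
  have hgeo : ∀ m : ℕ, ∑ ρ ∈ Finset.Icc 1 m, x ^ ρ ≤ 2 * x - 2 * (x ^ m * x) := by
    intro m
    induction m with
    | zero => simp
    | succ m ih =>
      rw [Finset.sum_Icc_succ_top (by omega)]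
      have : x ^ (m + 1) = x ^ m * x := pow_succ x m
      rw [this]
      have hp : 0 < x ^ m * x := by positivity
      nlinarith
  calc ∑ ρ ∈ Finset.Icc 1 b, x ^ ρ ≤ 2 * x - 2 * (x ^ b * x) := hgeo b
    _ ≤ 4 * x := by
      have : 0 ≤ x ^ b * x := by positivity
      linarith

end Vale.Agent.P249.TP.Rk

namespace Vale.Agent.P249.TP
/-- **RK** -/
theorem specRk : SpecRk := Rk.specRk
end Vale.Agent.P249.TP
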