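import Vale.Agent.P249.TP.Spec
import Vale.Agent.P249.H200.Tv

/-!
# P249 phase 2, block TV
-/

open Finset Matrix
open scoped BigOperators

namespace Vale.Agent.P249.TP

open Vale.Agent.P249.H200 (zcases card_fiber_surj card_mul_ker sum_comp_surj surj_of_indep)

theorem tv_sum_indep {α : Type} [Fintype α] [DecidableEq α] (s b : ℕ) (A : Fin s → Fin b → ZMod 2)
    (hA : ∀ c : Fin s → ZMod 2, ∑ j, c j • A j = 0 → c = 0) (F : (Fin s → V α) → ℝ) :
    (Fintype.card (Fin s → V α) : ℝ) * ∑ u : Fin b → V α, F (fun j => ∑ i, A j i • u i) =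
      Fintype.card (Fin b → V α) * ∑ Y, F Y := by
  classical
  let L : (Fin b → V α) →+ (Fin s → V α) :=
    { toFun := fun u j => ∑ i, A j i • u i
      map_zero' := by funext j; simp
      map_add' := by intro u v; funext j; simp [Finset.sum_add_distrib] }
  have hL : Function.Surjective L := by
    intro Y
    choose x hx using fun j' : Fin s => surj_of_indep s A hA (Pi.single j' 1)
    refine ⟨fun i => ∑ j', x j' i • Y j', ?_⟩
    funext j
    show ∑ i, A j i • ∑ j', x j' i • Y j' = Y j
    simp_rw [Finset.smul_sum, smul_smul]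
    rw [Finset.sum_comm]
    simp_rw [← Finset.sum_smul]
    have h1 : ∀ j', ∑ i, A j i * x j' i = (Pi.single j' 1 : Fin s → ZMod 2) j := by
      intro j'
      rw [← hx j' j, dotProduct]
      exact Finset.sum_congr rfl fun i _ => mul_comm _ _
    simp_rw [h1]
    rw [Finset.sum_eq_single j]
    · rw [Pi.single_eq_same, one_smul]
    · intro j' _ hne
      rw [Pi.single_eq_of_ne (Ne.symm hne), zero_smul]
    · intro h; exact absurd (Finset.mem_univ _) h
  exact sum_comp_surj L hL F

theorem tv_card_dep (s b : ℕ) :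
    (2 : ℝ) ^ b * ((univ.filter fun c : Fin s → V (Fin (b + 1)) =>
      ¬ ∀ l : Fin s → ZMod 2, ∑ j, l j • (fun i : Fin b => c j i.succ) = 0 → l = 0).card : ℝ) ≤
      (2 : ℝ) ^ s * (Fintype.card (Fin s → V (Fin (b + 1))) : ℝ) := by
  classical
  have h1 : ∀ l : Fin s → ZMod 2, l ≠ 0 →
      2 ^ b * (univ.filter fun c : Fin s → V (Fin (b + 1)) =>
        ∑ j, l j • (fun i : Fin b => c j i.succ) = 0).card =
        Fintype.card (Fin s → V (Fin (b + 1))) := by
    intro l hl
    let L : (Fin s → V (Fin (b + 1))) →+ (Fin b → ZMod 2) :=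
      { toFun := fun c => ∑ j, l j • (fun i : Fin b => c j i.succ)
        map_zero' := by
          funext i
          simp
        map_add' := by
          intro u v
          funext i
          simp [Finset.sum_apply, mul_add, Finset.sum_add_distrib] }
    have hL : Function.Surjective L := by
      intro y
      obtain ⟨j, hj⟩ : ∃ j, l j ≠ 0 := by
        by_contra hcon
        push Not at hcon
        exact hl (funext hcon)
      have hcj : l j = 1 := by
        rcases zcases (l j) with h | h
        · exact absurd h hj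
        · exact h
      refine ⟨Pi.single j (Fin.cons 0 y), ?_⟩
      show ∑ i, l i • (fun i' : Fin b =>
        (Pi.single j (Fin.cons 0 y) : Fin s → V (Fin (b + 1))) i i'.succ) = y
      rw [Finset.sum_eq_single j]
      · rw [Pi.single_eq_same, hcj, one_smul]
        funext i
        simp
      · intro i _ hij
        rw [Pi.single_eq_of_ne hij]
        funext i'
        simp
      · intro h; exact absurd (Finset.mem_univ _) h
    have h := card_mul_ker L hL
    have h2 : Fintype.card (Fin b → ZMod 2) = 2 ^ b := by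
      rw [Fintype.card_fun, ZMod.card, Fintype.card_fin]
    rw [h2] at h
    exact h
  have h2 : (univ.filter fun c : Fin s → V (Fin (b + 1)) =>
      ¬ ∀ l : Fin s → ZMod 2, ∑ j, l j • (fun i : Fin b => c j i.succ) = 0 → l = 0) ⊆
      (univ.filter fun l : Fin s → ZMod 2 => l ≠ 0).biUnion
        (fun l => univ.filter fun c : Fin s → V (Fin (b + 1)) =>
          ∑ j, l j • (fun i : Fin b => c j i.succ) = 0) := by
    intro c hc
    rw [Finset.mem_filter] at hc
    have h3 := hc.2
    push Not at h3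
    obtain ⟨l, hl, hl0⟩ := h3
    rw [Finset.mem_biUnion]
    exact ⟨l, Finset.mem_filter.mpr ⟨Finset.mem_univ _, hl0⟩,
      Finset.mem_filter.mpr ⟨Finset.mem_univ _, hl⟩⟩
  have h4 : 2 ^ b * (univ.filter fun c : Fin s → V (Fin (b + 1)) =>
      ¬ ∀ l : Fin s → ZMod 2, ∑ j, l j • (fun i : Fin b => c j i.succ) = 0 → l = 0).card ≤
      2 ^ s * Fintype.card (Fin s → V (Fin (b + 1))) := by
    calc _ ≤ 2 ^ b * ∑ l ∈ univ.filter (fun l : Fin s → ZMod 2 => l ≠ 0),
          (univ.filter fun c : Fin s → V (Fin (b + 1)) =>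
            ∑ j, l j • (fun i : Fin b => c j i.succ) = 0).card := by
          apply Nat.mul_le_mul_left
          exact (Finset.card_le_card h2).trans Finset.card_biUnion_le
      _ = ∑ l ∈ univ.filter (fun l : Fin s → ZMod 2 => l ≠ 0),
            Fintype.card (Fin s → V (Fin (b + 1))) := by
          rw [Finset.mul_sum]
          refine Finset.sum_congr rfl fun l hl => h1 l (Finset.mem_filter.mp hl).2
      _ ≤ 2 ^ s * Fintype.card (Fin s → V (Fin (b + 1))) := by
          rw [Finset.sum_const, smul_eq_mul]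
          apply Nat.mul_le_mul_right
          refine (Finset.card_le_univ _).trans ?_
          rw [Fintype.card_fun, ZMod.card, Fintype.card_fin]
  exact_mod_cast h4

theorem specTv : SpecTv := by
  classical
  intro α _ _ s b x G B hG
  have hB : 0 ≤ B := le_trans (abs_nonneg _) (hG 0)
  set Nu : ℝ := (Fintype.card (Fin b → V α) : ℝ) with hNu
  set Nc : ℝ := (Fintype.card (Fin s → V (Fin (b + 1))) : ℝ) with hNc
  set Ns : ℝ := (Fintype.card (Fin s → V α) : ℝ) with hNs
  have hNu0 : 0 < Nu := by rw [hNu]; exact_mod_cast Fintype.card_pos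
  have hNc0 : 0 < Nc := by rw [hNc]; exact_mod_cast Fintype.card_pos
  have hNs0 : 0 < Ns := by rw [hNs]; exact_mod_cast Fintype.card_pos
  set E : ℝ := av G with hE
  have hEM : |E| ≤ B := by
    rw [hE, av, abs_div, abs_of_pos hNs0, div_le_iff₀ hNs0]
    refine (Finset.abs_sum_le_sum_abs _ _).trans ?_
    refine (Finset.sum_le_sum fun Y _ => hG Y).trans ?_
    rw [Finset.sum_const, Finset.card_univ, nsmul_eq_mul, mul_comm]
  have hES : ∑ Y, G Y = Ns * E := by
    rw [hE, av, mul_div_cancel₀ _ hNs0.ne']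
  have h1 : ∀ c : Fin s → V (Fin (b + 1)),
      (∀ l : Fin s → ZMod 2, ∑ j, l j • (fun i : Fin b => c j i.succ) = 0 → l = 0) →
      ∑ u : Fin b → V α, G (fun j => c j 0 • x + ∑ i : Fin b, c j i.succ • u i) = Nu * E := by
    intro c hc
    have h2 := tv_sum_indep (α := α) s b (fun j i => c j i.succ) hc
      (fun Y => G (fun j => c j 0 • x + Y j))
    have h3 : ∑ Y : Fin s → V α, G (fun j => c j 0 • x + Y j) = ∑ Y, G Y :=
      Fintype.sum_equiv (Equiv.addLeft (fun j => c j 0 • x)) _ _ (fun Y => rfl)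
    simp only [h3, hES] at h2
    have h4 : Ns * ∑ u : Fin b → V α, G (fun j => c j 0 • x + ∑ i : Fin b, c j i.succ • u i) =
        Ns * (Nu * E) := by
      rw [← hNs, ← hNu] at h2
      linear_combination h2
    exact mul_left_cancel₀ hNs0.ne' h4
  have h2 : ∀ c : Fin s → V (Fin (b + 1)),
      |∑ u : Fin b → V α, G (fun j => c j 0 • x + ∑ i : Fin b, c j i.succ • u i) - Nu * E| ≤
      if (∀ l : Fin s → ZMod 2, ∑ j, l j • (fun i : Fin b => c j i.succ) = 0 → l = 0)
        then 0 else 2 * B * Nu := by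
    intro c
    split_ifs with hA
    · rw [h1 c hA, sub_self, abs_zero]
    · have h3 : |∑ u : Fin b → V α, G (fun j => c j 0 • x + ∑ i : Fin b, c j i.succ • u i)| ≤
          Nu * B := by
        refine (Finset.abs_sum_le_sum_abs _ _).trans ?_
        refine (Finset.sum_le_sum fun Φ _ => hG _).trans ?_
        rw [Finset.sum_const, Finset.card_univ, nsmul_eq_mul]
      have h4 : |Nu * E| ≤ Nu * B := by
        rw [abs_mul, abs_of_pos hNu0]
        exact mul_le_mul_of_nonneg_left hEM hNu0.le
      refine (abs_sub _ _).trans ?_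
      linarith
  have h5 : av (fun u : Fin b → V α => av (fun c : Fin s → V (Fin (b + 1)) =>
      G (fun j => c j 0 • x + ∑ i : Fin b, c j i.succ • u i))) - E =
      (∑ c : Fin s → V (Fin (b + 1)),
        (∑ u : Fin b → V α, G (fun j => c j 0 • x + ∑ i : Fin b, c j i.succ • u i) - Nu * E)) /
        (Nc * Nu) := by
    rw [Finset.sum_sub_distrib, Finset.sum_const, Finset.card_univ, nsmul_eq_mul, ← hNc,
      Finset.sum_comm]
    simp only [av]
    rw [← Finset.sum_div, ← hNc, ← hNu]
    field_simp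
  rw [h5, abs_div, abs_of_pos (mul_pos hNc0 hNu0), div_le_iff₀ (mul_pos hNc0 hNu0)]
  refine (Finset.abs_sum_le_sum_abs _ _).trans ?_
  refine (Finset.sum_le_sum fun c _ => h2 c).trans ?_
  have h6 : (∑ c : Fin s → V (Fin (b + 1)),
      if (∀ l : Fin s → ZMod 2, ∑ j, l j • (fun i : Fin b => c j i.succ) = 0 → l = 0)
        then (0 : ℝ) else 2 * B * Nu) =
      ((univ.filter fun c : Fin s → V (Fin (b + 1)) =>
      ¬ ∀ l : Fin s → ZMod 2, ∑ j, l j • (fun i : Fin b => c j i.succ) = 0 → l = 0).card : ℝ) *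
      (2 * B * Nu) := by
    rw [Finset.sum_ite, Finset.sum_const_zero, zero_add, Finset.sum_const, nsmul_eq_mul]
  rw [h6]
  have h7 := tv_card_dep s b
  rw [← hNc] at h7
  have h8 : ((univ.filter fun c : Fin s → V (Fin (b + 1)) =>
      ¬ ∀ l : Fin s → ZMod 2, ∑ j, l j • (fun i : Fin b => c j i.succ) = 0 → l = 0).card : ℝ) ≤
      2 ^ s * Nc / 2 ^ b := by
    rw [le_div_iff₀ (by positivity)]
    linarith
  calc _ ≤ 2 ^ s * Nc / 2 ^ b * (2 * B * Nu) :=
        mul_le_mul_of_nonneg_right h8 (by positivity)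
    _ = 2 * B * 2 ^ s / 2 ^ b * (Nc * Nu) := by ring

end Vale.Agent.P249.TP
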