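import Vale.Agent.P249.TP.Spec
import Vale.Agent.P249.TP.Basic
import Vale.Agent.P249.TP.Tv
import Vale.Agent.P249.TP.Rk

/-!
# P249 phase 2, block ABS: absorption of a rank one shift by a random matrix of rank `s`
-/

open Finset
open scoped BigOperators

namespace Vale.Agent.P249.TP

section alg

variable {α J I : Type}

lemma abs_smul_left (θ : V α →+ V J →+ V I) (c : ZMod 2) (a : V α) (y : V J) :
    θ (c • a) y = c • θ a y := by
  rcases zmod2_cases c with rfl | rfl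
  · simp
  · simp

lemma abs_smul_right (θ : V α →+ V J →+ V I) (c : ZMod 2) (a : V α) (y : V J) :
    θ a (c • y) = c • θ a y := by
  rcases zmod2_cases c with rfl | rfl
  · simp
  · simp

lemma abs_sum_left {κ : Type} (t : Finset κ) (θ : V α →+ V J →+ V I) (f : κ → V α) (y : V J) :
    θ (∑ i ∈ t, f i) y = ∑ i ∈ t, θ (f i) y := by
  rw [map_sum, AddMonoidHom.finsetSum_apply]

lemma bil_combo {b : ℕ} (θ : V α →+ V J →+ V I) (u : Fin b → V α) (v : Fin b → V J)
    (c d : V (Fin b)) :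
    θ (∑ i, c i • u i) (∑ i, d i • v i) = bil θ u v (fun a => c a.1 * d a.2) := by
  rw [abs_sum_left, bil, Fintype.sum_prod_type]
  refine Finset.sum_congr rfl fun i _ => ?_
  rw [abs_smul_left, map_sum, Finset.smul_sum]
  refine Finset.sum_congr rfl fun j _ => ?_
  rw [abs_smul_right, smul_smul]

lemma bil_add {b : ℕ} (θ : V α →+ V J →+ V I) (u : Fin b → V α) (v : Fin b → V J)
    (Z Z' : V (Fin b × Fin b)) : bil θ u v (Z + Z') = bil θ u v Z + bil θ u v Z' := by
  unfold bil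
  rw [← Finset.sum_add_distrib]
  refine Finset.sum_congr rfl fun a _ => ?_
  rw [Pi.add_apply, add_smul]

lemma bil_sum {b s : ℕ} (θ : V α →+ V J →+ V I) (u : Fin b → V α) (v : Fin b → V J)
    (Z : Fin s → V (Fin b × Fin b)) :
    bil θ u v (fun a => ∑ j, Z j a) = ∑ j, bil θ u v (Z j) := by
  unfold bil
  rw [Finset.sum_comm]
  refine Finset.sum_congr rfl fun a _ => ?_
  rw [Finset.sum_smul]

lemma bil_single {b : ℕ} (θ : V α →+ V J →+ V I) (u : Fin b → V α) (v : Fin b → V J)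
    (q : Fin b × Fin b) : bil θ u v (Pi.single q 1) = θ (u q.1) (v q.2) := by
  unfold bil
  rw [Finset.sum_eq_single q]
  · rw [Pi.single_eq_same, one_smul]
  · intro q' _ hne
    rw [Pi.single_eq_of_ne hne, zero_smul]
  · intro h; exact absurd (Finset.mem_univ _) h

/-- coefficients of a random matrix of rank at most `s` -/
def zz {s b : ℕ} (q : (Fin s → V (Fin b)) × (Fin s → V (Fin b))) : V (Fin b × Fin b) :=
  fun a => ∑ j, q.1 j a.1 * q.2 j a.2

lemma bil_zz {s b : ℕ} (θ : V α →+ V J →+ V I) (u : Fin b → V α) (v : Fin b → V J)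
    (q : (Fin s → V (Fin b)) × (Fin s → V (Fin b))) :
    ∑ j, θ (∑ i, q.1 j i • u i) (∑ i, q.2 j i • v i) = bil θ u v (zz q) := by
  unfold zz
  rw [bil_sum θ u v (fun j a => q.1 j a.1 * q.2 j a.2)]
  exact Finset.sum_congr rfl fun j _ => bil_combo θ u v _ _

end alg

/-- the law of `E₀₀ + Z` minus the law of `Z` -/
noncomputable def omg (s b : ℕ) (E Z : V (Fin b × Fin b)) : ℝ :=
  av (fun q : (Fin s → V (Fin b)) × (Fin s → V (Fin b)) =>
    (if E + zz q = Z then (1 : ℝ) else 0) - (if zz q = Z then (1 : ℝ) else 0))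

lemma sum_omg (s b : ℕ) (E : V (Fin b × Fin b)) (h : V (Fin b × Fin b) → ℝ) :
    ∑ Z, omg s b E Z * h Z =
      av (fun q : (Fin s → V (Fin b)) × (Fin s → V (Fin b)) => h (E + zz q) - h (zz q)) := by
  unfold omg
  simp_rw [← av_mul_right]
  rw [← av_sum]
  refine av_congr fun q => ?_
  simp_rw [sub_mul]
  rw [Finset.sum_sub_distrib]
  simp

lemma sum_abs_omg (s b : ℕ) (E : V (Fin b × Fin b)) : ∑ Z, |omg s b E Z| ≤ 2 := by
  have h1 : ∀ Z, |omg s b E Z| ≤ av (fun q : (Fin s → V (Fin b)) × (Fin s → V (Fin b)) =>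
      (if E + zz q = Z then (1 : ℝ) else 0) + (if zz q = Z then (1 : ℝ) else 0)) := by
    intro Z
    refine (abs_av_le _).trans (av_mono fun q => ?_)
    refine (abs_sub _ _).trans ?_
    apply add_le_add
    · split_ifs <;> simp
    · split_ifs <;> simp
  refine (Finset.sum_le_sum fun Z _ => h1 Z).trans ?_
  rw [← av_sum]
  refine av_le_of_le fun q => ?_
  rw [Finset.sum_add_distrib]
  simp
  norm_num

lemma hat_omg (s b : ℕ) (E z : V (Fin b × Fin b)) :
    hat (omg s b E) z = (w z E - 1) *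
      av (fun q : (Fin s → V (Fin b)) × (Fin s → V (Fin b)) =>
        w z (fun a => ∑ j, q.1 j a.1 * q.2 j a.2)) := by
  unfold hat
  rw [sum_omg s b E (fun Z => w z Z), ← av_mul_left]
  refine av_congr fun q => ?_
  rw [w_add_right, sub_mul, one_mul]
  rfl

lemma sum_hat_omg (hRk : SpecRk) (s b : ℕ) (r : ℝ) (hr : 2 < r) (hb : 2 * (b : ℝ) + 1 ≤ r * s)
    (E : V (Fin b × Fin b)) :
    ∑ z, |hat (omg s b E) z| ^ r ≤ 2 ^ r * (4 * (2 : ℝ) ^ (2 * (b : ℝ) - r * s)) := by
  classical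
  have h1 := hRk s b r hb
  have h2 : ∑ z, |hat (omg s b E) z| ^ r =
      ∑ z ∈ univ.filter (fun z : V (Fin b × Fin b) => z ≠ 0), |hat (omg s b E) z| ^ r := by
    rw [Finset.sum_filter]
    refine Finset.sum_congr rfl fun z _ => ?_
    split_ifs with hz
    · rfl
    · push Not at hz
      rw [hz, hat_omg, w_zero, sub_self, zero_mul, abs_zero, Real.zero_rpow (by linarith)]
  rw [h2]
  have h3 : ∀ z : V (Fin b × Fin b), |hat (omg s b E) z| ^ r ≤
      2 ^ r * |av (fun q : (Fin s → V (Fin b)) × (Fin s → V (Fin b)) =>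
        w z (fun a => ∑ j, q.1 j a.1 * q.2 j a.2))| ^ r := by
    intro z
    rw [← Real.mul_rpow (by norm_num) (abs_nonneg _)]
    apply Real.rpow_le_rpow (abs_nonneg _) _ (by linarith)
    rw [hat_omg, abs_mul]
    apply mul_le_mul_of_nonneg_right _ (abs_nonneg _)
    refine (abs_sub _ _).trans ?_
    rw [abs_w, abs_one]
    norm_num
  refine (Finset.sum_le_sum fun z _ => h3 z).trans ?_
  rw [← Finset.mul_sum]
  exact mul_le_mul_of_nonneg_left h1 (by positivity)

/-- averaging `g` over the two laws, frames fixed -/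
lemma abs_frames (hRk : SpecRk) {α J I : Type} (s b0 : ℕ) (r : ℝ) (hr : 2 < r)
    (hb : 2 * ((b0 + 1 : ℕ) : ℝ) + 1 ≤ r * s) (hb2 : b0 + 1 ≤ 2 * s + 1)
    (θ : V α →+ V J →+ V I) (ξ₀ : V I) (g : V I → ℝ) (D η : ℝ) (hη : 0 ≤ η) (hD : 0 ≤ D)
    (hkey : ∀ b : ℕ, b ≤ 2 * s + 1 → ∀ (u : Fin b → V α) (v : Fin b → V J)
      (ω : V (Fin b × Fin b) → ℝ),
      |∑ Z, ω Z * g (ξ₀ + bil θ u v Z)| ≤
        D * (∑ z, |hat ω z| ^ r) ^ (1 / r) + η * ∑ Z, |ω Z|)
    (x : V α) (y : V J) (u : Fin b0 → V α) (v : Fin b0 → V J) :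
    |av (fun q : (Fin s → V (Fin (b0 + 1))) × (Fin s → V (Fin (b0 + 1))) =>
      g (ξ₀ + θ x y + ∑ j, θ (q.1 j 0 • x + ∑ i : Fin b0, q.1 j i.succ • u i)
          (q.2 j 0 • y + ∑ i : Fin b0, q.2 j i.succ • v i)) -
        g (ξ₀ + ∑ j, θ (q.1 j 0 • x + ∑ i : Fin b0, q.1 j i.succ • u i)
          (q.2 j 0 • y + ∑ i : Fin b0, q.2 j i.succ • v i)))| ≤
      D * (2 ^ r * (4 * (2 : ℝ) ^ (2 * ((b0 + 1 : ℕ) : ℝ) - r * s))) ^ (1 / r) + 2 * η := by
  classical
  set uh : Fin (b0 + 1) → V α := Fin.cons x u with huh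
  set vh : Fin (b0 + 1) → V J := Fin.cons y v with hvh
  set E : V (Fin (b0 + 1) × Fin (b0 + 1)) := Pi.single (0, 0) 1 with hE
  have h1 : ∀ q : (Fin s → V (Fin (b0 + 1))) × (Fin s → V (Fin (b0 + 1))),
      ∑ j, θ (q.1 j 0 • x + ∑ i : Fin b0, q.1 j i.succ • u i)
          (q.2 j 0 • y + ∑ i : Fin b0, q.2 j i.succ • v i) = bil θ uh vh (zz q) := by
    intro q
    rw [← bil_zz]
    refine Finset.sum_congr rfl fun j _ => ?_
    rw [Fin.sum_univ_succ, Fin.sum_univ_succ]
    simp [huh, hvh]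
  have h2 : θ x y = bil θ uh vh E := by
    rw [hE, bil_single]
    simp [huh, hvh]
  have h3 := hkey (b0 + 1) hb2 uh vh (omg s (b0 + 1) E)
  rw [sum_omg s (b0 + 1) E (fun Z => g (ξ₀ + bil θ uh vh Z))] at h3
  have h4 : av (fun q : (Fin s → V (Fin (b0 + 1))) × (Fin s → V (Fin (b0 + 1))) =>
      g (ξ₀ + θ x y + ∑ j, θ (q.1 j 0 • x + ∑ i : Fin b0, q.1 j i.succ • u i)
          (q.2 j 0 • y + ∑ i : Fin b0, q.2 j i.succ • v i)) -
        g (ξ₀ + ∑ j, θ (q.1 j 0 • x + ∑ i : Fin b0, q.1 j i.succ • u i)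
          (q.2 j 0 • y + ∑ i : Fin b0, q.2 j i.succ • v i))) =
      av (fun q : (Fin s → V (Fin (b0 + 1))) × (Fin s → V (Fin (b0 + 1))) =>
        g (ξ₀ + bil θ uh vh (E + zz q)) - g (ξ₀ + bil θ uh vh (zz q))) := by
    refine av_congr fun q => ?_
    rw [h1 q, h2, bil_add, add_assoc]
  rw [h4]
  refine h3.trans ?_
  have h5 := sum_hat_omg hRk s (b0 + 1) r hr hb E
  have h6 := sum_abs_omg s (b0 + 1) E
  have h7 : (∑ z, |hat (omg s (b0 + 1) E) z| ^ r) ^ (1 / r) ≤
      (2 ^ r * (4 * (2 : ℝ) ^ (2 * ((b0 + 1 : ℕ) : ℝ) - r * s))) ^ (1 / r) := by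
    apply Real.rpow_le_rpow _ h5
    · exact div_nonneg zero_le_one (by linarith)
    · exact Finset.sum_nonneg fun z _ => Real.rpow_nonneg (abs_nonneg _) _
  have h8 := mul_le_mul_of_nonneg_left h7 hD
  have h9 := mul_le_mul_of_nonneg_left h6 hη
  linarith

/-- TV twice -/
lemma tv_twice (hTv : SpecTv) {α J : Type} [Fintype α] [DecidableEq α] [Fintype J] [DecidableEq J]
    (s b0 : ℕ) (W : (Fin s → V α) → (Fin s → V J) → ℝ) (D : ℝ) (hW : ∀ a c, |W a c| ≤ D)
    (x : V α) (y : V J) :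
    |av (fun u : Fin b0 → V α => av (fun v : Fin b0 → V J =>
        av (fun q : (Fin s → V (Fin (b0 + 1))) × (Fin s → V (Fin (b0 + 1))) =>
          W (fun j => q.1 j 0 • x + ∑ i : Fin b0, q.1 j i.succ • u i)
            (fun j => q.2 j 0 • y + ∑ i : Fin b0, q.2 j i.succ • v i)))) -
      av (fun q : (Fin s → V α) × (Fin s → V J) => W q.1 q.2)| ≤ 4 * D * 2 ^ s / 2 ^ b0 := by
  have e1 : av (fun u : Fin b0 → V α => av (fun v : Fin b0 → V J =>
        av (fun q : (Fin s → V (Fin (b0 + 1))) × (Fin s → V (Fin (b0 + 1))) =>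
          W (fun j => q.1 j 0 • x + ∑ i : Fin b0, q.1 j i.succ • u i)
            (fun j => q.2 j 0 • y + ∑ i : Fin b0, q.2 j i.succ • v i)))) =
      av (fun u : Fin b0 → V α => av (fun c : Fin s → V (Fin (b0 + 1)) =>
        av (fun v : Fin b0 → V J => av (fun d : Fin s → V (Fin (b0 + 1)) =>
          W (fun j => c j 0 • x + ∑ i : Fin b0, c j i.succ • u i)
            (fun j => d j 0 • y + ∑ i : Fin b0, d j i.succ • v i))))) := by
    refine av_congr fun u => ?_
    rw [av_comm (fun (c : Fin s → V (Fin (b0 + 1))) (v : Fin b0 → V J) =>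
      av (fun d : Fin s → V (Fin (b0 + 1)) =>
          W (fun j => c j 0 • x + ∑ i : Fin b0, c j i.succ • u i)
            (fun j => d j 0 • y + ∑ i : Fin b0, d j i.succ • v i)))]
    refine av_congr fun v => ?_
    rw [av_prod]
  have e2 : |av (fun u : Fin b0 → V α => av (fun c : Fin s → V (Fin (b0 + 1)) =>
        av (fun v : Fin b0 → V J => av (fun d : Fin s → V (Fin (b0 + 1)) =>
          W (fun j => c j 0 • x + ∑ i : Fin b0, c j i.succ • u i)
            (fun j => d j 0 • y + ∑ i : Fin b0, d j i.succ • v i))))) -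
      av (fun u : Fin b0 → V α => av (fun c : Fin s → V (Fin (b0 + 1)) =>
        av (fun d : Fin s → V J =>
          W (fun j => c j 0 • x + ∑ i : Fin b0, c j i.succ • u i) d)))| ≤
      2 * D * 2 ^ s / 2 ^ b0 := by
    rw [← av_sub]
    refine abs_av_le_of_le fun u => ?_
    rw [← av_sub]
    refine abs_av_le_of_le fun c => ?_
    exact hTv J s b0 y (fun d => W (fun j => c j 0 • x + ∑ i : Fin b0, c j i.succ • u i) d) D
      (fun d => hW _ d)
  have e3 : av (fun u : Fin b0 → V α => av (fun c : Fin s → V (Fin (b0 + 1)) =>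
        av (fun d : Fin s → V J =>
          W (fun j => c j 0 • x + ∑ i : Fin b0, c j i.succ • u i) d))) =
      av (fun d : Fin s → V J => av (fun u : Fin b0 → V α =>
        av (fun c : Fin s → V (Fin (b0 + 1)) =>
          W (fun j => c j 0 • x + ∑ i : Fin b0, c j i.succ • u i) d))) := by
    rw [av_comm (fun (d : Fin s → V J) (u : Fin b0 → V α) =>
      av (fun c : Fin s → V (Fin (b0 + 1)) =>
          W (fun j => c j 0 • x + ∑ i : Fin b0, c j i.succ • u i) d))]
    refine av_congr fun u => ?_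
    rw [av_comm]
  have e4 : av (fun q : (Fin s → V α) × (Fin s → V J) => W q.1 q.2) =
      av (fun d : Fin s → V J => av (fun a : Fin s → V α => W a d)) := by
    rw [av_prod, av_comm]
  have e5 : |av (fun d : Fin s → V J => av (fun u : Fin b0 → V α =>
        av (fun c : Fin s → V (Fin (b0 + 1)) =>
          W (fun j => c j 0 • x + ∑ i : Fin b0, c j i.succ • u i) d))) -
      av (fun d : Fin s → V J => av (fun a : Fin s → V α => W a d))| ≤
      2 * D * 2 ^ s / 2 ^ b0 := by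
    rw [← av_sub]
    refine abs_av_le_of_le fun d => ?_
    exact hTv α s b0 x (fun a => W a d) D (fun a => hW a d)
  rw [e1, e4]
  rw [e3] at e2
  calc _ ≤ 2 * D * 2 ^ s / 2 ^ b0 + 2 * D * 2 ^ s / 2 ^ b0 := by
        refine (abs_sub_le _ _ _).trans (add_le_add e2 e5)
    _ = _ := by ring

theorem specAbs_of (hTv : SpecTv) (hRk : SpecRk) : SpecAbs := by
  classical
  intro r hr
  set r' : ℝ := min r 3 with hr'
  have hr'2 : 2 < r' := lt_min hr (by norm_num)
  have hr'3 : r' ≤ 3 := min_le_right _ _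
  have hr'r : r' ≤ r := min_le_left _ _
  have hr0 : 0 < r := by linarith
  refine ⟨(r' - 2) / (2 * r), 24, by
    apply div_pos (by linarith) (by linarith), by norm_num, ?_⟩
  intro s hs α J I _ _ _ _ θ ξ₀ g D η hη hD hkey x y
  have hs1 : (1 : ℝ) ≤ s := by exact_mod_cast hs
  have hD0 : 0 ≤ D := (abs_nonneg _).trans (hD 0 0)
  -- bounds for the two functions
  have hW0 : ∀ (a : Fin s → V α) (c : Fin s → V J), |g (ξ₀ + ∑ j, θ (a j) (c j))| ≤ D := by
    intro a c
    have h := hD (Fin.cons 0 a) (Fin.cons 0 c)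
    rw [Fin.sum_univ_succ] at h
    simpa using h
  have hW1 : ∀ (a : Fin s → V α) (c : Fin s → V J),
      |g (ξ₀ + θ x y + ∑ j, θ (a j) (c j))| ≤ D := by
    intro a c
    have h := hD (Fin.cons x a) (Fin.cons y c)
    rw [Fin.sum_univ_succ] at h
    simpa [add_assoc] using h
  by_cases hsm : (s : ℝ) * (r' - 2) < 6
  · -- trivial bound
    have h1 : |av (fun q : (Fin s → V α) × (Fin s → V J) =>
        g (ξ₀ + θ x y + ∑ j, θ (q.1 j) (q.2 j)) - g (ξ₀ + ∑ j, θ (q.1 j) (q.2 j)))| ≤ 2 * D := by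
      refine abs_av_le_of_le fun q => ?_
      refine (abs_sub _ _).trans ?_
      have := hW1 q.1 q.2
      have := hW0 q.1 q.2
      linarith
    have h2 : (1 / 4 : ℝ) ≤ (2 : ℝ) ^ (-((r' - 2) / (2 * r)) * (s : ℝ)) := by
      have h3 : (1 / 4 : ℝ) = (2 : ℝ) ^ (-2 : ℝ) := by
        rw [Real.rpow_neg (by norm_num)]; norm_num
      rw [h3]
      apply Real.rpow_le_rpow_of_exponent_le (by norm_num)
      have h4 : (r' - 2) / (2 * r) * s = (s * (r' - 2)) / (2 * r) := by ring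
      have h5 : (s * (r' - 2)) / (2 * r) ≤ 2 := by
        rw [div_le_iff₀ (by linarith)]
        linarith
      rw [neg_mul, h4]
      linarith
    have h6 : 24 * D * (1 / 4) ≤ 24 * D * (2 : ℝ) ^ (-((r' - 2) / (2 * r)) * (s : ℝ)) :=
      mul_le_mul_of_nonneg_left h2 (by positivity)
    linarith
  · push Not at hsm
    set b0 : ℕ := ⌊(s : ℝ) * (2 + r') / 4⌋₊ with hb0
    have hb0le : (b0 : ℝ) ≤ s * (2 + r') / 4 := Nat.floor_le (by positivity)
    have hb0lt : s * (2 + r') / 4 < (b0 : ℝ) + 1 := Nat.lt_floor_add_one _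
    have hb2 : b0 ≤ 2 * s := by
      have h1 : (b0 : ℝ) ≤ 2 * s := by nlinarith
      exact_mod_cast h1
    have hrs : r' * s ≤ r * s := mul_le_mul_of_nonneg_right hr'r (by linarith)
    have hb : 2 * ((b0 + 1 : ℕ) : ℝ) + 1 ≤ r * s := by
      push_cast
      nlinarith
    -- the four pieces
    have t1 := tv_twice hTv s b0 (fun a c => g (ξ₀ + θ x y + ∑ j, θ (a j) (c j))) D hW1 x y
    have t0 := tv_twice hTv s b0 (fun a c => g (ξ₀ + ∑ j, θ (a j) (c j))) D hW0 x y
    have t2 : |av (fun u : Fin b0 → V α => av (fun v : Fin b0 → V J =>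
          av (fun q : (Fin s → V (Fin (b0 + 1))) × (Fin s → V (Fin (b0 + 1))) =>
            g (ξ₀ + θ x y + ∑ j, θ (q.1 j 0 • x + ∑ i : Fin b0, q.1 j i.succ • u i)
              (q.2 j 0 • y + ∑ i : Fin b0, q.2 j i.succ • v i))))) -
        av (fun u : Fin b0 → V α => av (fun v : Fin b0 → V J =>
          av (fun q : (Fin s → V (Fin (b0 + 1))) × (Fin s → V (Fin (b0 + 1))) =>
            g (ξ₀ + ∑ j, θ (q.1 j 0 • x + ∑ i : Fin b0, q.1 j i.succ • u i)
              (q.2 j 0 • y + ∑ i : Fin b0, q.2 j i.succ • v i)))))| ≤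
        D * (2 ^ r * (4 * (2 : ℝ) ^ (2 * ((b0 + 1 : ℕ) : ℝ) - r * s))) ^ (1 / r) + 2 * η := by
      rw [← av_sub]
      refine abs_av_le_of_le fun u => ?_
      rw [← av_sub]
      refine abs_av_le_of_le fun v => ?_
      rw [← av_sub]
      exact abs_frames hRk s b0 r hr hb (by omega) θ ξ₀ g D η hη hD0 hkey x y u v
    -- numerics
    have hx0 : (0 : ℝ) < (2 : ℝ) ^ (-((r' - 2) / (2 * r)) * (s : ℝ)) := by positivity
    have n1 : (2 : ℝ) ^ s / 2 ^ b0 ≤ 2 * (2 : ℝ) ^ (-((r' - 2) / (2 * r)) * (s : ℝ)) := by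
      rw [← Real.rpow_natCast, ← Real.rpow_natCast, ← Real.rpow_sub (by norm_num)]
      have h1 : (2 : ℝ) * (2 : ℝ) ^ (-((r' - 2) / (2 * r)) * (s : ℝ)) =
          (2 : ℝ) ^ (1 + -((r' - 2) / (2 * r)) * (s : ℝ)) := by
        rw [Real.rpow_add (by norm_num), Real.rpow_one]
      rw [h1]
      apply Real.rpow_le_rpow_of_exponent_le (by norm_num)
      have h2 : (r' - 2) / (2 * r) * s ≤ (s * (r' - 2)) / 4 := by
        have h3 : (r' - 2) / (2 * r) * s = (s * (r' - 2)) / (2 * r) := by ring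
        rw [h3]
        apply div_le_div_of_nonneg_left _ (by norm_num) (by linarith)
        nlinarith
      have h4 : (s : ℝ) * (2 + r') / 4 = s + s * (r' - 2) / 4 := by ring
      rw [neg_mul]
      linarith
    have n2 : (2 ^ r * (4 * (2 : ℝ) ^ (2 * ((b0 + 1 : ℕ) : ℝ) - r * s))) ^ (1 / r) ≤
        8 * (2 : ℝ) ^ (-((r' - 2) / (2 * r)) * (s : ℝ)) := by
      have h1 : (2 : ℝ) ^ r * (4 * (2 : ℝ) ^ (2 * ((b0 + 1 : ℕ) : ℝ) - r * s)) =
          (2 : ℝ) ^ (r + (2 + (2 * ((b0 + 1 : ℕ) : ℝ) - r * s))) := by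
        rw [Real.rpow_add (by norm_num), Real.rpow_add (by norm_num) 2]
        norm_num
      have h2 : (8 : ℝ) * (2 : ℝ) ^ (-((r' - 2) / (2 * r)) * (s : ℝ)) =
          (2 : ℝ) ^ (3 + -((r' - 2) / (2 * r)) * (s : ℝ)) := by
        rw [Real.rpow_add (by norm_num)]
        norm_num
      rw [h1, h2, ← Real.rpow_mul (by norm_num)]
      apply Real.rpow_le_rpow_of_exponent_le (by norm_num)
      rw [mul_one_div, div_le_iff₀ hr0]
      have h3 : (3 + -((r' - 2) / (2 * r)) * (s : ℝ)) * r = 3 * r - (r' - 2) * s / 2 := by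
        field_simp
        ring
      rw [h3]
      push_cast
      nlinarith
    -- assembly
    have n3 := mul_le_mul_of_nonneg_left n1 (by positivity : (0 : ℝ) ≤ 4 * D)
    have n4 := mul_le_mul_of_nonneg_left n2 hD0
    have n5 : 4 * D * 2 ^ s / 2 ^ b0 = 4 * D * (2 ^ s / 2 ^ b0) := by ring
    rw [n5] at t1 t0
    rw [av_sub]
    rw [abs_le] at t0 t1 t2 ⊢
    constructor <;> nlinarith [t0.1, t0.2, t1.1, t1.2, t2.1, t2.2]

theorem specAbs : SpecAbs := specAbs_of specTv specRk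

end Vale.Agent.P249.TP
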