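import Vale.Agent.P249.TP.Basic

/-!
# BLOCK: absorption of a rank one tensor by a random block, mode by mode
-/

open Finset
open scoped BigOperators

namespace Vale.Agent.P249.TP.Block


variable {k s n : ℕ}

lemma tens_update (X : Fin k → V (Fin n)) (l : Fin k) (a : V (Fin n)) (i : Fin k → Fin n) :
    tens (Function.update X l a) i = a (i l) * ∏ l' ∈ univ.erase l, X l' (i l') := by
  rw [tens, ← Finset.mul_prod_erase univ _ (Finset.mem_univ l), Function.update_self]
  congr 1
  refine Finset.prod_congr rfl fun l' hl' => ?_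
  rw [Function.update_of_ne (Finset.ne_of_mem_erase hl')]

/-- index set of the other modes -/
abbrev J (k s : ℕ) (l : Fin k) := {j : Fin k → Fin (s + 1) // j l = 0}

/-- the bilinear map of mode `l` -/
noncomputable def th (B : Fin k → Fin (s + 1) → V (Fin n)) (l : Fin k) :
    V (Fin n) →+ V (J k s l) →+ V (Fin k → Fin n) :=
  AddMonoidHom.mk' (fun a => AddMonoidHom.mk'
    (fun c => ∑ j : J k s l, c j • tens (Function.update (fun l' => B l' (j.1 l')) l a))
    (by
      intro c c'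
      rw [← Finset.sum_add_distrib]
      exact Finset.sum_congr rfl fun j _ => by rw [Pi.add_apply, add_smul]))
    (by
      intro a a'
      refine AddMonoidHom.ext fun c => ?_
      simp only [AddMonoidHom.mk'_apply, AddMonoidHom.add_apply]
      rw [← Finset.sum_add_distrib]
      exact Finset.sum_congr rfl fun j _ => by rw [tens_update_add, smul_add])

lemma th_apply (B : Fin k → Fin (s + 1) → V (Fin n)) (l : Fin k) (a : V (Fin n))
    (c : V (J k s l)) :
    th B l a c = ∑ j : J k s l, c j • tens (Function.update (fun l' => B l' (j.1 l')) l a) := rfl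

lemma th_congr {B B' : Fin k → Fin (s + 1) → V (Fin n)} {l : Fin k}
    (h : ∀ l', l' ≠ l → B l' = B' l') : th B l = th B' l := by
  refine AddMonoidHom.ext fun a => AddMonoidHom.ext fun c => ?_
  rw [th_apply, th_apply]
  refine Finset.sum_congr rfl fun j _ => ?_
  congr 2
  funext l'
  by_cases hl : l' = l
  · subst hl; simp
  · rw [Function.update_of_ne hl, Function.update_of_ne hl, h l' hl]

/-- splitting of an index along mode `l` -/
def e (k s : ℕ) (l : Fin k) : Fin (s + 1) × J k s l ≃ (Fin k → Fin (s + 1)) where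
  toFun q := Function.update q.2.1 l q.1
  invFun j := (j l, ⟨Function.update j l 0, by simp⟩)
  left_inv := by
    rintro ⟨j0, j', hj'⟩
    simp only [Function.update_self, Function.update_idem, Prod.mk.injEq, Subtype.mk.injEq, true_and]
    rw [← hj', Function.update_eq_self]
  right_inv := by
    intro j
    simp

lemma blk_eq (A : Fin k → Fin (s + 1) → V (Fin n)) (c : V (Fin k → Fin (s + 1))) (l : Fin k) :
    blk A c = ∑ j0 : Fin (s + 1), th A l (A l j0) (fun j' => c (Function.update j'.1 l j0)) := by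
  rw [blk, ← (e k s l).sum_comp, Fintype.sum_prod_type]
  refine Finset.sum_congr rfl fun j0 _ => ?_
  rw [th_apply]
  refine Finset.sum_congr rfl fun j' _ => ?_
  change c (Function.update j'.1 l j0) • tens (fun l' => A l' (Function.update j'.1 l j0 l')) = _
  congr 2
  funext l'
  by_cases hl : l' = l
  · subst hl; simp
  · rw [Function.update_of_ne hl, Function.update_of_ne hl]

/-! ### Tucker rank -/

/-- span of the rank one tensors with factors in `T` -/
def sp (T : Fin k → Finset (V (Fin n))) : Submodule (ZMod 2) (V (Fin k → Fin n)) :=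
  Submodule.span (ZMod 2) {S | ∃ X : Fin k → V (Fin n), (∀ l, X l ∈ T l) ∧ S = tens X}

lemma inK_of_sp {r : ℕ} (T : Fin k → Finset (V (Fin n))) (hT : ∀ l, (T l).card ≤ r)
    {S : V (Fin k → Fin n)} (hS : S ∈ sp T) : InK k n r S := by
  classical
  -- frames containing `T`
  have hfr : ∀ l, ∃ A : Fin r → V (Fin n), ∀ x ∈ T l, ∃ j, A j = x := by
    intro l
    refine ⟨fun j => (T l).toList.getD j 0, fun x hx => ?_⟩
    have hx' : x ∈ (T l).toList := Finset.mem_toList.mpr hx
    obtain ⟨j, hj, hjx⟩ := List.mem_iff_getElem.mp hx'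
    have hj2 : j < r := by
      have := Finset.length_toList (T l)
      have h3 := hT l
      omega
    refine ⟨⟨j, hj2⟩, ?_⟩
    simp only
    rw [List.getD_eq_getElem _ _ hj, hjx]
  choose A hA using hfr
  refine ⟨A, ?_⟩
  refine Submodule.span_induction (p := fun S _ => ∃ c, S = blk A c) ?_ ?_ ?_ ?_ hS
  · rintro S ⟨X, hX, rfl⟩
    choose j hj using fun l => hA l (X l) (hX l)
    refine ⟨Pi.single j 1, ?_⟩
    rw [blk, Finset.sum_eq_single j]
    · rw [Pi.single_eq_same, one_smul]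
      congr 1
      funext l
      exact (hj l).symm
    · intro j' _ hj'
      rw [Pi.single_eq_of_ne hj', zero_smul]
    · intro h; exact absurd (Finset.mem_univ _) h
  · refine ⟨0, ?_⟩
    simp [blk]
  · rintro S S' _ _ ⟨c, rfl⟩ ⟨c', rfl⟩
    exact ⟨c + c', (blk_add A c c').symm⟩
  · rintro a S _ ⟨c, rfl⟩
    refine ⟨a • c, ?_⟩
    rw [blk, blk, Finset.smul_sum]
    refine Finset.sum_congr rfl fun j _ => ?_
    rw [Pi.smul_apply, smul_smul, smul_eq_mul]

/-- the vectors needed in each mode -/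
noncomputable def TT (B : Fin k → Fin (s + 1) → V (Fin n)) (l : Fin k) {b : ℕ}
    (u : Fin b → V (Fin n)) (x : Fin k → V (Fin n)) (l' : Fin k) : Finset (V (Fin n)) :=
  insert (x l') (if l' = l then univ.image u else univ.image (B l'))

lemma TT_card (B : Fin k → Fin (s + 1) → V (Fin n)) (l : Fin k) {b : ℕ}
    (u : Fin b → V (Fin n)) (x : Fin k → V (Fin n)) (hb : b ≤ 2 * s + 2) (l' : Fin k) :
    (TT B l u x l').card ≤ 2 * s + 3 := by
  unfold TT
  refine (Finset.card_insert_le _ _).trans ?_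
  split_ifs
  · have := Finset.card_image_le (s := univ) (f := u)
    rw [Finset.card_univ, Fintype.card_fin] at this
    omega
  · have := Finset.card_image_le (s := univ) (f := B l')
    rw [Finset.card_univ, Fintype.card_fin] at this
    omega

lemma th_mem (B : Fin k → Fin (s + 1) → V (Fin n)) (l : Fin k) {b : ℕ}
    (u : Fin b → V (Fin n)) (x : Fin k → V (Fin n)) (j : Fin b) (c : V (J k s l)) :
    th B l (u j) c ∈ sp (TT B l u x) := by
  rw [th_apply]
  refine Submodule.sum_mem _ fun j' _ => Submodule.smul_mem _ _ (Submodule.subset_span ?_)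
  refine ⟨_, fun l' => ?_, rfl⟩
  by_cases hl : l' = l
  · subst hl
    rw [Function.update_self, TT, if_pos rfl]
    exact Finset.mem_insert_of_mem (Finset.mem_image_of_mem _ (Finset.mem_univ _))
  · rw [Function.update_of_ne hl, TT, if_neg hl]
    exact Finset.mem_insert_of_mem (Finset.mem_image_of_mem _ (Finset.mem_univ _))

lemma tens_mem (B : Fin k → Fin (s + 1) → V (Fin n)) (l : Fin k) {b : ℕ}
    (u : Fin b → V (Fin n)) (x : Fin k → V (Fin n)) : tens x ∈ sp (TT B l u x) :=
  Submodule.subset_span ⟨x, fun _ => Finset.mem_insert_self _ _, rfl⟩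

/-! ### Replacement of one frame vector -/

/-- frame with the first vector of the modes `< t` replaced by `x` -/
def R (x : Fin k → V (Fin n)) (t : ℕ) (A : Fin k → Fin (s + 1) → V (Fin n)) :
    Fin k → Fin (s + 1) → V (Fin n) :=
  fun l j => if (l : ℕ) < t ∧ j = 0 then x l else A l j

/-- new frame -/
def nA (l : Fin k) (A : Fin k → Fin (s + 1) → V (Fin n)) (a : Fin s → V (Fin n)) :
    Fin k → Fin (s + 1) → V (Fin n) := Function.update A l (Fin.cons (A l 0) a)

/-- new coefficients -/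
def nc (l : Fin k) (c : V (Fin k → Fin (s + 1))) (d : Fin s → V (J k s l)) :
    V (Fin k → Fin (s + 1)) := fun j =>
  (Fin.cons (fun j' : J k s l => c (Function.update j'.1 l 0)) d : Fin (s + 1) → V (J k s l))
    (j l) ⟨Function.update j l 0, by simp⟩

lemma J_update (l : Fin k) (j' : J k s l) : Function.update j'.1 l 0 = j'.1 := by
  funext l'
  by_cases h : l' = l
  · subst h
    rw [Function.update_self]
    exact j'.2.symm
  · rw [Function.update_of_ne h]

lemma nc_update (l : Fin k) (c : V (Fin k → Fin (s + 1))) (d : Fin s → V (J k s l))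
    (j' : J k s l) (j0 : Fin (s + 1)) :
    nc l c d (Function.update j'.1 l j0) =
      (Fin.cons (fun j' : J k s l => c (Function.update j'.1 l 0)) d : Fin (s + 1) → V (J k s l))
        j0 j' := by
  unfold nc
  have h1 : Function.update j'.1 l j0 l = j0 := Function.update_self _ _ _
  have h2 : (⟨Function.update (Function.update j'.1 l j0) l 0, by simp⟩ : J k s l) = j' := by
    apply Subtype.ext
    simp only [Function.update_idem]
    exact J_update l j'
  rw [h2, h1]

abbrev Q (k s n : ℕ) := Fr k (s + 1) n × V (Fin k → Fin (s + 1))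
abbrev Q' (k s n : ℕ) (l : Fin k) := (Fin s → V (Fin n)) × (Fin s → V (J k s l))

/-- exchange of the fresh variables -/
def sw (l : Fin k) (q : Q k s n × Q' k s n l) : Q k s n × Q' k s n l :=
  ((nA l q.1.1 q.2.1, nc l q.1.2 q.2.2),
    (fun j => q.1.1 l j.succ, fun j j' => q.1.2 (Function.update j'.1 l j.succ)))

lemma nA_nA (l : Fin k) (A : Fin k → Fin (s + 1) → V (Fin n)) (a : Fin s → V (Fin n)) :
    nA l (nA l A a) (fun j => A l j.succ) = A := by
  funext l'
  unfold nA
  by_cases hl : l' = l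
  · subst hl
    rw [Function.update_self, Function.update_self]
    funext j
    refine Fin.cases ?_ (fun j => ?_) j
    · simp
    · simp
  · rw [Function.update_of_ne hl, Function.update_of_ne hl]

lemma nc_nc (l : Fin k) (c : V (Fin k → Fin (s + 1))) (d : Fin s → V (J k s l)) :
    nc l (nc l c d) (fun j j' => c (Function.update j'.1 l j.succ)) = c := by
  funext j
  obtain ⟨⟨j0, j'⟩, rfl⟩ := (e k s l).surjective j
  change nc l (nc l c d) _ (Function.update j'.1 l j0) = c (Function.update j'.1 l j0)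
  rw [nc_update]
  refine Fin.cases ?_ (fun j0 => ?_) j0
  · rw [Fin.cons_zero, nc_update, Fin.cons_zero]
  · rw [Fin.cons_succ]

lemma nA_succ (l : Fin k) (A : Fin k → Fin (s + 1) → V (Fin n)) (a : Fin s → V (Fin n))
    (j : Fin s) : nA l A a l j.succ = a j := by
  unfold nA
  rw [Function.update_self, Fin.cons_succ]

lemma sw_sw (l : Fin k) : Function.Involutive (sw (s := s) (n := n) l) := by
  rintro ⟨⟨A, c⟩, ⟨a, d⟩⟩
  have h1 : (fun j : Fin s => nA l A a l j.succ) = a := by
    funext j; exact nA_succ l A a j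
  have h2 : (fun (j : Fin s) (j' : J k s l) => nc l c d (Function.update j'.1 l j.succ)) = d := by
    funext j j'
    rw [nc_update, Fin.cons_succ]
  change ((nA l (nA l A a) (fun j => A l j.succ),
    nc l (nc l c d) (fun j j' => c (Function.update j'.1 l j.succ))),
    ((fun j : Fin s => nA l A a l j.succ),
      (fun (j : Fin s) (j' : J k s l) => nc l c d (Function.update j'.1 l j.succ)))) =
    ((A, c), (a, d))
  rw [nA_nA, nc_nc, h1, h2]

lemma blk_new (x : Fin k → V (Fin n)) (t : ℕ) (ht : t < k) (A : Fr k (s + 1) n)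
    (c : V (Fin k → Fin (s + 1))) (a : Fin s → V (Fin n)) (d : Fin s → V (J k s ⟨t, ht⟩)) :
    blk (R x t (nA ⟨t, ht⟩ A a)) (nc ⟨t, ht⟩ c d) =
      th (R x t A) ⟨t, ht⟩ (A ⟨t, ht⟩ 0) (fun j' => c (Function.update j'.1 ⟨t, ht⟩ 0)) +
        ∑ j, th (R x t A) ⟨t, ht⟩ (a j) (d j) := by
  rw [blk_eq _ _ ⟨t, ht⟩]
  have h1 : th (R x t (nA ⟨t, ht⟩ A a)) ⟨t, ht⟩ = th (R x t A) ⟨t, ht⟩ := by
    apply th_congr
    intro l' hl'
    funext j
    unfold R nA
    rw [Function.update_of_ne hl']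
  rw [h1, Fin.sum_univ_succ]
  have hR : ∀ j, R x t (nA ⟨t, ht⟩ A a) ⟨t, ht⟩ j = (Fin.cons (A ⟨t, ht⟩ 0) a : Fin (s + 1) → _) j := by
    intro j
    unfold R nA
    rw [if_neg (by simp), Function.update_self]
  congr 1
  · rw [hR, Fin.cons_zero]
    congr 1
    funext j'
    rw [nc_update, Fin.cons_zero]
  · refine Finset.sum_congr rfl fun j _ => ?_
    rw [hR, Fin.cons_succ]
    congr 1
    funext j'
    rw [nc_update, Fin.cons_succ]

lemma blk_new' (x : Fin k → V (Fin n)) (t : ℕ) (ht : t < k) (A : Fr k (s + 1) n)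
    (c : V (Fin k → Fin (s + 1))) (a : Fin s → V (Fin n)) (d : Fin s → V (J k s ⟨t, ht⟩)) :
    blk (R x (t + 1) (nA ⟨t, ht⟩ A a)) (nc ⟨t, ht⟩ c d) =
      th (R x t A) ⟨t, ht⟩ (x ⟨t, ht⟩) (fun j' => c (Function.update j'.1 ⟨t, ht⟩ 0)) +
        ∑ j, th (R x t A) ⟨t, ht⟩ (a j) (d j) := by
  rw [blk_eq _ _ ⟨t, ht⟩]
  have h1 : th (R x (t + 1) (nA ⟨t, ht⟩ A a)) ⟨t, ht⟩ = th (R x t A) ⟨t, ht⟩ := by
    apply th_congr
    intro l' hl'
    funext j
    unfold R nA
    rw [Function.update_of_ne hl']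
    have : ((l' : ℕ) < t + 1 ↔ (l' : ℕ) < t) := by
      constructor
      · intro h
        have : (l' : ℕ) ≠ t := fun h' => hl' (Fin.ext h')
        omega
      · intro h; omega
    simp only [this]
  rw [h1, Fin.sum_univ_succ]
  have hR0 : R x (t + 1) (nA ⟨t, ht⟩ A a) ⟨t, ht⟩ 0 = x ⟨t, ht⟩ := by
    unfold R
    rw [if_pos ⟨by simp, rfl⟩]
  have hR : ∀ j : Fin s, R x (t + 1) (nA ⟨t, ht⟩ A a) ⟨t, ht⟩ j.succ = a j := by
    intro j
    unfold R nA
    rw [if_neg (by simp [Fin.succ_ne_zero]), Function.update_self, Fin.cons_succ]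
  congr 1
  · rw [hR0]
    congr 1
    funext j'
    rw [nc_update, Fin.cons_zero]
  · refine Finset.sum_congr rfl fun j _ => ?_
    rw [hR]
    congr 1
    funext j'
    rw [nc_update, Fin.cons_succ]

/-- averaging over the fresh variables -/
lemma av_fresh (l : Fin k) (f : Q k s n → ℝ) (E : ℝ)
    (h : ∀ q : Q k s n, |av (fun q' : Q' k s n l => f (sw l (q, q')).1)| ≤ E) : |av f| ≤ E := by
  classical
  have h1 : av f = av (fun z : Q k s n × Q' k s n l => f z.1) := by
    rw [av_prod (fun z : Q k s n × Q' k s n l => f z.1)]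
    exact av_congr fun q => (av_const (Ω := Q' k s n l) (f q)).symm
  have h2 : av (fun z : Q k s n × Q' k s n l => f z.1) =
      av (fun z : Q k s n × Q' k s n l => f (sw l z).1) :=
    (av_equiv (Function.Involutive.toPerm _ (sw_sw (s := s) (n := n) l))
      (fun z : Q k s n × Q' k s n l => f z.1)).symm
  rw [h1, h2, av_prod (fun z : Q k s n × Q' k s n l => f (sw l z).1)]
  exact abs_av_le_of_le h

/-- one replacement -/
lemma step (g : V (Fin k → Fin n) → ℝ) (ξ : V (Fin k → Fin n)) (x : Fin k → V (Fin n)) (t : ℕ)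
    (ht : t < k) (E : ℝ)
    (hE : ∀ (B : Fin k → Fin (s + 1) → V (Fin n)) (X : V (Fin n)) (y : V (J k s ⟨t, ht⟩)),
      |av (fun q : Q' k s n ⟨t, ht⟩ =>
        g (ξ + th B ⟨t, ht⟩ X y + ∑ j, th B ⟨t, ht⟩ (q.1 j) (q.2 j)) -
          g (ξ + ∑ j, th B ⟨t, ht⟩ (q.1 j) (q.2 j)))| ≤ E) :
    |av (fun q : Q k s n => g (ξ + blk (R x (t + 1) q.1) q.2) - g (ξ + blk (R x t q.1) q.2))| ≤
      2 * E := by
  apply av_fresh ⟨t, ht⟩
  rintro ⟨A, c⟩
  set B := R x t A
  set y : V (J k s ⟨t, ht⟩) := fun j' => c (Function.update j'.1 ⟨t, ht⟩ 0)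
  have h1 : av (fun q' : Q' k s n ⟨t, ht⟩ =>
      (fun q : Q k s n => g (ξ + blk (R x (t + 1) q.1) q.2) - g (ξ + blk (R x t q.1) q.2))
        (sw ⟨t, ht⟩ ((A, c), q')).1) =
      av (fun q : Q' k s n ⟨t, ht⟩ =>
        g (ξ + th B ⟨t, ht⟩ (x ⟨t, ht⟩) y + ∑ j, th B ⟨t, ht⟩ (q.1 j) (q.2 j)) -
          g (ξ + ∑ j, th B ⟨t, ht⟩ (q.1 j) (q.2 j))) -
      av (fun q : Q' k s n ⟨t, ht⟩ =>
        g (ξ + th B ⟨t, ht⟩ (A ⟨t, ht⟩ 0) y + ∑ j, th B ⟨t, ht⟩ (q.1 j) (q.2 j)) -
          g (ξ + ∑ j, th B ⟨t, ht⟩ (q.1 j) (q.2 j))) := by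
    rw [← av_sub]
    refine av_congr fun q' => ?_
    change g (ξ + blk (R x (t + 1) (nA ⟨t, ht⟩ A q'.1)) (nc ⟨t, ht⟩ c q'.2)) -
      g (ξ + blk (R x t (nA ⟨t, ht⟩ A q'.1)) (nc ⟨t, ht⟩ c q'.2)) = _
    rw [blk_new, blk_new', ← add_assoc, ← add_assoc]
    ring
  rw [h1]
  have h2 := hE B (x ⟨t, ht⟩) y
  have h3 := hE B (A ⟨t, ht⟩ 0) y
  exact (abs_sub _ _).trans (by linarith)

lemma R_zero (x : Fin k → V (Fin n)) (A : Fin k → Fin (s + 1) → V (Fin n)) : R x 0 A = A := by
  funext l j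
  unfold R
  rw [if_neg (by simp)]

lemma R_top (x : Fin k → V (Fin n)) (A : Fin k → Fin (s + 1) → V (Fin n)) (l : Fin k) :
    R x k A l 0 = x l := by
  unfold R
  rw [if_pos ⟨l.2, rfl⟩]

/-- all replacements -/
lemma steps (g : V (Fin k → Fin n) → ℝ) (ξ : V (Fin k → Fin n)) (x : Fin k → V (Fin n)) (E : ℝ)
    (hE : ∀ (l : Fin k) (B : Fin k → Fin (s + 1) → V (Fin n)) (X : V (Fin n)) (y : V (J k s l)),
      |av (fun q : Q' k s n l =>
        g (ξ + th B l X y + ∑ j, th B l (q.1 j) (q.2 j)) -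
          g (ξ + ∑ j, th B l (q.1 j) (q.2 j)))| ≤ E) (t : ℕ) (ht : t ≤ k) :
    |av (fun q : Q k s n => g (ξ + blk (R x t q.1) q.2)) -
      av (fun q : Q k s n => g (ξ + blk q.1 q.2))| ≤ t * (2 * E) := by
  induction t with
  | zero =>
    simp only [R_zero, sub_self, abs_zero, Nat.cast_zero, zero_mul, le_refl]
  | succ t ih =>
    have h1 := ih (by omega)
    have h2 := step g ξ x t (by omega) E (fun B X y => hE ⟨t, by omega⟩ B X y)
    rw [av_sub] at h2
    have h3 : av (fun q : Q k s n => g (ξ + blk (R x (t + 1) q.1) q.2)) -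
        av (fun q : Q k s n => g (ξ + blk q.1 q.2)) =
        (av (fun q : Q k s n => g (ξ + blk (R x (t + 1) q.1) q.2)) -
          av (fun q : Q k s n => g (ξ + blk (R x t q.1) q.2))) +
        (av (fun q : Q k s n => g (ξ + blk (R x t q.1) q.2)) -
          av (fun q : Q k s n => g (ξ + blk q.1 q.2))) := by ring
    rw [h3]
    push_cast
    exact (abs_add_le _ _).trans (by linarith)

lemma av_shift {I : Type} [Fintype I] [DecidableEq I] (F : V I → ℝ) (T : V I) :
    av (fun c => F (c + T)) = av F := by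
  unfold av
  rw [sum_add_right F T]

lemma blk_top (x : Fin k → V (Fin n)) (A : Fin k → Fin (s + 1) → V (Fin n))
    (c : V (Fin k → Fin (s + 1))) :
    blk (R x k A) (c + Pi.single (fun _ => 0) 1) = blk (R x k A) c + tens x := by
  rw [blk_add, blk_single]
  congr 2
  funext l
  exact R_top x A l

/-- invariance at the end -/
lemma top_inv (g : V (Fin k → Fin n) → ℝ) (x : Fin k → V (Fin n)) :
    av (fun q : Q k s n => g (tens x + blk (R x k q.1) q.2)) =
      av (fun q : Q k s n => g (0 + blk (R x k q.1) q.2)) := by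
  rw [av_prod (fun q : Q k s n => g (tens x + blk (R x k q.1) q.2)),
    av_prod (fun q : Q k s n => g (0 + blk (R x k q.1) q.2))]
  refine av_congr fun A => ?_
  have h := av_shift (fun c => g (0 + blk (R x k A) c))
    (Pi.single (fun _ => 0) 1 : V (Fin k → Fin (s + 1)))
  refine Eq.trans ?_ h
  refine av_congr fun c => ?_
  simp only [blk_top, zero_add]
  rw [add_comm]

lemma total (g : V (Fin k → Fin n) → ℝ) (x : Fin k → V (Fin n)) (E : ℝ)
    (hE : ∀ ξ : V (Fin k → Fin n), (ξ = 0 ∨ ξ = tens x) →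
      ∀ (l : Fin k) (B : Fin k → Fin (s + 1) → V (Fin n)) (X : V (Fin n)) (y : V (J k s l)),
      |av (fun q : Q' k s n l =>
        g (ξ + th B l X y + ∑ j, th B l (q.1 j) (q.2 j)) -
          g (ξ + ∑ j, th B l (q.1 j) (q.2 j)))| ≤ E) :
    |av (fun q : Q k s n => g (blk q.1 q.2 + tens x) - g (blk q.1 q.2))| ≤ k * (4 * E) := by
  have h1 := steps g 0 x E (hE 0 (Or.inl rfl)) k le_rfl
  have h2 := steps g (tens x) x E (hE (tens x) (Or.inr rfl)) k le_rfl
  have h3 := top_inv (s := s) g x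
  have h4 : av (fun q : Q k s n => g (blk q.1 q.2 + tens x) - g (blk q.1 q.2)) =
      av (fun q : Q k s n => g (tens x + blk q.1 q.2)) -
        av (fun q : Q k s n => g (0 + blk q.1 q.2)) := by
    rw [← av_sub]
    refine av_congr fun q => ?_
    rw [zero_add, add_comm (tens x)]
  rw [h4]
  rw [h3] at h2
  have h5 := abs_le.mp h1
  have h6 := abs_le.mp h2
  rw [abs_le]
  constructor <;> linarith [h5.1, h5.2, h6.1, h6.2]

/-- `bil` as a homomorphism in the matrix -/
noncomputable def bilHom {α β I : Type} {b : ℕ} (θ : V α →+ V β →+ V I) (u : Fin b → V α)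
    (v : Fin b → V β) : V (Fin b × Fin b) →+ V I :=
  AddMonoidHom.mk' (fun Z => bil θ u v Z) (by
    intro Z Z'
    unfold bil
    rw [← Finset.sum_add_distrib]
    exact Finset.sum_congr rfl fun a _ => by rw [Pi.add_apply, add_smul])

lemma mem_of_cases (x : Fin k → V (Fin n)) {ξ : V (Fin k → Fin n)} (hξ : ξ = 0 ∨ ξ = tens x)
    (B : Fin k → Fin (s + 1) → V (Fin n)) (l : Fin k) {b : ℕ}
    (u : Fin b → V (Fin n)) : ξ ∈ sp (TT B l u x) := by
  rcases hξ with rfl | rfl
  · exact Submodule.zero_mem _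
  · exact tens_mem B l u x

theorem block_of (hAbs : SpecAbs) (p r : ℝ) (_hp : 1 < p) (hr : 2 < r) (hKey : KeyAt p r) :
    ∃ c C : ℝ, 0 < c ∧ 0 < C ∧
  ∀ (k s n : ℕ), 1 ≤ k → 1 ≤ s → ∀ (D ε : ℝ), 1 ≤ D → 0 ≤ ε → ∀ (ι : Type) [Fintype ι]
    (τ : List ((Fin k → Fin n) × ZMod 2) → V (Fin k → Fin n) → ι → ℝ),
    Sys p D ε (InK k n (2 * s + 3)) τ →
    ∀ (ψ : ι → ℝ) (P : ι → V (Fin k → Fin n)), ∑ i, |ψ i| ^ (p / (p - 1)) ≤ 1 →
    ∀ C' : List (Fin k → Fin n), C'.length ≤ n ^ k → ∀ x : Fin k → V (Fin n),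
      |av (fun q : Fr k (s + 1) n × V (Fin k → Fin (s + 1)) =>
        gg τ ψ P C' (blk q.1 q.2 + tens x) - gg τ ψ P C' (blk q.1 q.2))| ≤
        k * (C * (D * (2 : ℝ) ^ (-c * s) + ε * 2 ^ (n ^ k + (2 * s + 1) ^ 2))) := by
  obtain ⟨c, C0, hc, hC0, hA⟩ := hAbs r hr
  refine ⟨c, 4 * (C0 + 2), hc, by positivity, ?_⟩
  intro k s n hk hs D ε hD hε ι _ τ hsys ψ P hψ C' hC' x
  set g : V (Fin k → Fin n) → ℝ := gg τ ψ P C'
  set η : ℝ := ε * 2 ^ (n ^ k + (2 * s + 1) ^ 2) with hη
  have hη0 : 0 ≤ η := by positivity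
  have hηε : ε * 2 ^ (n ^ k) ≤ η := by
    rw [hη]
    apply mul_le_mul_of_nonneg_left _ hε
    exact pow_le_pow_right₀ (by norm_num) (by omega)
  set D' : ℝ := D + ε * 2 ^ (n ^ k) with hD'
  have hDD' : D ≤ D' := by
    have : 0 ≤ ε * (2 : ℝ) ^ (n ^ k) := by positivity
    linarith
  have hlen : C'.length ≤ Fintype.card (Fin k → Fin n) := by simpa using hC'
  -- pointwise bound
  have hpt : ∀ ξ, InK k n (2 * s + 3) ξ → |g ξ| ≤ D' := by
    intro ξ hξ
    have h := hKey D ε hD hε (Fin k → Fin n) (InK k n (2 * s + 3)) ι τ hsys ψ P hψ C' hlen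
      Empty 0 ξ (by intro ζ; simpa using hξ) (fun _ => 1)
    have hu : ∀ F : V Empty → ℝ, ∑ ζ, F ζ = F 0 := by
      intro F
      rw [Fintype.sum_unique]
      exact congrArg F (Subsingleton.elim _ _)
    rw [hu, hu, hu] at h
    simp only [AddMonoidHom.zero_apply, add_zero, one_mul, abs_one, mul_one] at h
    have hh : hat (fun _ : V Empty => (1 : ℝ)) 0 = 1 := by
      unfold hat
      rw [hu]
      simp
    rw [hh] at h
    simp only [abs_one, Real.one_rpow, mul_one, Fintype.card_empty, add_zero] at h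
    have hcard : Fintype.card (Fin k → Fin n) = n ^ k := by simp
    rw [hcard] at h
    exact h
  have hE : ∀ ξ : V (Fin k → Fin n), (ξ = 0 ∨ ξ = tens x) →
      ∀ (l : Fin k) (B : Fin k → Fin (s + 1) → V (Fin n)) (X : V (Fin n)) (y : V (J k s l)),
      |av (fun q : Q' k s n l =>
        g (ξ + th B l X y + ∑ j, th B l (q.1 j) (q.2 j)) -
          g (ξ + ∑ j, th B l (q.1 j) (q.2 j)))| ≤ C0 * D' * (2 : ℝ) ^ (-c * s) + 2 * η := by
    intro ξ hξ l B X y
    refine hA s hs (Fin n) (J k s l) (Fin k → Fin n) (th B l) ξ g D' η hη0 ?_ ?_ X y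
    · intro a cc
      apply hpt
      refine inK_of_sp (TT B l a x) (TT_card B l a x (by omega)) ?_
      exact Submodule.add_mem _ (mem_of_cases x hξ B l a)
        (Submodule.sum_mem _ fun j _ => th_mem B l a x j (cc j))
    · intro b hb u v ω
      have h := hKey D ε hD hε (Fin k → Fin n) (InK k n (2 * s + 3)) ι τ hsys ψ P hψ C' hlen
        (Fin b × Fin b) (bilHom (th B l) u v) ξ (by
          intro ζ
          refine inK_of_sp (TT B l u x) (TT_card B l u x (by omega)) ?_
          refine Submodule.add_mem _ (mem_of_cases x hξ B l u) ?_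
          change bil (th B l) u v ζ ∈ _
          exact Submodule.sum_mem _ fun a _ => Submodule.smul_mem _ _ (th_mem B l u x a.1 (v a.2)))
        ω
      refine h.trans ?_
      have hω : 0 ≤ ∑ Z, |ω Z| := Finset.sum_nonneg fun _ _ => abs_nonneg _
      have hS : 0 ≤ (∑ z, |hat ω z| ^ r) ^ (1 / r) := by positivity
      apply add_le_add
      · exact mul_le_mul_of_nonneg_right hDD' hS
      · apply mul_le_mul_of_nonneg_right _ hω
        rw [hη]
        apply mul_le_mul_of_nonneg_left _ hε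
        apply pow_le_pow_right₀ (by norm_num)
        have h1 : Fintype.card (Fin k → Fin n) = n ^ k := by simp
        have h2 : Fintype.card (Fin b × Fin b) = b ^ 2 := by simp [sq]
        rw [h1, h2]
        have h3 : b ^ 2 ≤ (2 * s + 1) ^ 2 := Nat.pow_le_pow_left hb 2
        omega
  have htot := total g x _ hE
  refine htot.trans ?_
  apply mul_le_mul_of_nonneg_left _ (Nat.cast_nonneg k)
  have h2c : (2 : ℝ) ^ (-c * s) ≤ 1 := by
    apply Real.rpow_le_one_of_one_le_of_nonpos (by norm_num)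
    have : (0 : ℝ) ≤ c * s := by positivity
    linarith [this]
  have h2c0 : 0 < (2 : ℝ) ^ (-c * s) := by positivity
  have h5 : ε * 2 ^ (n ^ k) * (2 : ℝ) ^ (-c * s) ≤ η := by
    calc ε * 2 ^ (n ^ k) * (2 : ℝ) ^ (-c * s) ≤ ε * 2 ^ (n ^ k) * 1 :=
          mul_le_mul_of_nonneg_left h2c (by positivity)
      _ ≤ η := by rw [mul_one]; exact hηε
  have h6 : 0 ≤ D * (2 : ℝ) ^ (-c * s) := by positivity
  have h7 : C0 * (ε * 2 ^ (n ^ k) * (2 : ℝ) ^ (-c * s)) ≤ C0 * η :=
    mul_le_mul_of_nonneg_left h5 hC0.le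
  have h8 : C0 * D' * (2 : ℝ) ^ (-c * s) = C0 * (D * (2 : ℝ) ^ (-c * s)) +
      C0 * (ε * 2 ^ (n ^ k) * (2 : ℝ) ^ (-c * s)) := by
    rw [hD']; ring
  rw [h8]
  nlinarith [mul_nonneg hC0.le h6, mul_nonneg hC0.le hη0]

end Vale.Agent.P249.TP.Block

namespace Vale.Agent.P249.TP

/-- **BLOCK** -/
theorem specBlock_of (hAbs : SpecAbs) (hGt : SpecKeyGt) (hLt : SpecKeyLt) : SpecBlock := by
  intro p hp hp2
  rcases lt_or_gt_of_ne hp2 with h | h
  · refine Block.block_of hAbs p (p / (p - 1)) hp ?_ (hLt p hp h.le)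
    rw [lt_div_iff₀ (by linarith)]
    linarith
  · exact Block.block_of hAbs p p hp h (hGt p h.le)

end Vale.Agent.P249.TP
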