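import Vale.Agent.P249.TP.Basic

/-!
# P249, phase 2: linearity testing with values in an abelian group (helper606)
-/

open Finset
open scoped BigOperators

namespace Vale.Agent.P249.TP

namespace Blr

/-- indicator of the failure of `P` -/
noncomputable def nt (P : Prop) [Decidable P] : ℝ := if P then 0 else 1

lemma nt_nonneg (P : Prop) [Decidable P] : 0 ≤ nt P := by
  unfold nt; split_ifs <;> norm_num

lemma of_nt_lt {P : Prop} [Decidable P] (h : nt P < 1) : P := by
  unfold nt at h
  by_contra hP
  rw [if_neg hP] at h
  exact lt_irrefl _ h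

lemma nt_le {P Q R : Prop} [Decidable P] [Decidable Q] [Decidable R] (h : P → Q → R) :
    nt R ≤ nt P + nt Q := by
  unfold nt
  by_cases hP : P <;> by_cases hQ : Q
  · rw [if_pos (h hP hQ), if_pos hP, if_pos hQ]; norm_num
  all_goals split_ifs <;> norm_num

variable {G A : Type} [AddCommGroup G] [Fintype G] [AddCommGroup A] [DecidableEq A]

/-- the failure probability of the test -/
noncomputable def E (f : G → A) : ℝ := av fun x => av fun y => nt (f x + f y = f (x + y))

lemma av_add_left (x : G) (g : G → ℝ) : av (fun y => g (x + y)) = av g :=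
  av_equiv (Equiv.addLeft x) g

lemma diff_le (f : G → A) (x : G) :
    av (fun y => av fun y' => nt (f (x + y) - f y = f (x + y') - f y')) ≤ 2 * E f := by
  have h1 : av (fun y => av fun y' => nt (f (x + y) + f y' = f (x + y + y'))) = E f :=
    av_add_left x fun u => av fun y' => nt (f u + f y' = f (u + y'))
  have h2 : av (fun y => av fun y' => nt (f (x + y') + f y = f (x + y' + y))) = E f := by
    rw [av_comm]
    exact av_add_left x fun u => av fun y' => nt (f u + f y' = f (u + y'))
  calc av (fun y => av fun y' => nt (f (x + y) - f y = f (x + y') - f y'))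
      ≤ av (fun y => av fun y' => nt (f (x + y) + f y' = f (x + y + y')) +
          nt (f (x + y') + f y = f (x + y' + y))) := by
        refine av_mono fun y => av_mono fun y' => nt_le fun ha hb => ?_
        have hc : f (x + y) + f y' = f (x + y') + f y := by
          rw [ha, hb]
          congr 1
          abel
        have hd : f (x + y) - f y - (f (x + y') - f y') =
            f (x + y) + f y' - (f (x + y') + f y) := by abel
        rw [← sub_eq_zero, hd, hc, sub_self]
    _ = (av fun y => av fun y' => nt (f (x + y) + f y' = f (x + y + y'))) +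
          av fun y => av fun y' => nt (f (x + y') + f y = f (x + y' + y)) := by
        rw [← av_add]
        exact av_congr fun y => av_add _ _
    _ = E f + E f := by rw [h1, h2]
    _ = 2 * E f := by ring

theorem main (f : G → A) (e : ℝ) (he : e ≤ 1 / 20) (hE : E f ≤ e) :
    ∃ h : G →+ A, av (fun x => nt (f x = h x)) ≤ 2 * e := by
  have hE0 : 0 ≤ E f := av_nonneg fun x => av_nonneg fun y => nt_nonneg _
  have hex : ∀ x : G, ∃ y₀ : G,
      av (fun y' => nt (f (x + y₀) - f y₀ = f (x + y') - f y')) ≤ 2 * E f := by
    intro x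
    obtain ⟨y₀, hy₀⟩ := exists_le_av fun y =>
      av fun y' => nt (f (x + y) - f y = f (x + y') - f y')
    exact ⟨y₀, hy₀.trans (diff_le f x)⟩
  choose y₀ hy₀ using hex
  set h : G → A := fun x => f (x + y₀ x) - f (y₀ x) with hh
  have hkey : ∀ x, av (fun y => nt (h x = f (x + y) - f y)) ≤ 2 * E f := hy₀
  have hadd : ∀ x x', h (x + x') = h x + h x' := by
    intro x x'
    have h1 : av (fun y => nt (h x = f (x + (x' + y)) - f (x' + y))) ≤ 2 * E f := by
      rw [av_add_left x' fun y => nt (h x = f (x + y) - f y)]
      exact hkey x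
    have h2 := hkey x'
    have h3 := hkey (x + x')
    obtain ⟨y, hy⟩ := exists_le_av fun y => nt (h x = f (x + (x' + y)) - f (x' + y)) +
      (nt (h x' = f (x' + y) - f y) + nt (h (x + x') = f (x + x' + y) - f y))
    rw [av_add, av_add] at hy
    have n1 := nt_nonneg (h x = f (x + (x' + y)) - f (x' + y))
    have n2 := nt_nonneg (h x' = f (x' + y) - f y)
    have n3 := nt_nonneg (h (x + x') = f (x + x' + y) - f y)
    have e1 := of_nt_lt (P := h x = f (x + (x' + y)) - f (x' + y)) (by linarith)
    have e2 := of_nt_lt (P := h x' = f (x' + y) - f y) (by linarith)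
    have e3 := of_nt_lt (P := h (x + x') = f (x + x' + y) - f y) (by linarith)
    rw [e1, e2, e3, ← add_assoc x x' y]
    abel
  refine ⟨AddMonoidHom.mk' h hadd, ?_⟩
  have hpt : ∀ x, (9 / 10 : ℝ) * nt (f x = h x) ≤ av fun y => nt (f x + f y = f (x + y)) := by
    intro x
    have h1 : nt (f x = h x) ≤ av (fun y => nt (f x + f y = f (x + y))) + 2 * E f := by
      calc nt (f x = h x) = av fun _ : G => nt (f x = h x) := (av_const _).symm
        _ ≤ av fun y => nt (f x + f y = f (x + y)) + nt (h x = f (x + y) - f y) := by
            refine av_mono fun y => nt_le fun ha hb => ?_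
            rw [hb, ← ha, add_sub_cancel_right]
        _ = av (fun y => nt (f x + f y = f (x + y))) +
              av (fun y => nt (h x = f (x + y) - f y)) := av_add _ _
        _ ≤ _ := by linarith [hkey x]
    have h2 : 0 ≤ av fun y => nt (f x + f y = f (x + y)) := av_nonneg fun y => nt_nonneg _
    by_cases hx : f x = h x
    · have h3 : nt (f x = h x) = 0 := if_pos hx
      rw [h3, mul_zero]
      exact h2
    · have h3 : nt (f x = h x) = 1 := if_neg hx
      rw [h3] at h1 ⊢
      linarith
  have h4 : (9 / 10 : ℝ) * av (fun x => nt (f x = h x)) ≤ E f := by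
    rw [← av_mul_left]
    exact av_mono hpt
  have h5 : av (fun x => nt (f x = h x)) ≤ 2 * e := by
    have h6 : 0 ≤ av (fun x => nt (f x = h x)) := av_nonneg fun x => nt_nonneg _
    nlinarith
  exact h5

end Blr

/-- **BLR** -/
theorem specBlr : SpecBlr := by
  intro G A _ _ _ _ f e he hf
  refine Blr.main f e he ?_
  unfold Blr.E
  rw [← av_prod (fun q : G × G => Blr.nt (f q.1 + f q.2 = f (q.1 + q.2)))]
  exact hf

end Vale.Agent.P249.TP
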