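import Vale.Agent.P249.TP.Basic

/-!
# P249, phase 2: numerics of CORE (helper557)
-/

open Finset Filter Topology
open scoped BigOperators

namespace Vale.Agent.P249.TP

lemma half_pow_le {y n : ℕ} (hn : 1 ≤ n) (hny : n ≤ y) : ((1 : ℝ) / 2) ^ y ≤ 1 / n := by
  have h1 : (n : ℝ) ≤ 2 ^ y := by
    have : n ≤ 2 ^ y := hny.trans Nat.lt_two_pow_self.le
    exact_mod_cast this
  have hn0 : (0 : ℝ) < n := by exact_mod_cast hn
  rw [one_div_pow]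
  exact one_div_le_one_div_of_le hn0 h1

lemma y_half_pow_le {y n : ℕ} (hn : 1 ≤ n) (hny : n ≤ y) :
    (y : ℝ) * ((1 : ℝ) / 2) ^ (2 * y) ≤ 1 / n := by
  have h1 : (y : ℝ) ≤ 2 ^ y := by
    have : y ≤ 2 ^ y := Nat.lt_two_pow_self.le
    exact_mod_cast this
  have h2 : (y : ℝ) * ((1 : ℝ) / 2) ^ (2 * y) ≤ 2 ^ y * ((1 : ℝ) / 2) ^ (2 * y) :=
    mul_le_mul_of_nonneg_right h1 (by positivity)
  have h3 : (2 : ℝ) ^ y * ((1 : ℝ) / 2) ^ (2 * y) = (1 / 2) ^ y := by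
    rw [two_mul, pow_add, ← mul_assoc, ← mul_pow]
    norm_num
  rw [h3] at h2
  exact h2.trans (half_pow_le hn hny)

/-- the decay of the block error -/
lemma block_decay {c : ℝ} (hc : 0 < c) {k a n s : ℕ} (ha : ((k : ℝ) + 1) / c ≤ a) (hn : 1 ≤ n)
    (hs : a * (Nat.log 2 n + 1) ≤ s) : (n : ℝ) ^ k * (2 : ℝ) ^ (-c * s) ≤ 1 / n := by
  have hn0 : (0 : ℝ) < n := by exact_mod_cast hn
  have h1 : (n : ℝ) ^ (k + 1) ≤ (2 : ℝ) ^ (c * s) := by
    have e1 : (n : ℝ) ≤ 2 ^ (Nat.log 2 n + 1) := by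
      exact_mod_cast (Nat.lt_pow_succ_log_self (by norm_num : 1 < 2) n).le
    have e2 : (n : ℝ) ^ (k + 1) ≤ (2 ^ (Nat.log 2 n + 1)) ^ (k + 1) :=
      pow_le_pow_left₀ hn0.le e1 _
    refine e2.trans ?_
    rw [← pow_mul, ← Real.rpow_natCast]
    apply Real.rpow_le_rpow_of_exponent_le (by norm_num)
    push_cast
    have e3 : (k : ℝ) + 1 ≤ a * c := by rwa [div_le_iff₀ hc] at ha
    have e4 : (a : ℝ) * (Nat.log 2 n + 1) ≤ s := by exact_mod_cast hs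
    have e5 : (0 : ℝ) ≤ (Nat.log 2 n : ℝ) + 1 := by positivity
    calc ((Nat.log 2 n : ℝ) + 1) * ((k : ℝ) + 1) ≤ ((Nat.log 2 n : ℝ) + 1) * (a * c) :=
          mul_le_mul_of_nonneg_left e3 e5
      _ = c * (a * (Nat.log 2 n + 1)) := by ring
      _ ≤ c * s := mul_le_mul_of_nonneg_left e4 hc.le
  have h2 : (2 : ℝ) ^ (-c * s) = ((2 : ℝ) ^ (c * s))⁻¹ := by
    rw [neg_mul, Real.rpow_neg (by norm_num)]
  have h3 : (0 : ℝ) < (2 : ℝ) ^ (c * s) := by positivity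
  rw [h2, ← div_eq_mul_inv, div_le_div_iff₀ h3 hn0, one_mul, ← pow_succ]
  exact h1

lemma card_rpow_le {p : ℝ} (hp : 1 < p) {N y : ℕ} (hN : (N : ℝ) ≤ (2 : ℝ) ^ ((y : ℝ) / 2)) :
    (N : ℝ) ^ (1 / p) ≤ (2 : ℝ) ^ ((y : ℝ) / (2 * p)) := by
  have hp0 : 0 < p := by linarith
  calc (N : ℝ) ^ (1 / p) ≤ ((2 : ℝ) ^ ((y : ℝ) / 2)) ^ (1 / p) :=
        Real.rpow_le_rpow (Nat.cast_nonneg _) hN (by positivity)
    _ = (2 : ℝ) ^ ((y : ℝ) / (2 * p)) := by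
        rw [← Real.rpow_mul (by norm_num)]; congr 1; field_simp

lemma decay_end {p : ℝ} (hp : 1 < p) {N y n : ℕ} (hn : 1 ≤ n) (hny : n ≤ y)
    (hN : (N : ℝ) ≤ (2 : ℝ) ^ ((y : ℝ) / 2)) :
    (N : ℝ) ^ (1 / p) * (2 : ℝ) ^ (-(y : ℝ) / p) ≤ 4 * p / n := by
  have hp0 : 0 < p := by linarith
  have hn0 : (0 : ℝ) < n := by exact_mod_cast hn
  have hy : (n : ℝ) ≤ y := by exact_mod_cast hny
  have hy0 : (0 : ℝ) < y := by linarith
  have h1 : (N : ℝ) ^ (1 / p) * (2 : ℝ) ^ (-(y : ℝ) / p) ≤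
      (2 : ℝ) ^ (-((y : ℝ) / (2 * p))) := by
    calc (N : ℝ) ^ (1 / p) * (2 : ℝ) ^ (-(y : ℝ) / p)
        ≤ (2 : ℝ) ^ ((y : ℝ) / (2 * p)) * (2 : ℝ) ^ (-(y : ℝ) / p) :=
          mul_le_mul_of_nonneg_right (card_rpow_le hp hN) (by positivity)
      _ = (2 : ℝ) ^ (-((y : ℝ) / (2 * p))) := by
          rw [← Real.rpow_add (by norm_num)]; congr 1; field_simp; ring
  have h2 : (y : ℝ) / (4 * p) ≤ (2 : ℝ) ^ ((y : ℝ) / (2 * p)) := by
    rw [Real.rpow_def_of_pos (by norm_num)]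
    have h3 := Real.add_one_le_exp (Real.log 2 * ((y : ℝ) / (2 * p)))
    have h4 : (1 / 2 : ℝ) ≤ Real.log 2 := by linarith [Real.log_two_gt_d9]
    have h5 : (y : ℝ) / (4 * p) ≤ Real.log 2 * ((y : ℝ) / (2 * p)) := by
      have : (y : ℝ) / (4 * p) = 1 / 2 * ((y : ℝ) / (2 * p)) := by field_simp; ring
      rw [this]
      exact mul_le_mul_of_nonneg_right h4 (by positivity)
    linarith
  have h6 : (0 : ℝ) < (y : ℝ) / (4 * p) := by positivity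
  rw [Real.rpow_neg (by norm_num)] at h1
  refine h1.trans ((inv_anti₀ h6 h2).trans ?_)
  rw [inv_div]
  exact div_le_div_of_nonneg_left (by positivity) hn0 hy

/-- the total error of the path -/
lemma num_path {p D c Cb H₀ : ℝ} (hp : 1 < p) (hD : 1 ≤ D) (hc : 0 < c) (hCb : 0 < Cb)
    {k a n s : ℕ} (hk : 1 ≤ k) (ha : ((k : ℝ) + 1) / c ≤ a) (hn : 1 ≤ n)
    (hs : a * (Nat.log 2 n + 1) ≤ s)
    (hH : k * Cb * D + k * Cb + 2 + 4 * p * D < n * (1 / 4 * H₀ ^ (1 / p)))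
    {N : ℕ} (hN : (N : ℝ) ≤ (2 : ℝ) ^ ((n : ℝ) ^ k / 2)) {ε : ℝ}
    (hε : ε = (1 / 2) ^ (3 * n ^ k + (2 * s + 1) ^ 2)) :
    (n : ℝ) ^ k * (k * (Cb * (D * (2 : ℝ) ^ (-c * s) + ε * 2 ^ (n ^ k + (2 * s + 1) ^ 2))) +
      ε * N) + (N : ℝ) ^ (1 / p) * (D * (2 : ℝ) ^ (-((n : ℝ) ^ k) / p) + ε) <
      1 / 4 * H₀ ^ (1 / p) := by
  set y : ℕ := n ^ k with hy
  have hyc : (n : ℝ) ^ k = (y : ℝ) := by rw [hy]; push_cast; ring
  have hny : n ≤ y := by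
    rw [hy]; exact Nat.le_self_pow (by omega) n
  have hn0 : (0 : ℝ) < n := by exact_mod_cast hn
  rw [hyc] at hN ⊢
  have hε0 : 0 < ε := by rw [hε]; positivity
  have hεy : ε ≤ (1 / 2) ^ (3 * y) := by
    rw [hε]
    exact pow_le_pow_of_le_one (by norm_num) (by norm_num) (by omega)
  have hk0 : (0 : ℝ) < k := by exact_mod_cast hk
  -- T1
  have t1 : (y : ℝ) * (2 : ℝ) ^ (-c * s) ≤ 1 / n := by
    rw [← hyc]; exact block_decay hc ha hn hs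
  -- T2
  have t2 : (y : ℝ) * (ε * 2 ^ (y + (2 * s + 1) ^ 2)) ≤ 1 / n := by
    have e1 : ε * 2 ^ (y + (2 * s + 1) ^ 2) = (1 / 2) ^ (2 * y) := by
      rw [hε]
      have : 3 * y + (2 * s + 1) ^ 2 = 2 * y + (y + (2 * s + 1) ^ 2) := by ring
      rw [this, pow_add, mul_assoc, ← mul_pow]
      norm_num
    rw [e1]
    exact y_half_pow_le hn hny
  have hNy : (N : ℝ) ≤ 2 ^ y := by
    refine hN.trans ?_
    rw [← Real.rpow_natCast]
    apply Real.rpow_le_rpow_of_exponent_le (by norm_num)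
    have : (0 : ℝ) ≤ y := Nat.cast_nonneg _
    linarith
  have e2 : ε * 2 ^ y ≤ (1 / 2) ^ (2 * y) := by
    calc ε * 2 ^ y ≤ (1 / 2) ^ (3 * y) * 2 ^ y :=
          mul_le_mul_of_nonneg_right hεy (by positivity)
      _ = (1 / 2) ^ (2 * y) := by
          have : 3 * y = 2 * y + y := by ring
          rw [this, pow_add, mul_assoc, ← mul_pow]
          norm_num
  -- T3
  have t3 : (y : ℝ) * (ε * N) ≤ 1 / n := by
    calc (y : ℝ) * (ε * N) ≤ y * (1 / 2) ^ (2 * y) := by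
          refine mul_le_mul_of_nonneg_left ?_ (Nat.cast_nonneg _)
          exact (mul_le_mul_of_nonneg_left hNy hε0.le).trans e2
      _ ≤ 1 / n := y_half_pow_le hn hny
  -- T4
  have t4 := decay_end hp hn hny hN
  -- T5
  have t5 : (N : ℝ) ^ (1 / p) * ε ≤ 1 / n := by
    have e3 : (N : ℝ) ^ (1 / p) ≤ 2 ^ y := by
      refine (card_rpow_le hp hN).trans ?_
      rw [← Real.rpow_natCast]
      apply Real.rpow_le_rpow_of_exponent_le (by norm_num)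
      have h0 : (0 : ℝ) ≤ y := Nat.cast_nonneg _
      rw [div_le_iff₀ (by linarith)]
      nlinarith
    calc (N : ℝ) ^ (1 / p) * ε ≤ 2 ^ y * ε := mul_le_mul_of_nonneg_right e3 hε0.le
      _ = ε * 2 ^ y := mul_comm _ _
      _ ≤ (1 / 2) ^ (2 * y) := e2
      _ ≤ 1 / n := half_pow_le hn (by omega)
  have t4' : (N : ℝ) ^ (1 / p) * (D * (2 : ℝ) ^ (-(y : ℝ) / p)) ≤ D * (4 * p / n) := by
    calc (N : ℝ) ^ (1 / p) * (D * (2 : ℝ) ^ (-(y : ℝ) / p))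
        = D * ((N : ℝ) ^ (1 / p) * (2 : ℝ) ^ (-(y : ℝ) / p)) := by ring
      _ ≤ D * (4 * p / n) := mul_le_mul_of_nonneg_left t4 (by linarith)
  have key : (y : ℝ) * (k * (Cb * (D * (2 : ℝ) ^ (-c * s) + ε * 2 ^ (y + (2 * s + 1) ^ 2))) +
      ε * N) + (N : ℝ) ^ (1 / p) * (D * (2 : ℝ) ^ (-(y : ℝ) / p) + ε) ≤
      (k * Cb * D + k * Cb + 2 + 4 * p * D) / n := by
    calc (y : ℝ) * (k * (Cb * (D * (2 : ℝ) ^ (-c * s) + ε * 2 ^ (y + (2 * s + 1) ^ 2))) +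
          ε * N) + (N : ℝ) ^ (1 / p) * (D * (2 : ℝ) ^ (-(y : ℝ) / p) + ε)
        = k * Cb * D * ((y : ℝ) * (2 : ℝ) ^ (-c * s)) +
          k * Cb * ((y : ℝ) * (ε * 2 ^ (y + (2 * s + 1) ^ 2))) + (y : ℝ) * (ε * N) +
          (N : ℝ) ^ (1 / p) * (D * (2 : ℝ) ^ (-(y : ℝ) / p)) + (N : ℝ) ^ (1 / p) * ε := by ring
      _ ≤ k * Cb * D * (1 / n) + k * Cb * (1 / n) + 1 / n + D * (4 * p / n) + 1 / n := by
          gcongr
      _ = _ := by ring
  refine key.trans_lt ?_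
  rw [div_lt_iff₀ hn0, mul_comm (1 / 4 * H₀ ^ (1 / p))]
  exact hH

lemma natlog_le {n : ℕ} (hn : 1 ≤ n) : (Nat.log 2 n : ℝ) ≤ 2 * Real.log n := by
  have h1 : (2 : ℝ) ^ Nat.log 2 n ≤ n := by
    exact_mod_cast Nat.pow_log_le_self 2 (by omega)
  have h2 := Real.log_le_log (by positivity) h1
  rw [Real.log_pow] at h2
  have h3 : (1 / 2 : ℝ) ≤ Real.log 2 := by linarith [Real.log_two_gt_d9]
  have h4 : (0 : ℝ) ≤ Nat.log 2 n := Nat.cast_nonneg _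
  nlinarith

lemma one_le_log {n : ℕ} (hn : 3 ≤ n) : 1 ≤ Real.log n := by
  have h : Real.exp 1 ≤ n := by
    have : (3 : ℝ) ≤ n := by exact_mod_cast hn
    linarith [Real.exp_one_lt_d9]
  rw [← Real.log_exp 1]
  exact Real.log_le_log (Real.exp_pos 1) h

/-- the cardinality estimate -/
lemma num_card {C : ℝ} {k L a s₀ n s : ℕ} (hk : 1 ≤ k) (hn : 20 ≤ n) (hCn : C ≤ n)
    (hs : s = a * (Nat.log 2 n + 1) + s₀ + 1) {a₂ : ℝ}
    (ha₂ : a₂ = ((L : ℝ) + 2) * (3 * a + s₀ + 2) + 1)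
    (h1 : a₂ ^ k * Real.log n ^ k ≤ n) (h2 : a₂ ^ 2 * Real.log n ^ 2 ≤ n) {N : ℝ} (hN0 : 0 ≤ N)
    (hN : N ≤ 2 ^ (k * (L * (s + 1) + (2 * s + 3)) * n + (L * (s + 1) + (2 * s + 3)) ^ k)) :
    C * N ^ 4 * (((n ^ k : ℕ) : ℝ) + 1) ^ 2 *
      (1 + Real.log (1 / (1 / 2) ^ (3 * n ^ k + (2 * s + 1) ^ 2))) ≤
      Real.exp ((2 + 3 * k + 4 * (k * a₂ + 1)) * n * Real.log n) := by
  have hn0 : (0 : ℝ) < n := by exact_mod_cast (by omega : 0 < n)
  have hn20 : (20 : ℝ) ≤ n := by exact_mod_cast hn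
  have hl1 : 1 ≤ Real.log n := one_le_log (by omega)
  set l := Real.log n with hl
  set r : ℕ := L * (s + 1) + (2 * s + 3) with hr
  set y : ℕ := n ^ k with hy
  have hyc : (n : ℝ) ^ k = (y : ℝ) := by rw [hy]; push_cast; ring
  have hny : (n : ℝ) ≤ y := by
    have : n ≤ y := by rw [hy]; exact Nat.le_self_pow (by omega) n
    exact_mod_cast this
  have hs1 : (s : ℝ) + 1 ≤ (3 * a + s₀ + 2) * l := by
    rw [hs]
    push_cast
    have e1 := natlog_le (n := n) (by omega)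
    have e2 : (a : ℝ) * (Nat.log 2 n + 1) ≤ a * (3 * l) :=
      mul_le_mul_of_nonneg_left (by linarith) (Nat.cast_nonneg _)
    have e3 : (s₀ : ℝ) + 2 ≤ (s₀ + 2) * l := by
      exact le_mul_of_one_le_right (by positivity) hl1
    linarith
  have hr1 : (r : ℝ) ≤ a₂ * l := by
    rw [hr, ha₂]
    push_cast
    have e1 : ((L : ℝ) + 2) * (s + 1) ≤ (L + 2) * ((3 * a + s₀ + 2) * l) :=
      mul_le_mul_of_nonneg_left hs1 (by positivity)
    linarith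
  have hs2 : (2 * (s : ℝ) + 1) ≤ a₂ * l := by
    refine le_trans ?_ hr1
    rw [hr]
    push_cast
    have : (0 : ℝ) ≤ L * (s + 1) := by positivity
    linarith
  have ha₂0 : 0 < a₂ := by rw [ha₂]; positivity
  have hnl : (n : ℝ) ≤ n * l := le_mul_of_one_le_right hn0.le hl1
  -- exponent of the number of frequencies
  have hexp : ((k * r * n + r ^ k : ℕ) : ℝ) ≤ (k * a₂ + 1) * (n * l) := by
    push_cast
    have e1 : (r : ℝ) ^ k ≤ n := by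
      calc (r : ℝ) ^ k ≤ (a₂ * l) ^ k := pow_le_pow_left₀ (Nat.cast_nonneg _) hr1 k
        _ = a₂ ^ k * l ^ k := mul_pow _ _ _
        _ ≤ n := h1
    have e2 : (k : ℝ) * r * n ≤ k * (a₂ * l) * n := by gcongr
    linarith
  have hN4 : N ^ 4 ≤ Real.exp (4 * (k * a₂ + 1) * (n * l)) := by
    have e1 : N ≤ Real.exp ((k * a₂ + 1) * (n * l)) := by
      refine hN.trans ?_
      calc (2 : ℝ) ^ (k * r * n + r ^ k) ≤ (Real.exp 1) ^ (k * r * n + r ^ k) :=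
            pow_le_pow_left₀ (by norm_num) (by linarith [Real.exp_one_gt_d9]) _
        _ = Real.exp ((k * r * n + r ^ k : ℕ) : ℝ) := by
            rw [← Real.exp_nat_mul, mul_one]
        _ ≤ _ := Real.exp_le_exp.2 hexp
    calc N ^ 4 ≤ (Real.exp ((k * a₂ + 1) * (n * l))) ^ 4 := pow_le_pow_left₀ hN0 e1 4
      _ = _ := by rw [← Real.exp_nat_mul]; congr 1; push_cast; ring
  have hM : 1 + Real.log (1 / (1 / 2) ^ (3 * y + (2 * s + 1) ^ 2)) ≤ 5 * y := by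
    rw [one_div, ← inv_pow, Real.log_pow]
    have e1 : Real.log ((1 / 2 : ℝ)⁻¹) ≤ 1 := by
      have : ((1 / 2 : ℝ)⁻¹) = 2 := by norm_num
      rw [this]; linarith [Real.log_two_lt_d9]
    have e2 : (((3 * y + (2 * s + 1) ^ 2 : ℕ)) : ℝ) ≤ 3 * y + n := by
      push_cast
      have : (2 * (s : ℝ) + 1) ^ 2 ≤ n := by
        calc (2 * (s : ℝ) + 1) ^ 2 ≤ (a₂ * l) ^ 2 := pow_le_pow_left₀ (by positivity) hs2 2
          _ = a₂ ^ 2 * l ^ 2 := mul_pow _ _ _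
          _ ≤ n := h2
      linarith
    have e3 : (0 : ℝ) ≤ (((3 * y + (2 * s + 1) ^ 2 : ℕ)) : ℝ) := Nat.cast_nonneg _
    have e4 : (((3 * y + (2 * s + 1) ^ 2 : ℕ)) : ℝ) * Real.log ((1 / 2 : ℝ)⁻¹) ≤
        (((3 * y + (2 * s + 1) ^ 2 : ℕ)) : ℝ) := mul_le_of_le_one_right e3 e1
    linarith
  have hM0 : 0 ≤ 1 + Real.log (1 / (1 / 2) ^ (3 * y + (2 * s + 1) ^ 2)) := by
    have : 0 ≤ Real.log (1 / (1 / 2) ^ (3 * y + (2 * s + 1) ^ 2)) := by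
      apply Real.log_nonneg
      rw [le_div_iff₀ (by positivity), one_mul]
      exact pow_le_one₀ (by norm_num) (by norm_num)
    linarith
  have hy1 : ((y : ℝ) + 1) ^ 2 ≤ 4 * (y : ℝ) ^ 2 := by nlinarith
  have hyexp : (y : ℝ) = Real.exp (k * l) := by
    rw [← hyc, hl, mul_comm, Real.exp_mul, Real.exp_log hn0, Real.rpow_natCast]
  have hnexp : (n : ℝ) = Real.exp l := by rw [hl, Real.exp_log hn0]
  calc C * N ^ 4 * ((y : ℝ) + 1) ^ 2 *
      (1 + Real.log (1 / (1 / 2) ^ (3 * y + (2 * s + 1) ^ 2)))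
      ≤ n * Real.exp (4 * (k * a₂ + 1) * (n * l)) * (4 * (y : ℝ) ^ 2) * (5 * y) := by
        gcongr
    _ = 20 * n * (y : ℝ) ^ 3 * Real.exp (4 * (k * a₂ + 1) * (n * l)) := by ring
    _ ≤ n * n * (y : ℝ) ^ 3 * Real.exp (4 * (k * a₂ + 1) * (n * l)) := by gcongr
    _ = Real.exp (l + l + 3 * (k * l) + 4 * (k * a₂ + 1) * (n * l)) := by
        rw [hyexp, Real.exp_add, Real.exp_add, Real.exp_add, ← hnexp, ← Real.exp_nat_mul]
        push_cast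
        ring
    _ ≤ Real.exp ((2 + 3 * k + 4 * (k * a₂ + 1)) * n * l) := by
        apply Real.exp_le_exp.2
        have e1 : l ≤ n * l := le_mul_of_one_le_left (by linarith) (by linarith)
        have e2 : (k : ℝ) * l ≤ k * (n * l) := mul_le_mul_of_nonneg_left e1 (Nat.cast_nonneg _)
        linarith

/-- powers of the logarithm are eventually smaller than the identity -/
lemma ev_log_pow (A : ℝ) (k : ℕ) : ∀ᶠ n : ℕ in atTop, A * Real.log n ^ k ≤ n := by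
  have h1 := (Real.isLittleO_pow_log_id_atTop (n := k)).const_mul_left A
  have h2 := h1.comp_tendsto tendsto_natCast_atTop_atTop
  have h3 := h2.def (c := 1) one_pos
  filter_upwards [h3] with n hn
  simp only [Function.comp_apply, id, Real.norm_eq_abs, one_mul, Nat.abs_cast] at hn
  exact (le_abs_self _).trans hn

end Vale.Agent.P249.TP
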