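import Vale.Agent.P249.TP.Path
import Vale.Agent.P249.TP.Num

/-!
# P249, phase 2: assembly, SpecCore from the blocks (helper557)
-/

open Finset Filter Topology
open scoped BigOperators

namespace Vale.Agent.P249.TP

section kinds

variable {k s n : ℕ}

/-- the random data of all tests -/
abbrev RR (k s n : ℕ) : Type := ((Fin k → V (Fin n)) × V (Fin n)) ×
  Fr k s n × V (Fin k → Fin s) × V (Fin k → Fin s) × (Fin k → V (Fin s))

/-- kinds of tests and random data -/
abbrev QQ (k s n : ℕ) : Type := Option (Option (Fin k)) × RR k s n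

/-- first frequency of a test -/
def qa (q : QQ k s n) : V (Fin k → Fin n) :=
  match q.1 with
  | some (some _) => tens q.2.1.1
  | some none => blk q.2.2.1 q.2.2.2.1
  | none => blk q.2.2.1 q.2.2.2.1

/-- second frequency of a test -/
def qb (q : QQ k s n) : V (Fin k → Fin n) :=
  match q.1 with
  | some (some l) => tens (Function.update q.2.1.1 l q.2.1.2)
  | some none => blk q.2.2.1 q.2.2.2.2.1
  | none => blk q.2.2.1 (tens q.2.2.2.2.2)

instance : Nonempty (RR k s n) := ⟨0⟩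

instance : Nonempty (QQ k s n) := ⟨(none, 0)⟩

/-- one kind of tests -/
lemma kind_le {f : QQ k s n → ℝ} (hf : ∀ q, 0 ≤ f q) {e : ℝ} (h : av f ≤ e / (k + 2))
    (κ : Option (Option (Fin k))) : av (fun r : RR k s n => f (κ, r)) ≤ e := by
  rw [av_prod] at h
  have h1 : av (fun r : RR k s n => f (κ, r)) ≤
      ∑ κ' : Option (Option (Fin k)), av (fun r : RR k s n => f (κ', r)) :=
    Finset.single_le_sum (f := fun κ' => av (fun r : RR k s n => f (κ', r)))
      (fun κ' _ => av_nonneg fun r => hf _) (Finset.mem_univ κ)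
  refine h1.trans ?_
  have h2 : (Fintype.card (Option (Option (Fin k))) : ℝ) = k + 2 := by
    simp only [Fintype.card_option, Fintype.card_fin]
    push_cast
    ring
  unfold av at h ⊢
  rw [h2] at h
  have h3 : (0 : ℝ) < (k : ℝ) + 2 := by positivity
  exact (div_le_div_iff_of_pos_right h3).1 h

lemma inK_qa {hG : Graded (InK k n)} (hs : 1 ≤ s) (q : QQ k s n) : InK k n s (qa q) := by
  unfold qa
  split
  · exact hG.mono 1 s _ hs (inK_tens _)
  · exact inK_blk _ _
  · exact inK_blk _ _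

lemma inK_qb {hG : Graded (InK k n)} (hs : 1 ≤ s) (q : QQ k s n) : InK k n s (qb q) := by
  unfold qb
  split
  · exact hG.mono 1 s _ hs (inK_tens _)
  · exact inK_blk _ _
  · exact inK_blk _ _

lemma av_mode (g : (Fin k → V (Fin n)) × V (Fin n) → ℝ) :
    av (fun r : RR k s n => g r.1) = av g := by
  let φ : RR k s n →+ (Fin k → V (Fin n)) × V (Fin n) :=
    { toFun := fun r => r.1
      map_zero' := rfl
      map_add' := fun _ _ => rfl }
  exact av_surj φ (fun x => ⟨(x, 0), rfl⟩) g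

lemma av_block (g : Fr k s n × V (Fin k → Fin s) × V (Fin k → Fin s) → ℝ) :
    av (fun r : RR k s n => g (r.2.1, r.2.2.1, r.2.2.2.1)) = av g := by
  let φ : RR k s n →+ Fr k s n × V (Fin k → Fin s) × V (Fin k → Fin s) :=
    { toFun := fun r => (r.2.1, r.2.2.1, r.2.2.2.1)
      map_zero' := rfl
      map_add' := fun _ _ => rfl }
  exact av_surj φ (fun x => ⟨(0, x.1, x.2.1, x.2.2, 0), rfl⟩) g

lemma av_block' (g : Fr k s n × V (Fin k → Fin s) × (Fin k → V (Fin s)) → ℝ) :
    av (fun r : RR k s n => g (r.2.1, r.2.2.1, r.2.2.2.2)) = av g := by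
  let φ : RR k s n →+ Fr k s n × V (Fin k → Fin s) × (Fin k → V (Fin s)) :=
    { toFun := fun r => (r.2.1, r.2.2.1, r.2.2.2.2)
      map_zero' := rfl
      map_add' := fun _ _ => rfl }
  exact av_surj φ (fun x => ⟨(0, x.1, x.2.1, 0, x.2.2), rfl⟩) g

end kinds

lemma def1_nonneg {I : Type} {p : ℝ} {ι : Type} [Fintype ι] (T : V I → ι → ℝ)
    (S : V I) : 0 ≤ def1 p T S :=
  Finset.sum_nonneg fun _ _ => Real.rpow_nonneg (le_min (abs_nonneg _) (abs_nonneg _)) _

lemma def2_nonneg {I : Type} {p : ℝ} {ι : Type} [Fintype ι] (T : V I → ι → ℝ)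
    (S S' : V I) : 0 ≤ def2 p T S S' :=
  Finset.sum_nonneg fun _ _ => add_nonneg
    (Real.rpow_nonneg (le_min (abs_nonneg _) (abs_nonneg _)) _)
    (Real.rpow_nonneg (le_min (abs_nonneg _) (abs_nonneg _)) _)

theorem core (hLin : SpecLin) (hUni : SpecUni) (hStart : SpecStart) (hBlock : SpecBlock)
    (hGrade : SpecGrade) (hCount : SpecCount) : SpecCore := by
  intro p D k hp hp2 hD hk
  obtain ⟨δ, s₀, hδ, hSt⟩ := hStart p k hp hk
  obtain ⟨L, Λ, H₀, ν, hΛ, hH₀, hν, hU⟩ := hUni p D (δ / (k + 2)) hp hp2 hD (by positivity)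
  obtain ⟨C, hC, hL⟩ := hLin p D Λ hp hD hΛ
  obtain ⟨c, Cb, hc, hCb, hB⟩ := hBlock p hp hp2
  obtain ⟨a, ha⟩ := exists_nat_ge (((k : ℝ) + 1) / c)
  set a₂ : ℝ := ((L : ℝ) + 2) * (3 * a + s₀ + 2) + 1 with ha₂
  have ha₂0 : 0 < a₂ := by positivity
  -- eventually
  have hcst : 0 < 1 / 4 * H₀ ^ (1 / p) := by positivity
  obtain ⟨N₁, hN₁⟩ := exists_nat_gt ((k * Cb * D + k * Cb + 2 + 4 * p * D) /
    (1 / 4 * H₀ ^ (1 / p)))
  obtain ⟨N₂, hN₂⟩ := exists_nat_ge C
  obtain ⟨N₃, hN₃⟩ := exists_nat_ge (1 / ν)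
  obtain ⟨n₀, hn₀⟩ := eventually_atTop.1 ((ev_log_pow (a₂ ^ k) k).and (ev_log_pow (a₂ ^ 2) 2))
  refine ⟨2 + 3 * k + 4 * (k * a₂ + 1), max (max 20 n₀) (max N₁ (max N₂ N₃)), by positivity,
    fun n hn => ?_⟩
  have hn20 : 20 ≤ n := le_trans (le_trans (le_max_left _ _) (le_max_left _ _)) hn
  have hnn₀ : n₀ ≤ n := le_trans (le_trans (le_max_right _ _) (le_max_left _ _)) hn
  have hnN₁ : (N₁ : ℝ) ≤ n := by
    exact_mod_cast le_trans (le_trans (le_max_left _ _) (le_max_right _ _)) hn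
  have hnN₂ : (N₂ : ℝ) ≤ n := by
    exact_mod_cast le_trans (le_trans (le_trans (le_max_left _ _) (le_max_right _ _))
      (le_max_right _ _)) hn
  have hnN₃ : (N₃ : ℝ) ≤ n := by
    exact_mod_cast le_trans (le_trans (le_trans (le_max_right _ _) (le_max_right _ _))
      (le_max_right _ _)) hn
  obtain ⟨hlog1, hlog2⟩ := hn₀ n hnn₀
  have hn0 : (0 : ℝ) < n := by exact_mod_cast (by omega : 0 < n)
  have hH : k * Cb * D + k * Cb + 2 + 4 * p * D < n * (1 / 4 * H₀ ^ (1 / p)) := by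
    have := hN₁.trans_le hnN₁
    rwa [div_lt_iff₀ hcst] at this
  set s : ℕ := a * (Nat.log 2 n + 1) + s₀ + 1 with hs
  set ε : ℝ := (1 / 2) ^ (3 * n ^ k + (2 * s + 1) ^ 2) with hε
  have hε0 : 0 < ε := by positivity
  have hε1 : ε ≤ 1 := pow_le_one₀ (by norm_num) (by norm_num)
  have hny : n ≤ n ^ k := Nat.le_self_pow (by omega) n
  have hεν : ε ≤ ν := by
    have h1 : ε ≤ 1 / n := half_pow_le (by omega) (by omega)
    refine h1.trans ?_
    rw [div_le_iff₀ hn0]
    have h2 := hN₃.trans hnN₃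
    rw [div_le_iff₀ hν] at h2
    linarith
  have hG := hGrade k n hk
  -- the test family
  obtain ⟨fam, hfam⟩ := hU (Fin k → Fin n) (InK k n) hG (QQ k (s + 1) n) qa qb (s + 1)
    (inK_qa (hG := hG) (by omega)) (inK_qb (hG := hG) (by omega))
  -- monotonicity in the grading
  set r : ℕ := L * (s + 1) + (2 * s + 3) with hr
  let fam' : TestFam p Λ (InK k n r) :=
    { T := fam.T
      ft := fam.ft
      π := fam.π
      b := fam.b
      π_nonneg := fam.π_nonneg
      supp := fun t S hS => fam.supp t S fun h => hS (hG.mono _ _ _ (by omega) h)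
      l1 := fam.l1
      mass := fam.mass }
  obtain ⟨X, hX, hXF⟩ := hL (Fin k → Fin n) (InK k n r)
    (hG.mono 0 r 0 (Nat.zero_le _) hG.zero) ε hε0 hε1 fam'
  refine ⟨X, ?_, ?_⟩
  · refine hX.trans ?_
    rw [card_index]
    exact num_card hk hn20 (hN₂.trans hnN₂) hs ha₂ hlog1 hlog2 (Nat.cast_nonneg _)
      (hCount k n r)
  · intro ι _ F hF
    by_contra hcon
    push Not at hcon
    obtain ⟨τ, hSys, hL3⟩ := hXF ι F hF
    have hL3' : L3 fam τ := hL3
    obtain ⟨τ', hSys', hH₀', hdef⟩ := hfam ε hε0.le hεν (2 * s + 3) ι τ hSys hL3'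
    have hf : ∀ q : QQ k (s + 1) n,
        0 ≤ def1 p (τ' []) (qa q) + def2 p (τ' []) (qa q) (qb q) :=
      fun q => add_nonneg (def1_nonneg _ _) (def2_nonneg _ _ _)
    have hdef' : av (fun q : QQ k (s + 1) n =>
        def1 p (τ' []) (qa q) + def2 p (τ' []) (qa q) (qb q)) ≤
        (δ * ∑ i, |τ' [] 0 i| ^ p) / (k + 2) := by
      refine hdef.trans (le_of_eq ?_)
      ring
    have hk1 := kind_le hf hdef'
    obtain ⟨ψ, P, hψ, hstart⟩ := hSt (s + 1) (by omega) n ι (τ' []) H₀ hH₀ hH₀'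
      (fun l => by
        have := hk1 (some (some l))
        rw [← av_mode (s := s + 1)]
        exact this)
      (by
        have := hk1 (some none)
        rw [← av_block]
        exact this)
      (by
        have := hk1 none
        rw [← av_block']
        exact this)
    have hB' := hB k s n hk (by omega) D ε hD hε0.le ι τ' hSys' ψ P hψ
    have htot := uu_total (s := s + 1) hp hG (r := 2 * s + 3) (by omega) hSys' hψ hB'
    have hnum := num_path hp hD hc hCb hk ha (by omega) (by omega : a * (Nat.log 2 n + 1) ≤ s)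
      hH hcon hε
    have hlt := htot.trans_lt hnum
    have huu : uu τ' ψ P (s + 1) [] = av (fun q : Fr k (s + 1) n × V (Fin k → Fin (s + 1)) =>
        ∑ i, ψ i * (w (blk q.1 q.2) (P i) * τ' [] (blk q.1 q.2) i)) := rfl
    rw [huu] at hlt
    exact absurd (lt_of_le_of_lt (le_abs_self _) hlt) (not_lt.2 hstart)

end Vale.Agent.P249.TP
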