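import Vale.Agent.P249.TP.Spec

/-! # P249, phase 2, FINAL: from the combinatorial core to `L_p(μ)` and the asymptotics (helper606) -/

open Finset MeasureTheory
open scoped BigOperators

namespace Vale.Agent.P249.TP

namespace FinT

set_option linter.unusedSectionVars false
set_option linter.style.haveILetI false

section

variable (Ω : Type) [Fintype Ω] [Nonempty Ω] [MeasurableSpace Ω] [DiscreteMeasurableSpace Ω]

/-- the uniform probability -/
noncomputable def unif : Measure Ω := (PMF.uniformOfFintype Ω).toMeasure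

lemma isProb_unif : IsProbabilityMeasure (unif Ω) := by
  unfold unif
  infer_instance

variable {Ω}

lemma unif_real_singleton (x : Ω) : (unif Ω).real {x} = 1 / Fintype.card Ω := by
  unfold unif Measure.real
  rw [PMF.toMeasure_apply_singleton _ _ (measurableSet_singleton x), PMF.uniformOfFintype_apply]
  simp

lemma memLp (p : ENNReal) (g : Ω → ℝ) : MemLp g p (unif Ω) := by
  haveI := isProb_unif Ω
  apply MemLp.of_bound (C := ∑ y, |g y|)
  · exact (Measurable.of_discrete).aestronglyMeasurable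
  · refine Filter.Eventually.of_forall (fun x => ?_)
    rw [Real.norm_eq_abs]
    exact Finset.single_le_sum (f := fun y => |g y|) (fun y _ => abs_nonneg _) (Finset.mem_univ x)

/-- the class of a function in `L_p` -/
noncomputable def toL (p : ENNReal) (g : Ω → ℝ) : Lp ℝ p (unif Ω) := (memLp p g).toLp g

lemma norm_toL_sub {p : ENNReal} (hp0 : p ≠ 0) (hp : p ≠ ⊤) (g h : Ω → ℝ) :
    ‖toL p g - toL p h‖ = nE p.toReal (g - h) := by
  haveI := isProb_unif Ω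
  unfold toL
  rw [← MemLp.toLp_sub, Lp.norm_toLp, MemLp.eLpNorm_eq_integral_rpow_norm hp0 hp
    (memLp p (g - h)), integral_fintype Integrable.of_finite]
  unfold nE
  have hpos : 0 < p.toReal := ENNReal.toReal_pos hp0 hp
  simp only [unif_real_singleton, smul_eq_mul, Real.norm_eq_abs]
  rw [ENNReal.toReal_ofReal (by positivity), ← Finset.mul_sum, one_div p.toReal]
  congr 1
  rw [one_div, inv_mul_eq_div]

lemma nE_const {p : ℝ} (hp : 0 < p) (c : ℝ) : nE p (fun _ : Ω => c) = |c| := by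
  unfold nE
  have h0 : (Fintype.card Ω : ℝ) ≠ 0 := by exact_mod_cast Fintype.card_ne_zero
  have h : ∑ _y : Ω, |c| ^ p = Fintype.card Ω * |c| ^ p := by
    simp
  rw [h, mul_div_assoc, mul_comm, div_mul_cancel₀ _ h0, ← Real.rpow_mul (abs_nonneg c),
    mul_one_div_cancel hp.ne', Real.rpow_one]

lemma infinite_L {p : ENNReal} [Fact (1 ≤ p)] (hp0 : p ≠ 0) (hp : p ≠ ⊤) :
    Infinite (Lp ℝ p (unif Ω)) := by
  apply Infinite.of_injective (fun c : ℝ => toL (Ω := Ω) p (fun _ => c))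
  intro c c' h
  have hpos : 0 < p.toReal := ENNReal.toReal_pos hp0 hp
  have h1 := norm_toL_sub (Ω := Ω) hp0 hp (fun _ => c) (fun _ => c')
  have h2 : ((fun _ : Ω => c) - fun _ => c') = fun _ => c - c' := rfl
  rw [h2, nE_const hpos] at h1
  simp only at h
  rw [h, sub_self, norm_zero] at h1
  have := abs_eq_zero.mp h1.symm
  linarith

end

lemma norm_piLp {p : ENNReal} (hp0 : 0 < p.toReal) {k : ℕ} (v : PiLp p (fun _ : Fin k => ℝ)) :
    ‖v‖ = nT p.toReal (fun i => v i) := by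
  rw [PiLp.norm_eq_sum hp0]
  unfold nT
  simp only [Real.norm_eq_abs]

lemma nT_smul {p : ℝ} (hp : 0 < p) {ι : Type} [Fintype ι] (c : ℝ) (hc : 0 ≤ c) (v : ι → ℝ) :
    nT p (fun i => c * v i) = c * nT p v := by
  unfold nT
  have h : ∀ i, |c * v i| ^ p = c ^ p * |v i| ^ p := by
    intro i
    rw [abs_mul, abs_of_nonneg hc, Real.mul_rpow hc (abs_nonneg _)]
  simp only [h]
  rw [← Finset.mul_sum, Real.mul_rpow (by positivity) (by positivity), ← Real.rpow_mul hc,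
    mul_one_div_cancel hp.ne', Real.rpow_one]

/-- transfer from a set of functions to exactly `n` points of `L_p`. -/
lemma transfer {p : ENNReal} [Fact (1 ≤ p)] (hp : p ≠ ⊤) {D : ℝ} {I : Type} [Fintype I]
    [DecidableEq I] [MeasurableSpace (V I)] [DiscreteMeasurableSpace (V I)] {N : ℝ}
    (X : Finset (V I → ℝ)) (n : ℕ) (hn : X.card ≤ n)
    (hX : ∀ (ι : Type) [Fintype ι] (F : (V I → ℝ) → ι → ℝ), BiLip p.toReal D X F →
      N < Fintype.card ι) :
    ∃ Y : Finset (Lp ℝ p (unif (V I))), Y.card = n ∧ ∀ k : ℕ,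
      (∃ f : Lp ℝ p (unif (V I)) → PiLp p (fun _ : Fin k => ℝ), ∃ s : ℝ, 0 < s ∧
        ∀ x ∈ Y, ∀ y ∈ Y, s * ‖x - y‖ ≤ ‖f x - f y‖ ∧ ‖f x - f y‖ ≤ D * s * ‖x - y‖) →
      N < k := by
  classical
  have hp1 : 1 ≤ p := Fact.out
  have hp0 : p ≠ 0 := by
    intro h
    rw [h] at hp1
    simp at hp1
  have hpos : 0 < p.toReal := ENNReal.toReal_pos hp0 hp
  have := infinite_L (Ω := V I) hp0 hp
  obtain ⟨Y, hY1, hY2⟩ := Infinite.exists_superset_card_eq (X.image (toL p)) n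
    (Finset.card_image_le.trans hn)
  refine ⟨Y, hY2, ?_⟩
  rintro k ⟨f, s, hs, hf⟩
  have := hX (Fin k) (fun g i => s⁻¹ * f (toL p g) i) ?_
  · simpa using this
  · intro g hg h hh
    have h1 := hf (toL p g) (hY1 (Finset.mem_image_of_mem _ hg)) (toL p h)
      (hY1 (Finset.mem_image_of_mem _ hh))
    rw [norm_toL_sub hp0 hp, norm_piLp hpos] at h1
    have h2 : ((fun i => s⁻¹ * f (toL p g) i) - fun i => s⁻¹ * f (toL p h) i)
        = fun i => s⁻¹ * (f (toL p g) - f (toL p h)) i := by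
      funext i
      simp only [Pi.sub_apply, PiLp.sub_apply]
      ring
    rw [h2, nT_smul hpos _ (inv_nonneg.mpr hs.le)]
    constructor
    · rw [inv_mul_eq_div, le_div_iff₀ hs]
      linarith [h1.1]
    · rw [inv_mul_eq_div, div_le_iff₀ hs]
      linarith [h1.2]

/-- numerics: `t ^ 2 = log log N`, `m = ⌊t⌋` -/
lemma numerics (A a : ℝ) (ha : 0 < a) (n₁ : ℕ) : ∃ t₀ : ℝ, 1 ≤ t₀ ∧ ∀ t : ℝ, t₀ ≤ t →
    n₁ ≤ ⌊t⌋₊ ∧ a * ⌊t⌋₊ * Real.log ⌊t⌋₊ ≤ t ^ 2 ∧
      (t ^ 2) ^ A ≤ Real.log 2 * ((⌊t⌋₊ : ℝ) ^ (2 * ⌈A⌉₊ + 1) / 2) := by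
  set k : ℕ := 2 * ⌈A⌉₊ + 1 with hk
  refine ⟨max (max (n₁ : ℝ) (4 * a ^ 2)) (2 ^ (k + 2)), ?_, fun t ht => ?_⟩
  · exact (one_le_pow₀ (by norm_num)).trans (le_max_right _ _)
  have h1 : (n₁ : ℝ) ≤ t := (le_max_left _ _).trans ((le_max_left _ _).trans ht)
  have h2 : 4 * a ^ 2 ≤ t := (le_max_right _ _).trans ((le_max_left _ _).trans ht)
  have h3 : (2 : ℝ) ^ (k + 2) ≤ t := (le_max_right _ _).trans ht
  have h4 : (4 : ℝ) ≤ t := by
    have : (2 : ℝ) ^ 2 ≤ 2 ^ (k + 2) := pow_le_pow_right₀ (by norm_num) (by omega)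
    linarith
  have h0 : (0 : ℝ) ≤ t := by linarith
  have hm1 : (⌊t⌋₊ : ℝ) ≤ t := Nat.floor_le h0
  have hm2 : t / 2 ≤ (⌊t⌋₊ : ℝ) := by
    have := Nat.lt_floor_add_one t
    linarith
  have hmpos : (0 : ℝ) < ⌊t⌋₊ := by linarith
  refine ⟨Nat.le_floor h1, ?_, ?_⟩
  · have h5 : Real.log ⌊t⌋₊ ≤ Real.log t := Real.log_le_log hmpos hm1
    have h6 : Real.log t ≤ 2 * Real.sqrt t := by
      have h7 : Real.log t = 2 * Real.log (Real.sqrt t) := by
        rw [Real.log_sqrt h0]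
        ring
      rw [h7]
      have := Real.log_le_self (Real.sqrt_nonneg t)
      linarith
    have h8 : 2 * a ≤ Real.sqrt t := by
      apply Real.le_sqrt_of_sq_le
      nlinarith
    have h9 : Real.sqrt t * Real.sqrt t = t := Real.mul_self_sqrt h0
    have h10 : 0 ≤ Real.sqrt t := Real.sqrt_nonneg t
    have h11 : 0 ≤ Real.log t := Real.log_nonneg (by linarith)
    calc a * ⌊t⌋₊ * Real.log ⌊t⌋₊ ≤ a * t * Real.log t := by
          gcongr
      _ ≤ a * t * (2 * Real.sqrt t) := by gcongr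
      _ = t * (2 * a * Real.sqrt t) := by ring
      _ ≤ t * (Real.sqrt t * Real.sqrt t) := by gcongr
      _ = t ^ 2 := by rw [h9]; ring
  · have hl2 : (1 : ℝ) / 2 < Real.log 2 := by
      have := Real.log_two_gt_d9
      linarith
    have h5 : (t ^ 2) ^ A ≤ t ^ (2 * ⌈A⌉₊) := by
      calc (t ^ 2) ^ A ≤ (t ^ 2) ^ ((⌈A⌉₊ : ℕ) : ℝ) :=
            Real.rpow_le_rpow_of_exponent_le (by nlinarith) (Nat.le_ceil A)
        _ = t ^ (2 * ⌈A⌉₊) := by rw [Real.rpow_natCast, ← pow_mul]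
    have h6 : (t / 2) ^ k ≤ (⌊t⌋₊ : ℝ) ^ k := pow_le_pow_left₀ (by linarith) hm2 k
    have h7 : t ^ (2 * ⌈A⌉₊) * 2 ^ (k + 2) ≤ t ^ k := by
      calc t ^ (2 * ⌈A⌉₊) * 2 ^ (k + 2) ≤ t ^ (2 * ⌈A⌉₊) * t := by gcongr
        _ = t ^ k := by rw [hk, pow_succ]
    have h8 : t ^ (2 * ⌈A⌉₊) * 4 ≤ (t / 2) ^ k := by
      rw [div_pow, le_div_iff₀ (by positivity)]
      calc t ^ (2 * ⌈A⌉₊) * 4 * 2 ^ k = t ^ (2 * ⌈A⌉₊) * 2 ^ (k + 2) := by rw [pow_add]; ring
        _ ≤ t ^ k := h7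
    have h9 : 0 ≤ (⌊t⌋₊ : ℝ) ^ k := by positivity
    calc (t ^ 2) ^ A ≤ t ^ (2 * ⌈A⌉₊) := h5
      _ = 1 / 2 * ((t ^ (2 * ⌈A⌉₊) * 4) / 2) := by ring
      _ ≤ 1 / 2 * ((⌊t⌋₊ : ℝ) ^ k / 2) := by
          have := h8.trans h6
          linarith
      _ ≤ Real.log 2 * ((⌊t⌋₊ : ℝ) ^ k / 2) := by gcongr

end FinT

set_option linter.style.haveILetI false in
open FinT in
/-- **FINAL** -/
theorem specFinal_of (hcore : SpecCore) : SpecFinal := by
  intro p _ hp1 hpt hp2 D hD A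
  have hpr1 : 1 < p.toReal := by
    have := (ENNReal.toReal_lt_toReal (by simp) hpt).mpr hp1
    simpa using this
  have hpr2 : p.toReal ≠ 2 := by
    intro h
    apply hp2
    have h2 : p.toReal = (2 : ENNReal).toReal := by rw [h]; simp
    exact (ENNReal.toReal_eq_toReal_iff' hpt (by simp)).mp h2
  obtain ⟨a, n₁, ha, hcore'⟩ :=
    hcore p.toReal D (2 * ⌈A⌉₊ + 1) hpr1 hpr2 hD (by omega)
  obtain ⟨t₀, ht₀, hnum⟩ := numerics A a ha n₁
  refine ⟨⌈Real.exp (Real.exp (t₀ ^ 2))⌉₊, fun N hN => ?_⟩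
  have hN1 : Real.exp (Real.exp (t₀ ^ 2)) ≤ N := (Nat.le_ceil _).trans (by exact_mod_cast hN)
  have hNpos : (0 : ℝ) < N := lt_of_lt_of_le (Real.exp_pos _) hN1
  have hL1 : Real.exp (t₀ ^ 2) ≤ Real.log N := (Real.le_log_iff_exp_le hNpos).mpr hN1
  have hLpos : 0 < Real.log (N : ℝ) := lt_of_lt_of_le (Real.exp_pos _) hL1
  have hx : t₀ ^ 2 ≤ Real.log (Real.log N) := (Real.le_log_iff_exp_le hLpos).mpr hL1
  have hx0 : 0 ≤ Real.log (Real.log (N : ℝ)) := le_trans (by positivity) hx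
  set t : ℝ := Real.sqrt (Real.log (Real.log N)) with ht
  have htt : t ^ 2 = Real.log (Real.log N) := Real.sq_sqrt hx0
  have ht0 : t₀ ≤ t := Real.le_sqrt_of_sq_le hx
  obtain ⟨hm1, hm2, hm3⟩ := hnum t ht0
  set m : ℕ := ⌊t⌋₊ with hm
  obtain ⟨X, hX1, hX2⟩ := hcore' m hm1
  have hcard : X.card ≤ N := by
    by_cases hX0 : X.card = 0
    · omega
    · have hXpos : (0 : ℝ) < X.card := by
        have : 0 < X.card := Nat.pos_of_ne_zero hX0
        exact_mod_cast this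
      have h3 : Real.log X.card ≤ Real.log N := by
        calc Real.log X.card ≤ Real.exp (a * m * Real.log m) := hX1
          _ ≤ Real.exp (Real.log (Real.log N)) := Real.exp_le_exp.mpr (by rw [← htt]; exact hm2)
          _ = Real.log N := Real.exp_log hLpos
      have := (Real.log_le_log_iff hXpos hNpos).mp h3
      exact_mod_cast this
  letI : MeasurableSpace (V (Fin (2 * ⌈A⌉₊ + 1) → Fin m)) := ⊤
  haveI : DiscreteMeasurableSpace (V (Fin (2 * ⌈A⌉₊ + 1) → Fin m)) := ⟨fun _ => trivial⟩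
  obtain ⟨Y, hY1, hY2⟩ := transfer hpt X N hcard hX2
  refine ⟨V (Fin (2 * ⌈A⌉₊ + 1) → Fin m), inferInstance, unif _, isProb_unif _, Y, hY1, ?_⟩
  intro d hd
  have hlt := hY2 d hd
  refine le_trans ?_ hlt.le
  rw [Real.rpow_def_of_pos (by norm_num : (0 : ℝ) < 2), ← htt]
  exact Real.exp_le_exp.mpr hm3

end Vale.Agent.P249.TP
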