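import Vale.Agent.P249.TP.Final
import Vale.Agent.P249.SP.FinalD

/-! # P249, phase 2: corollaries of FINAL in terms of `Admissible` and `dimLp` (helper606) -/

open MeasureTheory Filter Asymptotics
open scoped ENNReal

namespace Vale.Agent.P249.TP

/-- lower bound for every admissible dimension. -/
theorem lower_of_final (h : SpecFinal) {p : ℝ≥0∞} [Fact (1 ≤ p)] (hp1 : 1 < p) (hp : p ≠ ∞)
    (hp2 : p ≠ 2) {D : ℝ} (hD : 1 ≤ D) (A : ℝ) :
    ∃ n₀ : ℕ, ∀ n : ℕ, n₀ ≤ n → ∀ d : ℕ, Admissible p n D d →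
      Real.exp ((Real.log (Real.log n)) ^ A) ≤ d := by
  obtain ⟨n₀, hn₀⟩ := h p hp1 hp hp2 D hD A
  refine ⟨n₀, fun n hn d hd => ?_⟩
  obtain ⟨Ω, i, μ, _, X, hX, hlow⟩ := hn₀ n hn
  exact hlow d (hd Ω μ X hX)

/-- `exp ((log log n)^A) = o(d_p(n, D))` for all `A`. -/
theorem isLittleO_of_final (h : SpecFinal) {p : ℝ≥0∞} [Fact (1 ≤ p)] (hp1 : 1 < p) (hp : p ≠ ∞)
    (hp2 : p ≠ 2) {D : ℝ} (hD : 1 < D) (A : ℝ) :
    (fun n : ℕ => Real.exp ((Real.log (Real.log n)) ^ A)) =o[atTop]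
      (fun n : ℕ => (dimLp p n D : ℝ)) := by
  obtain ⟨n₀, hn₀⟩ := lower_of_final h hp1 hp hp2 hD.le (max A 0 + 1)
  have hlog : Tendsto (fun n : ℕ => Real.log (Real.log (n : ℝ))) atTop atTop :=
    Real.tendsto_log_atTop.comp (Real.tendsto_log_atTop.comp tendsto_natCast_atTop_atTop)
  rw [isLittleO_iff]
  intro c hc
  filter_upwards [eventually_ge_atTop n₀, eventually_ge_atTop 2,
    hlog.eventually_ge_atTop (max 1 (1 + Real.log (1 / c)))] with n h1 h2 h3
  set x : ℝ := Real.log (Real.log n) with hx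
  have hx1 : 1 ≤ x := (le_max_left _ _).trans h3
  have hx0 : 0 < x := by linarith
  have hxc : 1 + Real.log (1 / c) ≤ x := (le_max_right _ _).trans h3
  have h4 := hn₀ n h1 _ (SP.admissible_dimLp hp1 hp hD h2)
  rw [← hx] at h4
  have h5 : 1 ≤ x ^ max A 0 := Real.one_le_rpow hx1 (le_max_right _ _)
  have h6 : x ^ A ≤ x ^ max A 0 := Real.rpow_le_rpow_of_exponent_le hx1 (le_max_left _ _)
  have h7 : x ^ A + Real.log (1 / c) ≤ x ^ (max A 0 + 1) := by
    rw [Real.rpow_add hx0, Real.rpow_one]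
    nlinarith
  have h8 : Real.exp (x ^ A) * (1 / c) ≤ dimLp p n D := by
    calc Real.exp (x ^ A) * (1 / c) = Real.exp (x ^ A + Real.log (1 / c)) := by
          rw [Real.exp_add, Real.exp_log (by positivity)]
      _ ≤ Real.exp (x ^ (max A 0 + 1)) := Real.exp_le_exp.mpr h7
      _ ≤ dimLp p n D := h4
  rw [Real.norm_of_nonneg (Real.exp_pos _).le, Real.norm_of_nonneg (Nat.cast_nonneg _)]
  calc Real.exp (x ^ A) = c * (Real.exp (x ^ A) * (1 / c)) := by field_simp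
    _ ≤ c * (dimLp p n D : ℝ) := by gcongr

/-- `(log n)^A = o(d_p(n, D))` for all `A` (the bound of phase 1). -/
theorem isLittleO_log_of_final (h : SpecFinal) {p : ℝ≥0∞} [Fact (1 ≤ p)] (hp1 : 1 < p)
    (hp : p ≠ ∞) (hp2 : p ≠ 2) {D : ℝ} (hD : 1 < D) (A : ℝ) :
    (fun n : ℕ => (Real.log n) ^ A) =o[atTop] (fun n : ℕ => (dimLp p n D : ℝ)) := by
  refine IsBigO.trans_isLittleO ?_ (isLittleO_of_final h hp1 hp hp2 hD 2)
  have hlog : Tendsto (fun n : ℕ => Real.log (Real.log (n : ℝ))) atTop atTop :=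
    Real.tendsto_log_atTop.comp (Real.tendsto_log_atTop.comp tendsto_natCast_atTop_atTop)
  have hlog' : Tendsto (fun n : ℕ => Real.log (n : ℝ)) atTop atTop :=
    Real.tendsto_log_atTop.comp tendsto_natCast_atTop_atTop
  refine IsBigO.of_bound 1 ?_
  filter_upwards [hlog.eventually_ge_atTop (max 1 A), hlog'.eventually_ge_atTop 1] with n h3 h4
  have hL : 0 < Real.log (n : ℝ) := by linarith
  set x : ℝ := Real.log (Real.log n) with hx
  have hx1 : 1 ≤ x := (le_max_left _ _).trans h3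
  have hxA : A ≤ x := (le_max_right _ _).trans h3
  rw [Real.norm_of_nonneg (Real.rpow_nonneg hL.le _), Real.norm_of_nonneg (Real.exp_pos _).le,
    one_mul, Real.rpow_def_of_pos hL, ← hx]
  refine Real.exp_le_exp.mpr ?_
  have h5 : x ^ (2 : ℝ) = x * x := by
    rw [Real.rpow_two, sq]
  rw [h5]
  gcongr

end Vale.Agent.P249.TP
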