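import Vale.Agent.P249.TP.Spec

/-!
# P249, phase 2: Tucker rank is a grading; number of tensors of small Tucker rank (helper606)
-/

open Finset
open scoped BigOperators

namespace Vale.Agent.P249.TP

namespace Gr

theorem blk_add' {k s n : ℕ} (A : Fin k → Fin s → V (Fin n)) (c d : V (Fin k → Fin s)) :
    blk A (c + d) = blk A c + blk A d := by
  simp only [blk, Pi.add_apply, add_smul, Finset.sum_add_distrib]

/-- change of the index type of a frame -/
theorem blk_reindex {k a b n : ℕ} (e : Fin a → Fin b) (A : Fin k → Fin b → V (Fin n))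
    (c : V (Fin k → Fin a)) :
    blk (fun l j => A l (e j)) c =
      blk A (fun j' => ∑ j : Fin k → Fin a, if (fun l => e (j l)) = j' then c j else 0) := by
  unfold blk
  simp only [Finset.sum_smul, ite_smul, zero_smul]
  rw [Finset.sum_comm]
  refine Finset.sum_congr rfl fun j _ => ?_
  rw [Finset.sum_ite_eq Finset.univ (fun l => e (j l))]
  simp

theorem inK_mono {k n a b : ℕ} (h : a ≤ b) {S : V (Fin k → Fin n)} (hS : InK k n a S) :
    InK k n b S := by
  obtain ⟨A, c, rfl⟩ := hS
  let A' : Fin k → Fin b → V (Fin n) := fun l j => if h : (j : ℕ) < a then A l ⟨j, h⟩ else 0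
  have hA : (fun l j => A' l (Fin.castLE h j)) = A := by
    funext l j
    simp [A']
  have h1 := blk_reindex (Fin.castLE h) A' c
  rw [hA] at h1
  exact ⟨A', _, h1⟩

theorem inK_add {k n a b : ℕ} {S S' : V (Fin k → Fin n)} (hS : InK k n a S)
    (hS' : InK k n b S') : InK k n (a + b) (S + S') := by
  obtain ⟨A, c, rfl⟩ := hS
  obtain ⟨B, d, rfl⟩ := hS'
  let A' : Fin k → Fin (a + b) → V (Fin n) := fun l => Fin.append (A l) (B l)
  have hA : (fun l j => A' l (Fin.castAdd b j)) = A := by
    funext l j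
    simp [A']
  have hB : (fun l j => A' l (Fin.natAdd a j)) = B := by
    funext l j
    simp [A']
  have h1 := blk_reindex (Fin.castAdd b) A' c
  have h2 := blk_reindex (Fin.natAdd a) A' d
  rw [hA] at h1
  rw [hB] at h2
  exact ⟨A', _, by rw [h1, h2, ← blk_add']⟩

theorem tens_single {k n : ℕ} (i : Fin k → Fin n) :
    tens (fun l => (Pi.single (i l) 1 : V (Fin n))) = Pi.single i 1 := by
  funext j
  unfold tens
  by_cases h : j = i
  · subst h
    simp
  · rw [Pi.single_eq_of_ne h]
    obtain ⟨l, hl⟩ := Function.ne_iff.1 h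
    exact Finset.prod_eq_zero (Finset.mem_univ l) (Pi.single_eq_of_ne hl 1)

theorem inK_tens {k n : ℕ} (x : Fin k → V (Fin n)) : InK k n 1 (tens x) := by
  refine ⟨fun l _ => x l, fun _ => 1, ?_⟩
  unfold blk
  rw [Fintype.sum_unique, one_smul]

end Gr

open Gr in
/-- **GRADE** -/
theorem specGrade : SpecGrade := by
  intro k n hk
  refine ⟨⟨fun _ _ => 0, 0, ?_⟩, fun a b S h => inK_mono h, fun a b S S' h h' => inK_add h h',
    fun i => ?_⟩
  · simp [blk]
  · rw [← tens_single i]
    exact inK_tens _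

/-- **COUNT** -/
theorem specCount : SpecCount := by
  intro k n r
  have h1 : Nat.card {S : V (Fin k → Fin n) // InK k n r S} ≤
      Nat.card ((Fin k → Fin r → V (Fin n)) × V (Fin k → Fin r)) := by
    refine Nat.card_le_card_of_surjective
      (fun q : (Fin k → Fin r → V (Fin n)) × V (Fin k → Fin r) =>
        (⟨blk q.1 q.2, q.1, q.2, rfl⟩ : {S : V (Fin k → Fin n) // InK k n r S})) ?_
    rintro ⟨S, A, c, rfl⟩
    exact ⟨(A, c), rfl⟩
  have h2 : Nat.card ((Fin k → Fin r → V (Fin n)) × V (Fin k → Fin r)) =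
      2 ^ (k * r * n + r ^ k) := by
    simp only [V, Nat.card_eq_fintype_card, Fintype.card_prod, Fintype.card_fun, Fintype.card_fin,
      ZMod.card]
    rw [pow_add]
    congr 1
    rw [← pow_mul, ← pow_mul]
    congr 1
    ring
  calc (Nat.card {S : V (Fin k → Fin n) // InK k n r S} : ℝ)
      ≤ (Nat.card ((Fin k → Fin r → V (Fin n)) × V (Fin k → Fin r)) : ℝ) := by exact_mod_cast h1
    _ = 2 ^ (k * r * n + r ^ k) := by rw [h2]; push_cast; rfl

end Vale.Agent.P249.TP
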