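import Vale.Agent.P249.TP.Basic

/-!
# P249, phase 2: common lemmas for KEY (helper206)
-/

open Finset
open scoped BigOperators

namespace Vale.Agent.P249.TP

namespace Key

section general

variable {ι Ω : Type} [Fintype ι] [Fintype Ω]

lemma nT_nonneg (p : ℝ) (v : ι → ℝ) : 0 ≤ nT p v :=
  Real.rpow_nonneg (Finset.sum_nonneg fun _ _ => Real.rpow_nonneg (abs_nonneg _) _) _

lemma nE_nonneg (p : ℝ) (f : Ω → ℝ) : 0 ≤ nE p f :=
  Real.rpow_nonneg (div_nonneg (Finset.sum_nonneg fun _ _ => Real.rpow_nonneg (abs_nonneg _) _)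
    (Nat.cast_nonneg _)) _

lemma nT_rpow {p : ℝ} (hp : 0 < p) (v : ι → ℝ) : nT p v ^ p = ∑ i, |v i| ^ p := by
  unfold nT
  rw [← Real.rpow_mul (Finset.sum_nonneg fun i _ => Real.rpow_nonneg (abs_nonneg _) _),
    one_div_mul_cancel hp.ne', Real.rpow_one]

lemma nE_rpow {p : ℝ} (hp : 0 < p) (f : Ω → ℝ) :
    nE p f ^ p = (∑ y, |f y| ^ p) / Fintype.card Ω := by
  unfold nE
  rw [← Real.rpow_mul (div_nonneg (Finset.sum_nonneg fun i _ => Real.rpow_nonneg (abs_nonneg _) _)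
    (Nat.cast_nonneg _)), one_div_mul_cancel hp.ne', Real.rpow_one]

lemma sum_single_le {κ : Type} (s : Finset κ) (f : κ → ℝ) (hf : ∀ k, 0 ≤ f k) {a : κ}
    (ha : a ∈ s) : f a ≤ ∑ k ∈ s, f k :=
  Finset.single_le_sum (fun k _ => hf k) ha

/-- Minkowski's inequality in the form used below -/
lemma mink {κ : Type} (s : Finset κ) {p : ℝ} (hp : 1 ≤ p) (x A : κ → ℝ) {D E B : ℝ}
    (hx : ∀ k ∈ s, 0 ≤ x k) (hA : ∀ k ∈ s, 0 ≤ A k) (hD : 0 ≤ D) (hE : 0 ≤ E)
    (hB : 0 ≤ B) (h : ∀ k ∈ s, x k ≤ D * A k + E) (hs : ∑ k ∈ s, A k ^ p ≤ B ^ p) :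
    (∑ k ∈ s, x k ^ p) ^ (1 / p) ≤ D * B + E * (s.card : ℝ) ^ (1 / p) := by
  have hp0 : 0 < p := by linarith
  have hp1 : 0 ≤ 1 / p := by positivity
  have h1 : (∑ k ∈ s, x k ^ p) ^ (1 / p) ≤ (∑ k ∈ s, |D * A k + E| ^ p) ^ (1 / p) := by
    refine Real.rpow_le_rpow (Finset.sum_nonneg fun k hk => Real.rpow_nonneg (hx k hk) _) ?_ hp1
    refine Finset.sum_le_sum fun k hk => Real.rpow_le_rpow (hx k hk) ?_ hp0.le
    exact (h k hk).trans (le_abs_self _)
  have h2 := Real.Lp_add_le s (fun k => D * A k) (fun _ => E) hp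
  have h3 : (∑ k ∈ s, |D * A k| ^ p) ^ (1 / p) ≤ D * B := by
    have h4 : ∑ k ∈ s, |D * A k| ^ p ≤ (D * B) ^ p := by
      calc ∑ k ∈ s, |D * A k| ^ p = ∑ k ∈ s, D ^ p * A k ^ p := by
            refine Finset.sum_congr rfl fun k hk => ?_
            rw [abs_of_nonneg (mul_nonneg hD (hA k hk)), Real.mul_rpow hD (hA k hk)]
        _ = D ^ p * ∑ k ∈ s, A k ^ p := by rw [Finset.mul_sum]
        _ ≤ D ^ p * B ^ p := mul_le_mul_of_nonneg_left hs (Real.rpow_nonneg hD _)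
        _ = (D * B) ^ p := by rw [Real.mul_rpow hD hB]
    calc (∑ k ∈ s, |D * A k| ^ p) ^ (1 / p) ≤ ((D * B) ^ p) ^ (1 / p) :=
          Real.rpow_le_rpow (Finset.sum_nonneg fun k _ => Real.rpow_nonneg (abs_nonneg _) _) h4 hp1
      _ = D * B := by
          rw [← Real.rpow_mul (mul_nonneg hD hB), mul_one_div_cancel hp0.ne', Real.rpow_one]
  have h5 : (∑ _k ∈ s, |E| ^ p) ^ (1 / p) = E * (s.card : ℝ) ^ (1 / p) := by
    rw [Finset.sum_const, nsmul_eq_mul, abs_of_nonneg hE,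
      Real.mul_rpow (Nat.cast_nonneg _) (Real.rpow_nonneg hE _), ← Real.rpow_mul hE,
      mul_one_div_cancel hp0.ne', Real.rpow_one, mul_comm]
  calc (∑ k ∈ s, x k ^ p) ^ (1 / p) ≤ (∑ k ∈ s, |D * A k + E| ^ p) ^ (1 / p) := h1
    _ ≤ (∑ k ∈ s, |D * A k| ^ p) ^ (1 / p) + (∑ _k ∈ s, |E| ^ p) ^ (1 / p) := h2
    _ ≤ D * B + E * (s.card : ℝ) ^ (1 / p) := by rw [h5]; linarith

end general

section adjoint

variable {I M : Type} [Fintype I] [Fintype M] [DecidableEq M]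

/-- adjoint of `Φ` -/
noncomputable def adj (Φ : V M →+ V I) (y : V I) : V M := fun m => pr (Φ (Pi.single m 1)) y

lemma pr_adj (Φ : V M →+ V I) (ζ : V M) (y : V I) : pr (Φ ζ) y = pr ζ (adj Φ y) := by
  have h1 : ζ = ∑ m, Pi.single m (ζ m) := (Finset.univ_sum_single ζ).symm
  have h2 : Φ ζ = ∑ m, Φ (Pi.single m (ζ m)) := by
    conv_lhs => rw [h1]
    rw [map_sum]
  rw [h2, pr_sum_left]
  unfold pr adj
  refine Finset.sum_congr rfl fun m _ => ?_
  rcases zmod2_cases (ζ m) with h | h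
  · rw [h]; simp
  · rw [h, one_mul]; rfl

lemma w_adj (Φ : V M →+ V I) (ζ : V M) (y : V I) : w (Φ ζ) y = w ζ (adj Φ y) := by
  unfold w; rw [pr_adj]

end adjoint

section system

variable {I M ι : Type} [Fintype I] [DecidableEq I] [Fintype M] [DecidableEq M] [Fintype ι]

lemma L1_pull {p D ε : ℝ} (hε : 0 ≤ ε) {K : V I → Prop}
    {τ : List (I × ZMod 2) → V I → ι → ℝ} (hτ : Sys p D ε K τ)
    (Φ : V M →+ V I) (ξ₀ : V I) (hK : ∀ ζ, K (ξ₀ + Φ ζ)) (Q : List (I × ZMod 2))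
    (hQ : Q.length ≤ Fintype.card I) (c : V M → ℝ) :
    nT p (∑ ζ, c ζ • τ Q (ξ₀ + Φ ζ)) ≤
      D * nE p (fun y => ind Q y * ∑ ζ, c ζ * w (ξ₀ + Φ ζ) y) + ε * ∑ ζ, |c ζ| := by
  classical
  set b : V I → ℝ := fun S => ∑ ζ, if ξ₀ + Φ ζ = S then c ζ else 0 with hb
  have h0 : ∀ S, ¬ K S → b S = 0 := by
    intro S hS
    simp only [hb]
    refine Finset.sum_eq_zero fun ζ _ => ?_
    rw [if_neg]
    rintro rfl
    exact hS (hK ζ)
  have h1 := hτ.L1 Q hQ b h0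
  have h2 : ∑ S, b S • τ Q S = ∑ ζ, c ζ • τ Q (ξ₀ + Φ ζ) := by
    simp only [hb, Finset.sum_smul]
    rw [Finset.sum_comm]
    refine Finset.sum_congr rfl fun ζ _ => ?_
    simp only [ite_smul, zero_smul]
    rw [Finset.sum_ite_eq]
    simp
  have h3 : ∀ y, poly b y = ∑ ζ, c ζ * w (ξ₀ + Φ ζ) y := by
    intro y
    simp only [poly, hb, Finset.sum_mul]
    rw [Finset.sum_comm]
    refine Finset.sum_congr rfl fun ζ _ => ?_
    simp only [ite_mul, zero_mul]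
    rw [Finset.sum_ite_eq]
    simp
  have h4 : ∑ S, |b S| ≤ ∑ ζ, |c ζ| := by
    calc ∑ S, |b S| ≤ ∑ S, ∑ ζ, (if ξ₀ + Φ ζ = S then |c ζ| else 0) := by
          refine Finset.sum_le_sum fun S _ => ?_
          refine (Finset.abs_sum_le_sum_abs _ _).trans (le_of_eq ?_)
          refine Finset.sum_congr rfl fun ζ _ => ?_
          split_ifs <;> simp
      _ = ∑ ζ, |c ζ| := by
          rw [Finset.sum_comm]
          refine Finset.sum_congr rfl fun ζ _ => ?_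
          rw [Finset.sum_ite_eq]
          simp
  rw [h2] at h1
  simp only [h3] at h1
  exact h1.trans (by gcongr)

/-- the set of patterns along `C` -/
noncomputable def pat (C : List I) : Finset (List (I × ZMod 2)) :=
  Finset.univ.image fun y : V I => pre C y

lemma pre_mem_pat (C : List I) (y : V I) : pre C y ∈ pat C :=
  Finset.mem_image.2 ⟨y, Finset.mem_univ _, rfl⟩

lemma length_of_mem_pat {C : List I} {Q : List (I × ZMod 2)} (h : Q ∈ pat C) :
    Q.length = C.length := by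
  obtain ⟨y, -, rfl⟩ := Finset.mem_image.1 h
  simp [pre]

lemma card_pat_le (C : List I) : ((pat C).card : ℝ) ≤ 2 ^ Fintype.card I := by
  have h : (pat C).card ≤ Fintype.card (V I) := by
    unfold pat
    exact Finset.card_image_le.trans (le_of_eq (Finset.card_univ))
  calc ((pat C).card : ℝ) ≤ (Fintype.card (V I) : ℝ) := by exact_mod_cast h
    _ = 2 ^ Fintype.card I := card_V_real

lemma ind_nonneg (Q : List (I × ZMod 2)) (y : V I) : 0 ≤ ind Q y := by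
  unfold ind; split_ifs <;> simp

lemma ind_rpow {p : ℝ} (hp : 0 < p) (Q : List (I × ZMod 2)) (y : V I) (x : ℝ) :
    |ind Q y * x| ^ p = ind Q y * |x| ^ p := by
  unfold ind
  split_ifs with h
  · simp
  · simp [hp.ne']

lemma sum_ind_le (C : List I) (y : V I) : ∑ Q ∈ pat C, ind Q y ≤ 1 := by
  classical
  have h : ∀ Q ∈ pat C, ind Q y ≤ if Q = pre C y then 1 else 0 := by
    intro Q hQ
    obtain ⟨y', -, rfl⟩ := Finset.mem_image.1 hQ
    unfold ind
    split_ifs with h1 h2 h2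
    · exact le_rfl
    · exfalso
      apply h2
      unfold pre
      refine List.map_congr_left fun i hi => ?_
      have h3 := h1 (i, y' i) (List.mem_map.2 ⟨i, hi, rfl⟩)
      simp only at h3
      rw [h3]
    · exact zero_le_one
    · exact le_rfl
  refine (Finset.sum_le_sum h).trans ?_
  rw [Finset.sum_ite_eq']
  split_ifs <;> simp

/-- sum of the `p`-th powers over all patterns -/
lemma sum_pat_le {A : Type} [Fintype A] {p : ℝ} (hp : 0 < p) (C : List I) (h : A → V I → ℝ)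
    {B : ℝ} (hB : ∀ y, ∑ a, |h a y| ^ p ≤ B) :
    ∑ q ∈ pat C ×ˢ (Finset.univ : Finset A), nE p (fun y => ind q.1 y * h q.2 y) ^ p ≤ B := by
  have hN : (0 : ℝ) < Fintype.card (V I) := by exact_mod_cast Fintype.card_pos
  have h0 : ∀ y, 0 ≤ ∑ a, |h a y| ^ p := fun y =>
    Finset.sum_nonneg fun a _ => Real.rpow_nonneg (abs_nonneg _) _
  have h1 : ∀ y : V I, ∑ Q ∈ pat C, ∑ a, |ind Q y * h a y| ^ p ≤ B := by
    intro y
    calc ∑ Q ∈ pat C, ∑ a, |ind Q y * h a y| ^ p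
        = (∑ Q ∈ pat C, ind Q y) * ∑ a, |h a y| ^ p := by
          rw [Finset.sum_mul]
          refine Finset.sum_congr rfl fun Q _ => ?_
          rw [Finset.mul_sum]
          exact Finset.sum_congr rfl fun a _ => ind_rpow hp _ _ _
      _ ≤ 1 * ∑ a, |h a y| ^ p := mul_le_mul_of_nonneg_right (sum_ind_le C y) (h0 y)
      _ ≤ B := by rw [one_mul]; exact hB y
  calc ∑ q ∈ pat C ×ˢ (Finset.univ : Finset A), nE p (fun y => ind q.1 y * h q.2 y) ^ p
      = (∑ y, ∑ Q ∈ pat C, ∑ a, |ind Q y * h a y| ^ p) / Fintype.card (V I) := by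
        rw [Finset.sum_product]
        simp only [nE_rpow hp]
        simp only [← Finset.sum_div]
        congr 1
        rw [Finset.sum_comm]
        calc ∑ a, ∑ Q ∈ pat C, ∑ y, |ind Q y * h a y| ^ p
            = ∑ Q ∈ pat C, ∑ a, ∑ y, |ind Q y * h a y| ^ p := Finset.sum_comm
          _ = ∑ Q ∈ pat C, ∑ y, ∑ a, |ind Q y * h a y| ^ p :=
              Finset.sum_congr rfl fun Q _ => Finset.sum_comm
          _ = ∑ y, ∑ Q ∈ pat C, ∑ a, |ind Q y * h a y| ^ p := Finset.sum_comm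
    _ ≤ (∑ _y : V I, B) / Fintype.card (V I) :=
        div_le_div_of_nonneg_right (Finset.sum_le_sum fun y _ => h1 y) hN.le
    _ = B := by
        rw [Finset.sum_const, Finset.card_univ, nsmul_eq_mul, mul_div_assoc,
          mul_comm, div_mul_cancel₀ _ hN.ne']

/-- the vector attached to a pattern and an element of `V M` -/
noncomputable def vec (τ : List (I × ZMod 2) → V I → ι → ℝ) (Φ : V M →+ V I) (ξ₀ : V I)
    (ω : V M → ℝ) (Q : List (I × ZMod 2)) (a : V M) : ι → ℝ :=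
  ∑ ζ, (ω ζ * w ζ a) • τ Q (ξ₀ + Φ ζ)

omit [Fintype I] [DecidableEq I] [Fintype ι] in
lemma vec_apply (τ : List (I × ZMod 2) → V I → ι → ℝ) (Φ : V M →+ V I) (ξ₀ : V I)
    (ω : V M → ℝ) (Q : List (I × ZMod 2)) (a : V M) (i : ι) :
    vec τ Φ ξ₀ ω Q a i = ∑ ζ, ω ζ * w ζ a * τ Q (ξ₀ + Φ ζ) i := by
  unfold vec
  simp [Finset.sum_apply]

omit [DecidableEq I] in
/-- first step: Hölder against `ψ` -/
lemma key_holder {p : ℝ} (hp : 1 < p) (τ : List (I × ZMod 2) → V I → ι → ℝ)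
    (ψ : ι → ℝ) (P : ι → V I) (hψ : ∑ i, |ψ i| ^ (p / (p - 1)) ≤ 1) (C : List I)
    (Φ : V M →+ V I) (ξ₀ : V I) (ω : V M → ℝ) :
    |∑ ζ, ω ζ * gg τ ψ P C (ξ₀ + Φ ζ)| ≤
      (∑ i, |vec τ Φ ξ₀ ω (pre C (P i)) (adj Φ (P i)) i| ^ p) ^ (1 / p) := by
  have hp0 : 0 < p := by linarith
  have hpq : (p / (p - 1)).HolderConjugate p := (Real.HolderConjugate.conjExponent hp).symm
  have h1 : ∑ ζ, ω ζ * gg τ ψ P C (ξ₀ + Φ ζ) =
      ∑ i, ψ i * (w ξ₀ (P i) * vec τ Φ ξ₀ ω (pre C (P i)) (adj Φ (P i)) i) := by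
    unfold gg
    simp only [Finset.mul_sum, vec_apply]
    rw [Finset.sum_comm]
    refine Finset.sum_congr rfl fun i _ => Finset.sum_congr rfl fun ζ _ => ?_
    rw [w_add, w_adj]
    ring
  rw [h1]
  have h2 : |∑ i, ψ i * (w ξ₀ (P i) * vec τ Φ ξ₀ ω (pre C (P i)) (adj Φ (P i)) i)| ≤
      ∑ i, |ψ i| * |vec τ Φ ξ₀ ω (pre C (P i)) (adj Φ (P i)) i| := by
    refine (Finset.abs_sum_le_sum_abs _ _).trans (le_of_eq ?_)
    refine Finset.sum_congr rfl fun i _ => ?_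
    rw [abs_mul, abs_mul, abs_w, one_mul]
  refine h2.trans ?_
  have h3 := Real.inner_le_Lp_mul_Lq (Finset.univ : Finset ι) (fun i => |ψ i|)
    (fun i => |vec τ Φ ξ₀ ω (pre C (P i)) (adj Φ (P i)) i|) hpq
  simp only [abs_abs] at h3
  refine h3.trans ?_
  have h4 : (∑ i, |ψ i| ^ (p / (p - 1))) ^ (1 / (p / (p - 1))) ≤ 1 := by
    refine Real.rpow_le_one (Finset.sum_nonneg fun i _ => Real.rpow_nonneg (abs_nonneg _) _) hψ ?_
    have : 0 < p / (p - 1) := div_pos hp0 (by linarith)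
    positivity
  calc _ ≤ 1 * (∑ i, |vec τ Φ ξ₀ ω (pre C (P i)) (adj Φ (P i)) i| ^ p) ^ (1 / p) :=
        mul_le_mul_of_nonneg_right h4 (Real.rpow_nonneg
          (Finset.sum_nonneg fun i _ => Real.rpow_nonneg (abs_nonneg _) _) _)
    _ = _ := one_mul _

omit [DecidableEq I] in
/-- the Walsh sum occurring in `vec` -/
lemma sum_w_xi (Φ : V M →+ V I) (ξ₀ : V I) (c : V M → ℝ) (y : V I) :
    ∑ ζ, c ζ * w (ξ₀ + Φ ζ) y = w ξ₀ y * hat c (adj Φ y) := by
  unfold hat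
  rw [Finset.mul_sum]
  refine Finset.sum_congr rfl fun ζ _ => ?_
  rw [w_add, w_adj, w_comm ζ]
  ring

lemma hat_mul_w (ω : V M → ℝ) (a z : V M) :
    hat (fun ζ => ω ζ * w ζ a) z = hat ω (a + z) := by
  unfold hat
  refine Finset.sum_congr rfl fun ζ _ => ?_
  rw [w_comm (a + z), w_add_right, w_comm z]
  ring

end system

end Key

end Vale.Agent.P249.TP
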