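import Vale.Agent.P249.TP.Key

/-!
# P249, phase 2: KEY for `p ≥ 2` (helper206)
-/

open Finset
open scoped BigOperators

namespace Vale.Agent.P249.TP

open Key in
theorem specKeyGt : SpecKeyGt := by
  intro p hp2 D ε hD hε I _ _ K ι _ τ hτ ψ P hψ C hC M _ _ Φ ξ₀ hK ω
  have hp1 : (1 : ℝ) < p := by linarith
  have hp0 : (0 : ℝ) < p := by linarith
  set W : ℝ := ∑ ζ, |ω ζ| with hW
  have hW0 : 0 ≤ W := Finset.sum_nonneg fun ζ _ => abs_nonneg _
  set S : ℝ := ∑ z, |hat ω z| ^ p with hS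
  have hS0 : 0 ≤ S := Finset.sum_nonneg fun z _ => Real.rpow_nonneg (abs_nonneg _) _
  refine (key_holder hp1 τ ψ P hψ C Φ ξ₀ ω).trans ?_
  set s := pat C ×ˢ (Finset.univ : Finset (V M)) with hs
  set x : List (I × ZMod 2) × V M → ℝ := fun q => nT p (vec τ Φ ξ₀ ω q.1 q.2) with hx
  set A : List (I × ZMod 2) × V M → ℝ := fun q =>
    nE p (fun y => ind q.1 y * ∑ ζ, ω ζ * w ζ q.2 * w (ξ₀ + Φ ζ) y) with hA
  -- reduction to the sum over patterns
  have h1 : ∑ i, |vec τ Φ ξ₀ ω (pre C (P i)) (adj Φ (P i)) i| ^ p ≤ ∑ q ∈ s, x q ^ p := by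
    have h2 : ∀ q, x q ^ p = ∑ i, |vec τ Φ ξ₀ ω q.1 q.2 i| ^ p := fun q => nT_rpow hp0 _
    simp only [h2]
    rw [Finset.sum_comm]
    refine Finset.sum_le_sum fun i _ => ?_
    have hmem : ((pre C (P i), adj Φ (P i)) : List (I × ZMod 2) × V M) ∈ s :=
      Finset.mem_product.2 ⟨pre_mem_pat C (P i), Finset.mem_univ _⟩
    have hsl := sum_single_le s (fun q : List (I × ZMod 2) × V M => |vec τ Φ ξ₀ ω q.1 q.2 i| ^ p)
      (fun q => Real.rpow_nonneg (abs_nonneg _) _) hmem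
    simp only at hsl
    exact hsl
  have h3 : (∑ q ∈ s, x q ^ p) ^ (1 / p) ≤
      D * S ^ (1 / p) + (ε * W) * (s.card : ℝ) ^ (1 / p) := by
    refine mink s hp1.le x A (fun q _ => nT_nonneg _ _) (fun q _ => nE_nonneg _ _)
      (by linarith) (mul_nonneg hε hW0) (Real.rpow_nonneg hS0 _) ?_ ?_
    · intro q hq
      have hQ : q.1.length ≤ Fintype.card I := by
        rw [length_of_mem_pat (Finset.mem_product.1 hq).1]; exact hC
      have h4 := L1_pull hε hτ Φ ξ₀ hK q.1 hQ (fun ζ => ω ζ * w ζ q.2)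
      have h5 : ∑ ζ, |ω ζ * w ζ q.2| = W := by
        rw [hW]
        exact Finset.sum_congr rfl fun ζ _ => by rw [abs_mul, abs_w, mul_one]
      rw [h5] at h4
      exact h4
    · have h6 : (S ^ (1 / p)) ^ p = S := by
        rw [← Real.rpow_mul hS0, one_div_mul_cancel hp0.ne', Real.rpow_one]
      rw [h6]
      refine sum_pat_le hp0 C (fun (a : V M) y => ∑ ζ, ω ζ * w ζ a * w (ξ₀ + Φ ζ) y) ?_
      intro y
      refine le_of_eq ?_
      have h7 : ∀ a : V M, |∑ ζ, ω ζ * w ζ a * w (ξ₀ + Φ ζ) y| ^ p =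
          |hat ω (a + adj Φ y)| ^ p := by
        intro a
        rw [sum_w_xi, abs_mul, abs_w, one_mul, hat_mul_w]
      simp only [h7]
      exact sum_add_right (fun z => |hat ω z| ^ p) (adj Φ y)
  have h8 : (s.card : ℝ) ^ (1 / p) ≤ 2 ^ (Fintype.card I + Fintype.card M) := by
    have h9 : (s.card : ℝ) ≤ 2 ^ (Fintype.card I + Fintype.card M) := by
      rw [hs, Finset.card_product, Finset.card_univ, Nat.cast_mul, card_V_real, pow_add]
      exact mul_le_mul_of_nonneg_right (card_pat_le C) (by positivity)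
    have h10 : (1 : ℝ) ≤ 2 ^ (Fintype.card I + Fintype.card M) := one_le_pow₀ (by norm_num)
    calc (s.card : ℝ) ^ (1 / p) ≤ ((2 : ℝ) ^ (Fintype.card I + Fintype.card M)) ^ (1 / p) :=
          Real.rpow_le_rpow (Nat.cast_nonneg _) h9 (by positivity)
      _ ≤ ((2 : ℝ) ^ (Fintype.card I + Fintype.card M)) ^ (1 : ℝ) :=
          Real.rpow_le_rpow_of_exponent_le h10 (by
            rw [div_le_one hp0]; linarith)
      _ = _ := Real.rpow_one _
  calc (∑ i, |vec τ Φ ξ₀ ω (pre C (P i)) (adj Φ (P i)) i| ^ p) ^ (1 / p)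
      ≤ (∑ q ∈ s, x q ^ p) ^ (1 / p) :=
        Real.rpow_le_rpow (Finset.sum_nonneg fun i _ => Real.rpow_nonneg (abs_nonneg _) _) h1
          (by positivity)
    _ ≤ D * S ^ (1 / p) + (ε * W) * (s.card : ℝ) ^ (1 / p) := h3
    _ ≤ D * S ^ (1 / p) + (ε * W) * 2 ^ (Fintype.card I + Fintype.card M) := by
        gcongr
    _ = D * S ^ (1 / p) + ε * 2 ^ (Fintype.card I + Fintype.card M) * W := by ring

end Vale.Agent.P249.TP
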