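import Vale.Agent.P249.TP.Key

/-!
# P249, phase 2: KEY for `p ≤ 2` (helper206)
-/

open Finset
open scoped BigOperators

namespace Vale.Agent.P249.TP

namespace Key

variable {I M ι : Type} [Fintype I] [DecidableEq I] [Fintype M] [DecidableEq M] [Fintype ι]

/-- the atoms: `U (Q, a')` -/
noncomputable def atm (τ : List (I × ZMod 2) → V I → ι → ℝ) (Φ : V M →+ V I) (ξ₀ : V I)
    (Q : List (I × ZMod 2)) (a : V M) : ι → ℝ :=
  ∑ ζ, ((1 / 2) ^ Fintype.card M * w ζ a) • τ Q (ξ₀ + Φ ζ)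

omit [Fintype I] [DecidableEq I] [Fintype ι] in
lemma atm_apply (τ : List (I × ZMod 2) → V I → ι → ℝ) (Φ : V M →+ V I) (ξ₀ : V I)
    (Q : List (I × ZMod 2)) (a : V M) (i : ι) :
    atm τ Φ ξ₀ Q a i = ∑ ζ, (1 / 2) ^ Fintype.card M * w ζ a * τ Q (ξ₀ + Φ ζ) i := by
  unfold atm
  simp [Finset.sum_apply]

omit [Fintype I] [DecidableEq I] [Fintype ι] in
/-- Fourier inversion: `vec` in terms of the atoms -/
lemma vec_eq_atm (τ : List (I × ZMod 2) → V I → ι → ℝ) (Φ : V M →+ V I) (ξ₀ : V I)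
    (ω : V M → ℝ) (Q : List (I × ZMod 2)) (a : V M) (i : ι) :
    vec τ Φ ξ₀ ω Q a i = ∑ a', hat ω (a + a') * atm τ Φ ξ₀ Q a' i := by
  simp only [vec_apply, atm_apply, Finset.mul_sum]
  rw [Finset.sum_comm]
  refine Finset.sum_congr rfl fun ζ _ => ?_
  have h1 : ∀ a', hat ω (a + a') * ((1 / 2) ^ Fintype.card M * w ζ a' * τ Q (ξ₀ + Φ ζ) i) =
      (hat (fun ζ' => ω ζ' * w ζ' a) a' * w a' ζ) *
        ((1 / 2) ^ Fintype.card M * τ Q (ξ₀ + Φ ζ) i) := by
    intro a'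
    rw [hat_mul_w, w_comm ζ a']
    ring
  simp only [h1]
  rw [← Finset.sum_mul, hat_inv]
  have h2 : (2 : ℝ) ^ Fintype.card M * (1 / 2) ^ Fintype.card M = 1 := by
    rw [← mul_pow]; norm_num
  calc ω ζ * w ζ a * τ Q (ξ₀ + Φ ζ) i
      = ((2 : ℝ) ^ Fintype.card M * (1 / 2) ^ Fintype.card M) * (ω ζ * w ζ a) *
          τ Q (ξ₀ + Φ ζ) i := by rw [h2, one_mul]
    _ = _ := by ring

end Key

open Key in
theorem specKeyLt : SpecKeyLt := by
  intro p hp1 hp2 D ε hD hε I _ _ K ι _ τ hτ ψ P hψ C hC M _ _ Φ ξ₀ hK ω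
  have hp0 : (0 : ℝ) < p := by linarith
  set r : ℝ := p / (p - 1) with hr
  have hr0 : 0 < r := div_pos hp0 (by linarith)
  have hpq : r.HolderConjugate p := (Real.HolderConjugate.conjExponent hp1).symm
  have hinv : 1 / r + 1 / p = 1 := by
    have := hpq.inv_add_inv_eq_one
    simpa [one_div] using this
  set W : ℝ := ∑ ζ, |ω ζ| with hW
  have hW0 : 0 ≤ W := Finset.sum_nonneg fun ζ _ => abs_nonneg _
  set S : ℝ := ∑ z, |hat ω z| ^ r with hS
  have hS0 : 0 ≤ S := Finset.sum_nonneg fun z _ => Real.rpow_nonneg (abs_nonneg _) _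
  have hSr0 : 0 ≤ S ^ (1 / r) := Real.rpow_nonneg hS0 _
  refine (key_holder hp1 τ ψ P hψ C Φ ξ₀ ω).trans ?_
  set s := pat C ×ˢ (Finset.univ : Finset (V M)) with hs
  set x : List (I × ZMod 2) × V M → ℝ := fun q => nT p (atm τ Φ ξ₀ q.1 q.2) with hx
  set A : List (I × ZMod 2) × V M → ℝ := fun q =>
    nE p (fun y => ind q.1 y * ∑ ζ, (1 / 2) ^ Fintype.card M * w ζ q.2 * w (ξ₀ + Φ ζ) y) with hA
  -- pointwise Hölder
  have h0 : ∀ i, |vec τ Φ ξ₀ ω (pre C (P i)) (adj Φ (P i)) i| ^ p ≤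
      (S ^ (1 / r)) ^ p * ∑ a', |atm τ Φ ξ₀ (pre C (P i)) a' i| ^ p := by
    intro i
    have h1 : |vec τ Φ ξ₀ ω (pre C (P i)) (adj Φ (P i)) i| ≤
        S ^ (1 / r) * (∑ a', |atm τ Φ ξ₀ (pre C (P i)) a' i| ^ p) ^ (1 / p) := by
      rw [vec_eq_atm]
      refine (Finset.abs_sum_le_sum_abs _ _).trans ?_
      have h2 := Real.inner_le_Lp_mul_Lq (Finset.univ : Finset (V M))
        (fun a' => |hat ω (adj Φ (P i) + a')|) (fun a' => |atm τ Φ ξ₀ (pre C (P i)) a' i|) hpq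
      simp only [abs_abs] at h2
      have h3 : ∑ a', |hat ω (adj Φ (P i) + a')| ^ r = S :=
        sum_add_left (fun z => |hat ω z| ^ r) (adj Φ (P i))
      rw [h3] at h2
      simp only [abs_mul]
      exact h2
    calc |vec τ Φ ξ₀ ω (pre C (P i)) (adj Φ (P i)) i| ^ p
        ≤ (S ^ (1 / r) * (∑ a', |atm τ Φ ξ₀ (pre C (P i)) a' i| ^ p) ^ (1 / p)) ^ p :=
          Real.rpow_le_rpow (abs_nonneg _) h1 hp0.le
      _ = _ := by
          have h4 : 0 ≤ ∑ a', |atm τ Φ ξ₀ (pre C (P i)) a' i| ^ p :=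
            Finset.sum_nonneg fun a' _ => Real.rpow_nonneg (abs_nonneg _) _
          rw [Real.mul_rpow hSr0 (Real.rpow_nonneg h4 _), ← Real.rpow_mul h4,
            one_div_mul_cancel hp0.ne', Real.rpow_one]
  have h1 : ∑ i, |vec τ Φ ξ₀ ω (pre C (P i)) (adj Φ (P i)) i| ^ p ≤
      (S ^ (1 / r)) ^ p * ∑ q ∈ s, x q ^ p := by
    have h2 : ∀ q, x q ^ p = ∑ i, |atm τ Φ ξ₀ q.1 q.2 i| ^ p := fun q => nT_rpow hp0 _
    simp only [h2]
    refine (Finset.sum_le_sum fun i _ => h0 i).trans ?_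
    rw [← Finset.mul_sum]
    refine mul_le_mul_of_nonneg_left ?_ (Real.rpow_nonneg hSr0 _)
    rw [Finset.sum_comm (s := s)]
    refine Finset.sum_le_sum fun i _ => ?_
    rw [hs, Finset.sum_product]
    exact sum_single_le (pat C) (fun Q => ∑ a', |atm τ Φ ξ₀ Q a' i| ^ p)
      (fun Q => Finset.sum_nonneg fun a' _ => Real.rpow_nonneg (abs_nonneg _) _)
      (pre_mem_pat C (P i))
  have h3 : (∑ q ∈ s, x q ^ p) ^ (1 / p) ≤ D * 1 + ε * (s.card : ℝ) ^ (1 / p) := by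
    refine mink s hp1.le x A (fun q _ => nT_nonneg _ _) (fun q _ => nE_nonneg _ _)
      (by linarith) hε zero_le_one ?_ ?_
    · intro q hq
      have hQ : q.1.length ≤ Fintype.card I := by
        rw [length_of_mem_pat (Finset.mem_product.1 hq).1]; exact hC
      have h4 := L1_pull hε hτ Φ ξ₀ hK q.1 hQ (fun ζ => (1 / 2) ^ Fintype.card M * w ζ q.2)
      have h5 : ∑ ζ : V M, |(1 / 2 : ℝ) ^ Fintype.card M * w ζ q.2| = 1 := by
        have h6 : ∀ ζ : V M, |(1 / 2 : ℝ) ^ Fintype.card M * w ζ q.2| =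
            (1 / 2) ^ Fintype.card M := by
          intro ζ
          rw [abs_mul, abs_w, mul_one, abs_of_nonneg (by positivity)]
        simp only [h6]
        rw [Finset.sum_const, Finset.card_univ, nsmul_eq_mul, card_V_real, ← mul_pow]
        norm_num
      rw [h5, mul_one] at h4
      exact h4
    · rw [Real.one_rpow]
      refine sum_pat_le hp0 C
        (fun (a : V M) y => ∑ ζ, (1 / 2) ^ Fintype.card M * w ζ a * w (ξ₀ + Φ ζ) y) ?_
      intro y
      have h7 : ∀ a : V M, |∑ ζ, (1 / 2) ^ Fintype.card M * w ζ a * w (ξ₀ + Φ ζ) y| ^ p =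
          if a = adj Φ y then 1 else 0 := by
        intro a
        rw [sum_w_xi, abs_mul, abs_w, one_mul, hat_mul_w]
        have h8 : hat (fun _ : V M => (1 / 2 : ℝ) ^ Fintype.card M) (a + adj Φ y) =
            if a = adj Φ y then 1 else 0 := by
          unfold hat
          rw [← Finset.mul_sum, sum_w_left]
          simp only [V_add_eq_zero]
          split_ifs
          · rw [← mul_pow]; norm_num
          · simp
        rw [h8]
        split_ifs
        · simp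
        · simp [hp0.ne']
      simp only [h7]
      rw [Finset.sum_ite_eq']
      simp
  have hpow : (s.card : ℝ) ^ (1 / p) ≤
      2 ^ (Fintype.card I : ℝ) * 2 ^ ((Fintype.card M : ℝ) * (1 / p)) := by
    have h9 : (s.card : ℝ) ≤ 2 ^ (Fintype.card I : ℝ) * 2 ^ (Fintype.card M : ℝ) := by
      rw [hs, Finset.card_product, Finset.card_univ, Nat.cast_mul, card_V_real,
        Real.rpow_natCast, Real.rpow_natCast]
      exact mul_le_mul_of_nonneg_right (card_pat_le C) (by positivity)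
    have h10 : (1 : ℝ) ≤ 2 ^ (Fintype.card I : ℝ) :=
      Real.one_le_rpow (by norm_num) (Nat.cast_nonneg _)
    calc (s.card : ℝ) ^ (1 / p)
        ≤ (2 ^ (Fintype.card I : ℝ) * 2 ^ (Fintype.card M : ℝ)) ^ (1 / p) :=
          Real.rpow_le_rpow (Nat.cast_nonneg _) h9 (by positivity)
      _ = (2 ^ (Fintype.card I : ℝ)) ^ (1 / p) * (2 ^ (Fintype.card M : ℝ)) ^ (1 / p) :=
          Real.mul_rpow (by positivity) (by positivity)
      _ ≤ (2 ^ (Fintype.card I : ℝ)) ^ (1 : ℝ) * (2 ^ (Fintype.card M : ℝ)) ^ (1 / p) := by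
          refine mul_le_mul_of_nonneg_right (Real.rpow_le_rpow_of_exponent_le h10 ?_)
            (by positivity)
          rw [div_le_one hp0]; linarith
      _ = _ := by rw [Real.rpow_one, ← Real.rpow_mul (by norm_num)]
  have hSW : S ^ (1 / r) ≤ 2 ^ ((Fintype.card M : ℝ) * (1 / r)) * W := by
    have h11 : S ≤ 2 ^ (Fintype.card M : ℝ) * W ^ r := by
      calc S ≤ ∑ _z : V M, W ^ r :=
            Finset.sum_le_sum fun z _ => Real.rpow_le_rpow (abs_nonneg _) (abs_hat_le ω z) hr0.le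
        _ = 2 ^ (Fintype.card M : ℝ) * W ^ r := by
            rw [Finset.sum_const, Finset.card_univ, nsmul_eq_mul, card_V_real, Real.rpow_natCast]
    calc S ^ (1 / r) ≤ (2 ^ (Fintype.card M : ℝ) * W ^ r) ^ (1 / r) :=
          Real.rpow_le_rpow hS0 h11 (by positivity)
      _ = 2 ^ ((Fintype.card M : ℝ) * (1 / r)) * W := by
          rw [Real.mul_rpow (by positivity) (Real.rpow_nonneg hW0 _),
            ← Real.rpow_mul (by norm_num), ← Real.rpow_mul hW0, mul_one_div_cancel hr0.ne',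
            Real.rpow_one]
  have herr : S ^ (1 / r) * (s.card : ℝ) ^ (1 / p) ≤
      2 ^ (Fintype.card I + Fintype.card M) * W := by
    calc S ^ (1 / r) * (s.card : ℝ) ^ (1 / p)
        ≤ (2 ^ ((Fintype.card M : ℝ) * (1 / r)) * W) *
          (2 ^ (Fintype.card I : ℝ) * 2 ^ ((Fintype.card M : ℝ) * (1 / p))) :=
          mul_le_mul hSW hpow (Real.rpow_nonneg (Nat.cast_nonneg _) _) (by positivity)
      _ = 2 ^ (Fintype.card I : ℝ) *
          (2 ^ ((Fintype.card M : ℝ) * (1 / r)) * 2 ^ ((Fintype.card M : ℝ) * (1 / p))) * W := by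
          ring
      _ = 2 ^ (Fintype.card I + Fintype.card M) * W := by
          rw [← Real.rpow_add (by norm_num), ← mul_add, hinv, mul_one, Real.rpow_natCast,
            Real.rpow_natCast, ← pow_add]
  have hX0 : 0 ≤ ∑ q ∈ s, x q ^ p :=
    Finset.sum_nonneg fun q _ => Real.rpow_nonneg (nT_nonneg _ _) _
  calc (∑ i, |vec τ Φ ξ₀ ω (pre C (P i)) (adj Φ (P i)) i| ^ p) ^ (1 / p)
      ≤ ((S ^ (1 / r)) ^ p * ∑ q ∈ s, x q ^ p) ^ (1 / p) :=
        Real.rpow_le_rpow (Finset.sum_nonneg fun i _ => Real.rpow_nonneg (abs_nonneg _) _) h1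
          (by positivity)
    _ = S ^ (1 / r) * (∑ q ∈ s, x q ^ p) ^ (1 / p) := by
        rw [Real.mul_rpow (Real.rpow_nonneg hSr0 _) hX0, ← Real.rpow_mul hSr0,
          mul_one_div_cancel hp0.ne', Real.rpow_one]
    _ ≤ S ^ (1 / r) * (D * 1 + ε * (s.card : ℝ) ^ (1 / p)) :=
        mul_le_mul_of_nonneg_left h3 hSr0
    _ = D * S ^ (1 / r) + ε * (S ^ (1 / r) * (s.card : ℝ) ^ (1 / p)) := by ring
    _ ≤ D * S ^ (1 / r) + ε * (2 ^ (Fintype.card I + Fintype.card M) * W) := by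
        gcongr
    _ = D * S ^ (1 / r) + ε * 2 ^ (Fintype.card I + Fintype.card M) * W := by ring

end Vale.Agent.P249.TP
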