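import Vale.Agent.P249.TP.LinAux
import Vale.Agent.P249.SP.LinL3
import Vale.Agent.P249.SP.LinLog

/-!
# P249, phase 2, block LIN: `SpecLin` (adaptation of `SP/Lin.lean` of helper65 by helper892)
-/

open Finset
open scoped ENNReal

namespace Vale.Agent.P249.TP
namespace LinM

open Vale.Agent.P249.H65 Vale.Agent.P249.TP.LinAux

/-- The compatibility of the lattice maps of a node and its child. -/
theorem ph_compat {p : ℝ} {I : Type} [Fintype I] [DecidableEq I] {K : V I → Prop}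
    [DecidablePred K] (P : List (I × ZMod 2)) (i : I) (β : ZMod 2) (S : V I) (s : ℤ)
    (hs : (s : ℝ) = sg β) (h1 : K S) (h2 : K (S + Pi.single i 1)) :
    ph p K ((i, β) :: P.reverse) (ic (Pi.single ⟨S, h1⟩ 2)) =
      ph p K P.reverse (ic (Pi.single ⟨S, h1⟩ 1 + Pi.single ⟨S + Pi.single i 1, h2⟩ s)) := by
  classical
  have hsum : ∀ (T : Ks K) (c : ℝ) (y : V I),
      ∑ S' : Ks K, (Pi.single T c : Ks K → ℝ) S' * w S'.1 y = c * w T.1 y := by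
    intro T c y
    rw [Finset.sum_eq_single T]
    · simp
    · intro S' _ hS'
      simp [hS']
    · intro h; exact absurd (Finset.mem_univ _) h
  show (cc p (V I))⁻¹ • tl p _ = (cc p (V I))⁻¹ • tl p _
  congr 2
  funext y
  rw [List.reverse_cons, List.reverse_reverse, poly_ex, poly_ex, ic_add, ic_single, ic_single,
    ic_single]
  simp only [Pi.add_apply, add_mul, Finset.sum_add_distrib, hsum]
  rw [hs, w_flip]
  have h3 := ind_append P i β y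
  push_cast
  linear_combination (w S y) * h3

/-- Weighted Minkowski inequality with a constant error. -/
theorem mink {p : ℝ} (hp : 1 ≤ p) {W : Type} [Fintype W] {π A B : W → ℝ} (hπ : ∀ t, 0 ≤ π t)
    (hA : ∀ t, 0 ≤ A t) (hB : ∀ t, 0 ≤ B t) {δ : ℝ} (hδ : 0 ≤ δ) (h : ∀ t, A t ≤ B t + δ) :
    (∑ t, π t * A t ^ p) ^ (1 / p) ≤
      (∑ t, π t * B t ^ p) ^ (1 / p) + δ * (∑ t, π t) ^ (1 / p) := by
  have hp0 : 0 < p := by linarith
  have key : ∀ X : W → ℝ, (∀ t, 0 ≤ X t) → ∀ t, (π t ^ (1 / p) * X t) ^ p = π t * X t ^ p := by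
    intro X hX t
    rw [Real.mul_rpow (Real.rpow_nonneg (hπ t) _) (hX t), ← Real.rpow_mul (hπ t),
      one_div_mul_cancel hp0.ne', Real.rpow_one]
  have h1 := Real.Lp_add_le_of_nonneg (s := (Finset.univ : Finset W)) (p := p)
    (f := fun t => π t ^ (1 / p) * B t) (g := fun t => π t ^ (1 / p) * δ) hp
    (fun t _ => mul_nonneg (Real.rpow_nonneg (hπ t) _) (hB t))
    (fun t _ => mul_nonneg (Real.rpow_nonneg (hπ t) _) hδ)
  simp only [key B hB, key (fun _ => δ) (fun _ => hδ)] at h1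
  have h2 : ∑ t, π t * A t ^ p ≤ ∑ t, (π t ^ (1 / p) * B t + π t ^ (1 / p) * δ) ^ p := by
    refine Finset.sum_le_sum fun t _ => ?_
    rw [← mul_add, key (fun t => B t + δ) (fun t => add_nonneg (hB t) hδ) t]
    exact mul_le_mul_of_nonneg_left (Real.rpow_le_rpow (hA t) (h t) hp0.le) (hπ t)
  have h3 : (∑ t, π t * δ ^ p) ^ (1 / p) = δ * (∑ t, π t) ^ (1 / p) := by
    rw [← Finset.sum_mul, Real.mul_rpow (Finset.sum_nonneg fun t _ => hπ t)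
      (Real.rpow_nonneg hδ _), ← Real.rpow_mul hδ, mul_one_div_cancel hp0.ne', Real.rpow_one,
      mul_comm]
  rw [← h3]
  refine le_trans (Real.rpow_le_rpow ?_ h2 (by positivity)) h1
  exact Finset.sum_nonneg fun t _ => mul_nonneg (hπ t) (Real.rpow_nonneg (hA t) _)

/-- From the bound for the averages to the bound for the linear maps. -/
theorem lower_transfer {p : ℝ} (hp : 1 < p) {W : Type} [Fintype W] {π A B V : W → ℝ} {Λ δ : ℝ}
    (hΛ : 1 ≤ Λ) (hπ : ∀ t, 0 ≤ π t)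
    (hA : ∀ t, 0 ≤ A t) (hB : ∀ t, 0 ≤ B t) (hV : ∀ t, 0 ≤ V t) (hδ : 0 ≤ δ)
    (hδΛ : δ * Λ ≤ 1 / 6) (h : ∀ t, A t ≤ B t + δ)
    (hm : ∑ t, π t ≤ Λ * ∑ t, π t * V t ^ p)
    (hl : (2 / 3) ^ p * ∑ t, π t * V t ^ p ≤ ∑ t, π t * A t ^ p) :
    (1 / 2) ^ p * ∑ t, π t * V t ^ p ≤ ∑ t, π t * B t ^ p := by
  have hp0 : 0 < p := by linarith
  set S := ∑ t, π t * V t ^ p with hS
  have hS0 : 0 ≤ S := Finset.sum_nonneg fun t _ => mul_nonneg (hπ t) (Real.rpow_nonneg (hV t) _)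
  have hB0 : 0 ≤ ∑ t, π t * B t ^ p :=
    Finset.sum_nonneg fun t _ => mul_nonneg (hπ t) (Real.rpow_nonneg (hB t) _)
  have h1 := mink hp.le hπ hA hB hδ h
  have h2 : (2 / 3) * S ^ (1 / p) ≤ (∑ t, π t * A t ^ p) ^ (1 / p) := by
    have h3 := Real.rpow_le_rpow (mul_nonneg (by positivity) hS0) hl
      (by positivity : (0 : ℝ) ≤ 1 / p)
    rwa [Real.mul_rpow (by positivity) hS0, ← Real.rpow_mul (by norm_num),
      mul_one_div_cancel hp0.ne', Real.rpow_one] at h3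
  have h4 : (∑ t, π t) ^ (1 / p) ≤ Λ * S ^ (1 / p) := by
    refine (Real.rpow_le_rpow (Finset.sum_nonneg fun t _ => hπ t) hm (by positivity)).trans ?_
    rw [Real.mul_rpow (by linarith) hS0]
    refine mul_le_mul_of_nonneg_right ?_ (Real.rpow_nonneg hS0 _)
    conv_rhs => rw [← Real.rpow_one Λ]
    exact Real.rpow_le_rpow_of_exponent_le hΛ (by rw [div_le_one hp0]; exact hp.le)
  have h5 : δ * (∑ t, π t) ^ (1 / p) ≤ 1 / 6 * S ^ (1 / p) := by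
    have h6 := mul_le_mul_of_nonneg_left h4 hδ
    have h7 := mul_le_mul_of_nonneg_right hδΛ (Real.rpow_nonneg hS0 (1 / p))
    nlinarith
  have h6 : 1 / 2 * S ^ (1 / p) ≤ (∑ t, π t * B t ^ p) ^ (1 / p) := by linarith
  have h7 := Real.rpow_le_rpow (mul_nonneg (by norm_num) (Real.rpow_nonneg hS0 _)) h6 hp0.le
  rwa [Real.mul_rpow (by norm_num) (Real.rpow_nonneg hS0 _), ← Real.rpow_mul hS0,
    ← Real.rpow_mul hB0, one_div_mul_cancel hp0.ne', Real.rpow_one, Real.rpow_one] at h7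

/-- The numerical facts about the parameter `r`. -/
theorem r_facts {D Λ k ε : ℝ} {r : ℕ} (hD : 1 ≤ D) (hΛ : 1 ≤ Λ) (hk : 0 ≤ k) (hε : 0 < ε)
    (hε1 : ε ≤ 1) (hr : r = ⌈32 * D * Λ ^ 3 * (k + 1) / ε⌉₊) :
    32 * D * (k + 1) ≤ ε * r ∧ 32 ≤ (r : ℝ) ∧ k ≤ r ∧ Λ ≤ r ∧ 32 * D * Λ ^ 3 ≤ r := by
  have h1 : 32 * D * Λ ^ 3 * (k + 1) / ε ≤ r := by rw [hr]; exact Nat.le_ceil _
  rw [div_le_iff₀ hε] at h1
  have hΛ3 : 1 ≤ Λ ^ 3 := one_le_pow₀ hΛ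
  have hΛ2 : Λ ≤ Λ ^ 3 := by nlinarith [sq_nonneg (Λ - 1), sq_nonneg Λ]
  have hr0 : (0 : ℝ) ≤ r := Nat.cast_nonneg r
  have h2 : (r : ℝ) * ε ≤ r := by nlinarith
  have h3 : 32 * D * (k + 1) ≤ 32 * D * Λ ^ 3 * (k + 1) := by
    have : 0 ≤ 32 * D * (k + 1) := by positivity
    nlinarith
  have h4 : 32 * D * Λ ^ 3 ≤ 32 * D * Λ ^ 3 * (k + 1) := by
    have : 0 ≤ 32 * D * Λ ^ 3 := by positivity
    nlinarith
  have h5 : Λ ^ 3 ≤ 32 * D * Λ ^ 3 := by nlinarith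
  refine ⟨by linarith, by nlinarith, by nlinarith, by linarith, by linarith⟩

theorem l1_single {κ : Type} [Fintype κ] [DecidableEq κ] (A : κ) (c : ℝ) :
    l1 (Pi.single A c : κ → ℝ) = |c| := by
  unfold l1
  rw [Finset.sum_eq_single A]
  · simp
  · intro A' _ hA'; simp [hA']
  · intro h; exact absurd (Finset.mem_univ _) h

theorem mem_XX_top {κ α E : Type} [Fintype κ] [DecidableEq κ] [Fintype α] [NormedAddCommGroup E]
    [NormedSpace ℝ E] {φ : List α → (κ → ℝ) →ₗ[ℝ] E} {r L M R : ℕ} {a : κ → ℤ}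
    (ha : ∀ i, |a i| ≤ M) : lam r L ([] : List α) • φ [] (ic a) ∈ XX φ r L M R := by
  classical
  refine Finset.mem_biUnion.2 ⟨[], mem_words.2 (Nat.zero_le _), ?_⟩
  rw [pts, Finset.mem_image]
  exact ⟨a, mem_bpm.2 ha, rfl⟩

/-- Restriction to small sets. -/
def res {I : Type} (K : V I → Prop) (b : V I → ℝ) : Ks K → ℝ := fun S => b S.1

theorem ex_res {I : Type} [Fintype I] [DecidableEq I] {K : V I → Prop} [DecidablePred K]
    {b : V I → ℝ} (hb : ∀ S, ¬ K S → b S = 0) :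
    ex (res K b) = b := by
  funext S
  unfold ex res
  by_cases h : K S
  · rw [dif_pos h]
  · rw [dif_neg h, hb S h]

theorem l1_res_le {I : Type} [Fintype I] [DecidableEq I] {K : V I → Prop} [DecidablePred K]
    (b : V I → ℝ) : l1 (res K b) ≤ ∑ S, |b S| := by
  classical
  unfold l1 res
  have h1 : ∑ S : Ks K, |b S.1| = ∑ S ∈ univ.filter (fun S : V I => K S),
      |b S| := by
    rw [← Finset.sum_subtype_eq_sum_filter]
    refine Finset.sum_congr ?_ fun S _ => rfl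
    ext S; simp
  rw [h1]
  exact Finset.sum_le_sum_of_subset_of_nonneg (Finset.filter_subset _ _)
    fun _ _ _ => abs_nonneg _

section main

variable {p D : ℝ} [Fact (1 ≤ ENNReal.ofReal p)] {I : Type} [Fintype I] [DecidableEq I]
  {K : V I → Prop} [DecidablePred K] {ι : Type} [Fintype ι]

/-- The system made of a family of linear maps. -/
noncomputable def tau (T : List (I × ZMod 2) → (Ks K → ℝ) →ₗ[ℝ] Lq p ι)
    (P : List (I × ZMod 2)) (S : V I) : ι → ℝ :=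
  if h : K S then (T P.reverse (Pi.single ⟨S, h⟩ 1)).ofLp else 0

omit [Fact (1 ≤ ENNReal.ofReal p)] [Fintype ι] in
theorem sum_tau (T : List (I × ZMod 2) → (Ks K → ℝ) →ₗ[ℝ] Lq p ι)
    (P : List (I × ZMod 2)) (b : V I → ℝ) (hb : ∀ S, ¬ K S → b S = 0) :
    ∑ S, b S • tau T P S = (T P.reverse (res K b)).ofLp := by
  classical
  have h1 : ∑ S, b S • tau T P S = ∑ S, ex (res K b) S • tau T P S := by
    rw [ex_res hb]
  rw [h1, sum_ex]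
  have h2 : (res K b) = ∑ S : Ks K, (res K b) S • (Pi.single S (1 : ℝ)) := by
    funext j
    simp [Finset.sum_apply, Pi.single_apply]
  conv_rhs => rw [h2, map_sum]
  rw [WithLp.ofLp_sum]
  refine Finset.sum_congr rfl fun S _ => ?_
  rw [map_smul, tau, dif_pos S.2]
  rfl

omit [Fact (1 ≤ ENNReal.ofReal p)] [Fintype ι] in
theorem tau_diff (T : List (I × ZMod 2) → (Ks K → ℝ) →ₗ[ℝ] Lq p ι)
    (P : List (I × ZMod 2)) (i : I) (β : ZMod 2) (S : V I) (s : ℤ)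
    (hs : (s : ℝ) = sg β) (hS1 : K S) (hS2 : K (S + Pi.single i 1)) :
    tau T (P ++ [(i, β)]) S - (1 / 2 : ℝ) • (tau T P S + sg β • tau T P (S + Pi.single i 1))
        = ((1 / 2 : ℝ) • (T ((i, β) :: P.reverse) (ic (Pi.single ⟨S, hS1⟩ 2))
          - T P.reverse (ic (Pi.single ⟨S, hS1⟩ 1 + Pi.single ⟨S + Pi.single i 1, hS2⟩ s)))).ofLp := by
  have h2 : (P ++ [(i, β)]).reverse = (i, β) :: P.reverse := by simp
  have h3 : ic (Pi.single (⟨S, hS1⟩ : Ks K) 2) = (2 : ℝ) • Pi.single ⟨S, hS1⟩ (1 : ℝ) := by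
    rw [ic_single, ← Pi.single_smul]; norm_num
  have h4 : ic (Pi.single (⟨S, hS1⟩ : Ks K) 1 + Pi.single ⟨S + Pi.single i 1, hS2⟩ s)
      = Pi.single ⟨S, hS1⟩ (1 : ℝ) + (sg β) • Pi.single ⟨S + Pi.single i 1, hS2⟩ (1 : ℝ) := by
    rw [ic_add, ic_single, ic_single, ← Pi.single_smul, ← hs]; norm_num
  unfold tau
  rw [dif_pos hS1, dif_pos hS1, dif_pos hS2, h2, h3, h4, map_smul, map_add, map_smul]
  funext l
  simp only [Pi.sub_apply, Pi.smul_apply, Pi.add_apply, smul_eq_mul, WithLp.ofLp_smul,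
    WithLp.ofLp_sub, WithLp.ofLp_add]
  ring

theorem num_L1 {D k ε : ℝ} {r : ℕ} (hD : 1 ≤ D) (hk : 0 ≤ k) (f1 : 32 * D * (k + 1) ≤ ε * r)
    (f2 : 32 ≤ (r : ℝ)) (f3 : k ≤ r) :
    (D * k + 4 * D * ((r : ℝ) + k) ^ 2 / ((r ^ 2 : ℕ) : ℝ)) / r ≤ ε := by
  have hD0 : 0 ≤ D := by linarith
  have hr' : (0 : ℝ) < r := by linarith
  rw [div_le_iff₀ hr']
  have h5 : 4 * D * ((r : ℝ) + k) ^ 2 / ((r ^ 2 : ℕ) : ℝ) ≤ 16 * D := by
    push_cast
    rw [div_le_iff₀ (by positivity)]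
    have h6 : ((r : ℝ) + k) ^ 2 ≤ (2 * r) ^ 2 := pow_le_pow_left₀ (by positivity) (by linarith) 2
    nlinarith [mul_le_mul_of_nonneg_left h6 hD0]
  nlinarith [mul_nonneg hD0 hk]

theorem num_L2 {D k ε : ℝ} {r : ℕ} (hD : 1 ≤ D) (hk : 0 ≤ k) (f1 : 32 * D * (k + 1) ≤ ε * r)
    (f2 : 32 ≤ (r : ℝ)) :
    8 * D * r / ((r ^ 2 : ℕ) : ℝ) + 4 * D * k / r + 32 * D / ((r ^ 2 : ℕ) : ℝ) ≤ 2 * ε := by
  have hD0 : 0 ≤ D := by linarith
  have hr' : (0 : ℝ) < r := by linarith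
  push_cast
  have h7 : 8 * D * r / (r : ℝ) ^ 2 + 4 * D * k / r + 32 * D / (r : ℝ) ^ 2
      = (8 * D + 4 * D * k + 32 * D / r) / r := by
    field_simp
  rw [h7, div_le_iff₀ hr']
  have h8 : 32 * D / r ≤ D := by
    rw [div_le_iff₀ hr']; nlinarith
  nlinarith [mul_nonneg hD0 hk]

theorem sys_L1 {r R₀ M : ℕ} {ε : ℝ} (hp : 1 < p) (hD : 1 ≤ D) (hε : 0 < ε)
    (f1 : 32 * D * (((Fintype.card (Ks K) : ℕ) : ℝ) + 1) ≤ ε * r)
    (f2 : 32 ≤ (r : ℝ)) (f3 : ((Fintype.card (Ks K) : ℕ) : ℝ) ≤ r)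
    (hR₀ : r ^ 2 ≤ R₀) {x₀ : Ks K → ℤ} (hM : ∀ i, |x₀ i| + R₀ + (r ^ 2 : ℕ) ≤ M)
    {f : Lq p (V I) → Lq p ι}
    (hf : ∀ x ∈ XX (ph p K) r (Fintype.card I) M (r ^ 2), ∀ y ∈ XX (ph p K) r (Fintype.card I) M (r ^ 2),
      ‖f x - f y‖ ≤ D * ‖x - y‖) (P : List (I × ZMod 2)) (hP : P.length ≤ Fintype.card I)
    (b : V I → ℝ) (hb : ∀ S, ¬ K S → b S = 0) :
    nT p (∑ S, b S • tau (fun Q => TL (ph p K) r (Fintype.card I) (r ^ 2) (gtop (ph p K) r (Fintype.card I) R₀ x₀ f) Q) P S)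
      ≤ D * nE p (fun y => ind P y * poly b y) + ε * ∑ S, |b S| := by
  have hp0 : 0 < p := by linarith
  have hD0 : 0 ≤ D := by linarith
  have hr32 : 32 ≤ r := by exact_mod_cast f2
  have hr0 : 0 < r := by omega
  have hφ : ∀ P i, ‖ph p K P (Pi.single i 1)‖ ≤ 1 := fun P i => norm_ph_single K hp0 P i
  rw [sum_tau _ P b hb, nT_eq' hp0]
  have h1 := TL_le (f := f) hr0 (pow_pos hr0 2) hR₀ hD0 hφ hf hM P.reverse
    (by rw [List.length_reverse]; exact hP) hr0 (by nlinarith) (res K b)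
  refine h1.trans ?_
  rw [norm_ph K hp0, List.reverse_reverse, ex_res hb]
  have h2 := l1_res_le (K := K) b
  have h3 := l1_nonneg (res K b)
  have h4 := num_L1 hD (Nat.cast_nonneg _) f1 f2 f3
  have h5 := mul_le_mul h4 h2 h3 hε.le
  exact add_le_add le_rfl h5

theorem sys_L2 {r R₀ M : ℕ} {ε : ℝ} (hp : 1 < p) (hD : 1 ≤ D)
    (f1 : 32 * D * (((Fintype.card (Ks K) : ℕ) : ℝ) + 1) ≤ ε * r)
    (f2 : 32 ≤ (r : ℝ))
    (hR₀ : r ^ 2 ≤ R₀) {x₀ : Ks K → ℤ} (hM : ∀ i, |x₀ i| + R₀ + (r ^ 2 : ℕ) ≤ M)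
    {f : Lq p (V I) → Lq p ι}
    (hf : ∀ x ∈ XX (ph p K) r (Fintype.card I) M (r ^ 2), ∀ y ∈ XX (ph p K) r (Fintype.card I) M (r ^ 2),
      ‖f x - f y‖ ≤ D * ‖x - y‖) (P : List (I × ZMod 2)) (hP : P.length < Fintype.card I)
    (i : I) (β : ZMod 2) (S : V I) (hS1 : K S) (hS2 : K (S + Pi.single i 1))
    (T : List (I × ZMod 2) → (Ks K → ℝ) →ₗ[ℝ] Lq p ι)
    (hT : T = fun Q => TL (ph p K) r (Fintype.card I) (r ^ 2) (gtop (ph p K) r (Fintype.card I) R₀ x₀ f) Q) :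
    nT p (tau T (P ++ [(i, β)]) S - (1 / 2 : ℝ) • (tau T P S + sg β • tau T P (S + Pi.single i 1))) ≤ ε := by
  have hp0 : 0 < p := by linarith
  have hD0 : 0 ≤ D := by linarith
  have hr32 : 32 ≤ r := by exact_mod_cast f2
  have hr0 : 0 < r := by omega
  have hR2 : 2 ≤ r ^ 2 := by nlinarith
  have hφ : ∀ P i, ‖ph p K P (Pi.single i 1)‖ ≤ 1 := fun P i => norm_ph_single K hp0 P i
  obtain ⟨s, hs⟩ : ∃ s : ℤ, (s : ℝ) = sg β := by
    by_cases hβ : β = 0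
    · exact ⟨1, by simp [sg, hβ]⟩
    · exact ⟨-1, by simp [sg, hβ]⟩
  have hs1 : |(s : ℝ)| = 1 := by rw [hs]; exact abs_sg β
  have hl2 : l1 (ic (Pi.single (⟨S, hS1⟩ : Ks K) 1 + Pi.single ⟨S + Pi.single i 1, hS2⟩ s)) ≤ 2 := by
    rw [ic_add]
    refine (l1_add_le _ _).trans ?_
    rw [ic_single, ic_single, l1_single, l1_single, hs1]; norm_num
  have hl2' : l1 (ic (Pi.single (⟨S, hS1⟩ : Ks K) 2)) ≤ 2 := by
    rw [ic_single, l1_single]; norm_num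
  have hcons := TL_cons (f := f) hr0 hR2 hR₀ hD0 hφ hf hM P.reverse (i, β)
    (by rw [List.length_reverse]; exact hP) _ _ (ph_compat P i β S s hs hS1 hS2) hl2 hl2'
  rw [tau_diff T P i β S s hs hS1 hS2, nT_eq' hp0, norm_smul]
  have h5 : ‖(1 / 2 : ℝ)‖ = 1 / 2 := by norm_num
  rw [h5]
  have h6 := hcons.trans (num_L2 hD (Nat.cast_nonneg _) f1 f2)
  subst hT
  have h7 := mul_le_mul_of_nonneg_left h6 (by norm_num : (0 : ℝ) ≤ 1 / 2)
  refine h7.trans (le_of_eq (by ring))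

/-- The system of the averaged derivatives. -/
theorem sys_of {r R₀ M : ℕ} {ε : ℝ} (hp : 1 < p) (hD : 1 ≤ D) (hε : 0 < ε)
    (f1 : 32 * D * (((Fintype.card (Ks K) : ℕ) : ℝ) + 1) ≤ ε * r)
    (f2 : 32 ≤ (r : ℝ)) (f3 : ((Fintype.card (Ks K) : ℕ) : ℝ) ≤ r)
    (hR₀ : r ^ 2 ≤ R₀) {x₀ : Ks K → ℤ} (hM : ∀ i, |x₀ i| + R₀ + (r ^ 2 : ℕ) ≤ M)
    {f : Lq p (V I) → Lq p ι}
    (hf : ∀ x ∈ XX (ph p K) r (Fintype.card I) M (r ^ 2), ∀ y ∈ XX (ph p K) r (Fintype.card I) M (r ^ 2),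
      ‖f x - f y‖ ≤ D * ‖x - y‖) :
    Sys p D ε K (tau fun Q =>
      TL (ph p K) r (Fintype.card I) (r ^ 2) (gtop (ph p K) r (Fintype.card I) R₀ x₀ f) Q) :=
  ⟨fun P hP b hb => sys_L1 hp hD hε f1 f2 f3 hR₀ hM hf P hP b hb,
    fun P hP i β S hS hS' => sys_L2 hp hD f1 f2 hR₀ hM hf P hP i β S hS hS' _ rfl⟩

/-- The averaged differences of the top lattice are close to the linear map of the root. -/
theorem avg_close {r R₀ M : ℕ} {Λ : ℝ} (hp : 1 < p) (hD : 1 ≤ D) (_hΛ : 1 ≤ Λ)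
    (f2 : 32 ≤ (r : ℝ)) (f4 : Λ ≤ r)
    (hR₀ : r ^ 2 ≤ R₀) {x₀ : Ks K → ℤ} (hM : ∀ i, |x₀ i| + R₀ + (r ^ 2 : ℕ) ≤ M)
    {f : Lq p (V I) → Lq p ι}
    (hf : ∀ x ∈ XX (ph p K) r (Fintype.card I) M (r ^ 2), ∀ y ∈ XX (ph p K) r (Fintype.card I) M (r ^ 2),
      ‖f x - f y‖ ≤ D * ‖x - y‖) (v : Ks K → ℤ) (hv : l1 (ic v) ≤ Λ)
    (g : (Ks K → ℤ) → ι → ℝ)
    (hg : g = fun a => (lam r (Fintype.card I) ([] : List (I × ZMod 2)))⁻¹ •
      (f (lam r (Fintype.card I) ([] : List (I × ZMod 2)) • ph p K [] (ic a))).ofLp) :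
    nT p (bavg R₀ fun a => g (x₀ + a + v) - g (x₀ + a))
      ≤ ‖TL (ph p K) r (Fintype.card I) (r ^ 2) (gtop (ph p K) r (Fintype.card I) R₀ x₀ f) [] (ic v)‖
        + 4 * D * Λ ^ 2 / ((r ^ 2 : ℕ) : ℝ) := by
  have hp0 : 0 < p := by linarith
  have hD0 : 0 ≤ D := by linarith
  have hr32 : 32 ≤ r := by exact_mod_cast f2
  have hr0 : 0 < r := by omega
  have hφ : ∀ P i, ‖ph p K P (Pi.single i 1)‖ ≤ 1 := fun P i => norm_ph_single K hp0 P i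
  have hbR : ∀ i, |v i| ≤ (r ^ 2 : ℕ) := by
    intro i
    have h5 : |((v i : ℤ) : ℝ)| ≤ Λ := by
      refine le_trans ?_ hv
      unfold l1
      exact Finset.single_le_sum (f := fun j => |ic v j|) (fun j _ => abs_nonneg _)
        (Finset.mem_univ i)
    have h6 : |((v i : ℤ) : ℝ)| ≤ ((r ^ 2 : ℕ) : ℝ) := by
      push_cast
      nlinarith
    exact_mod_cast h6
  have h5 := TL_top (f := f) hr0 (pow_pos hr0 2) hR₀ hD0 hφ hf hM v hbR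
  rw [nT_eq hp0]
  set lam0 := lam r (Fintype.card I) ([] : List (I × ZMod 2)) with hlam0
  have h6 : tl p (bavg R₀ fun a => g (x₀ + a + v) - g (x₀ + a))
      = bavg R₀ fun a => lam0⁻¹ • (f (lam0 • ph p K [] (ic (x₀ + a + v)))
        - f (lam0 • ph p K [] (ic (x₀ + a)))) := by
    have h7 := bavg_map (WithLp.linearEquiv (ENNReal.ofReal p) ℝ (ι → ℝ)).symm.toLinearMap R₀
      (fun a => g (x₀ + a + v) - g (x₀ + a))
    refine h7.trans (bavg_congr fun a _ => ?_)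
    rw [smul_sub, hg]
    rfl
  rw [h6]
  have h8 : 4 * D * (l1 (ic v)) ^ 2 / ((r ^ 2 : ℕ) : ℝ) ≤ 4 * D * Λ ^ 2 / ((r ^ 2 : ℕ) : ℝ) := by
    refine div_le_div_of_nonneg_right ?_ (Nat.cast_nonneg _)
    have h9 := pow_le_pow_left₀ (l1_nonneg _) hv 2
    exact mul_le_mul_of_nonneg_left h9 (by positivity)
  have h9 := norm_sub_norm_le
    (bavg R₀ fun a => lam0⁻¹ • (f (lam0 • ph p K [] (ic (x₀ + a + v)))
        - f (lam0 • ph p K [] (ic (x₀ + a)))))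
    (TL (ph p K) r (Fintype.card I) (r ^ 2) (gtop (ph p K) r (Fintype.card I) R₀ x₀ f) [] (ic v))
  have h10 := h9.trans (h5.trans h8)
  exact sub_le_iff_le_add'.1 h10

end main

/-- Everything after the choice of the parameters. -/
theorem lin_core {p D Λ C₀ ε : ℝ} {N : ℕ} (hp : 1 < p) (hD : 1 ≤ D) (hΛ : 1 ≤ Λ) (hC₀ : 1 ≤ C₀)
    (hε : 0 < ε) [Fact (1 ≤ ENNReal.ofReal p)]
    {I : Type} [Fintype I] [DecidableEq I] {K : V I → Prop} [DecidablePred K]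
    (fam : TestFam p Λ K)
    (h3 : ∀ (κ : Type) [Fintype κ] [DecidableEq κ]
      (E : Type) [NormedAddCommGroup E] [NormedSpace ℝ E] (φ : (κ → ℝ) →ₗ[ℝ] E),
      (∀ i, ‖φ (Pi.single i 1)‖ ≤ 1) →
      ∀ (W : Type) [Fintype W] (π : W → ℝ) (b : W → κ → ℤ), (∀ t, 0 ≤ π t) →
        (∀ t, l1 (ic (b t)) ≤ Λ) → (∑ t, π t ≤ Λ * ∑ t, π t * ‖φ (ic (b t))‖ ^ p) →
        ∀ B : ℕ, C₀ * ((Fintype.card κ : ℝ) + 1) ≤ B →
          ∀ (ι : Type) [Fintype ι] (g : (κ → ℤ) → ι → ℝ),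
            (∀ a a' : κ → ℤ, (∀ i, |a i| ≤ 4 * (B : ℤ) ^ (N + 2)) →
              (∀ i, |a' i| ≤ 4 * (B : ℤ) ^ (N + 2)) →
              ‖φ (ic (a - a'))‖ ≤ nT p (g a - g a') ∧
              nT p (g a - g a') ≤ D * ‖φ (ic (a - a'))‖) →
            ∃ (j : ℕ) (x₀ : κ → ℤ), j ≤ N ∧ (∀ i, |x₀ i| ≤ (B : ℤ) ^ (N + 2)) ∧
              (2 / 3) ^ p * ∑ t, π t * ‖φ (ic (b t))‖ ^ p ≤
                ∑ t, π t * nT p (bavg (B ^ (j + 1)) fun a =>
                  g (x₀ + a + b t) - g (x₀ + a)) ^ p)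
    {r B M : ℕ} (f1 : 32 * D * (((Fintype.card (Ks K) : ℕ) : ℝ) + 1) ≤ ε * r)
    (f2 : 32 ≤ (r : ℝ)) (f3 : ((Fintype.card (Ks K) : ℕ) : ℝ) ≤ r) (f4 : Λ ≤ r)
    (f5 : 32 * D * Λ ^ 3 ≤ r) (hB : B = ⌈C₀⌉₊ * r ^ 2) (hM : M = 4 * B ^ (N + 2))
    {ι : Type} [Fintype ι] {f : Lq p (V I) → Lq p ι}
    (hf2 : ∀ x ∈ XX (ph p K) r (Fintype.card I) M (r ^ 2), ∀ y ∈ XX (ph p K) r (Fintype.card I) M (r ^ 2),
        ‖x - y‖ ≤ ‖f x - f y‖ ∧ ‖f x - f y‖ ≤ D * ‖x - y‖) :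
    ∃ τ : List (I × ZMod 2) → V I → ι → ℝ, Sys p D ε K τ ∧ L3 fam τ := by
  classical
  let _ := fam.ft
  have hp0 : 0 < p := by linarith
  have hr32 : 32 ≤ r := by exact_mod_cast f2
  have hr0 : 0 < r := by omega
  have hf : ∀ x ∈ XX (ph p K) r (Fintype.card I) M (r ^ 2), ∀ y ∈ XX (ph p K) r (Fintype.card I) M (r ^ 2),
    ‖f x - f y‖ ≤ D * ‖x - y‖ := fun x hx y hy => (hf2 x hx y hy).2
  have hceil : 1 ≤ ⌈C₀⌉₊ := Nat.one_le_ceil_iff.2 (by linarith)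
  have hBr : r ^ 2 ≤ B := by rw [hB]; exact Nat.le_mul_of_pos_left _ hceil
  have hB1 : 1 ≤ B := le_trans (Nat.one_le_pow _ _ hr0) hBr
  obtain ⟨g, hg⟩ : ∃ g : (Ks K → ℤ) → ι → ℝ,
    g = fun a => (lam r (Fintype.card I) ([] : List (I × ZMod 2)))⁻¹ •
      (f (lam r (Fintype.card I) ([] : List (I × ZMod 2)) • ph p K [] (ic a))).ofLp := ⟨_, rfl⟩
  have hlpos : 0 < lam r (Fintype.card I) ([] : List (I × ZMod 2)) := lam_pos hr0 _
  have hmem : ∀ a : Ks K → ℤ, (∀ i, |a i| ≤ 4 * (B : ℤ) ^ (N + 2)) →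
      lam r (Fintype.card I) ([] : List (I × ZMod 2)) • ph p K [] (ic a) ∈ XX (ph p K) r (Fintype.card I) M (r ^ 2) := by
    intro a ha
    refine mem_XX_top fun i => ?_
    rw [hM]
    push_cast
    exact ha i
  have hgdiff : ∀ a a' : Ks K → ℤ, nT p (g a - g a')
      = (lam r (Fintype.card I) ([] : List (I × ZMod 2)))⁻¹ *
        ‖f (lam r (Fintype.card I) ([] : List (I × ZMod 2)) • ph p K [] (ic a))
          - f (lam r (Fintype.card I) ([] : List (I × ZMod 2)) • ph p K [] (ic a'))‖ := by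
    intro a a'
    rw [nT_eq hp0]
    have h1 : tl p (g a - g a')
        = (lam r (Fintype.card I) ([] : List (I × ZMod 2)))⁻¹ •
          (f (lam r (Fintype.card I) ([] : List (I × ZMod 2)) • ph p K [] (ic a))
          - f (lam r (Fintype.card I) ([] : List (I × ZMod 2)) • ph p K [] (ic a'))) := by
      rw [smul_sub, hg]; rfl
    rw [h1, norm_smul, norm_inv, Real.norm_eq_abs, abs_of_pos hlpos]
  have hdist : ∀ a a' : Ks K → ℤ,
      ‖lam r (Fintype.card I) ([] : List (I × ZMod 2)) • ph p K [] (ic a)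
        - lam r (Fintype.card I) ([] : List (I × ZMod 2)) • ph p K [] (ic a')‖
        = lam r (Fintype.card I) ([] : List (I × ZMod 2)) * ‖ph p K [] (ic (a - a'))‖ := by
    intro a a'
    rw [← smul_sub, ← map_sub, ← ic_sub, norm_smul, Real.norm_eq_abs, abs_of_pos hlpos]
  obtain ⟨bb, hbb⟩ : ∃ bb : fam.T → Ks K → ℤ, bb = fun t S => fam.b t S.1 := ⟨_, rfl⟩
  have hbic : ∀ t, ic (bb t) = res K (fun S => (fam.b t S : ℝ)) := fun t => by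
    rw [hbb]; rfl
  have hsupp : ∀ t S, ¬ K S → ((fam.b t S : ℤ) : ℝ) = 0 := fun t S hS => by
    rw [fam.supp t S hS]; simp
  have hnorm : ∀ t, ‖ph p K [] (ic (bb t))‖ = nE p (poly fun S => (fam.b t S : ℝ)) := by
    intro t
    rw [norm_ph K hp0, hbic, ex_res (hsupp t)]
    congr 1
    funext y
    simp [ind]
  have hl1 : ∀ t, l1 (ic (bb t)) ≤ Λ := fun t => by
    rw [hbic]
    exact (l1_res_le _).trans (fam.l1 t)
  have hmass : ∑ t, fam.π t ≤ Λ * ∑ t, fam.π t * ‖ph p K [] (ic (bb t))‖ ^ p := by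
    simp only [hnorm]
    exact fam.mass
  have hBC : C₀ * ((Fintype.card (Ks K) : ℝ) + 1) ≤ B := by
    rw [hB]
    push_cast
    have h1 : C₀ ≤ (⌈C₀⌉₊ : ℝ) := Nat.le_ceil _
    have h2 : (Fintype.card (Ks K) : ℝ) + 1 ≤ (r : ℝ) ^ 2 := by nlinarith
    exact mul_le_mul h1 h2 (by positivity) (by positivity)
  obtain ⟨j, x₀, hj, hx₀, h4⟩ := h3 (Ks K) (Lq p (V I)) (ph p K [])
    (norm_ph_single K hp0 []) fam.T fam.π bb
    fam.π_nonneg hl1 hmass B hBC ι g (fun a a' ha ha' => by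
      rw [hgdiff]
      obtain ⟨h5, h6⟩ := hf2 _ (hmem a ha) _ (hmem a' ha')
      rw [hdist] at h5 h6
      constructor
      · rw [le_inv_mul_iff₀ hlpos]; exact h5
      · rw [inv_mul_le_iff₀ hlpos]; linarith)
  obtain ⟨R₀, hR₀⟩ : ∃ R₀ : ℕ, R₀ = B ^ (j + 1) := ⟨_, rfl⟩
  rw [← hR₀] at h4
  have hBR : B ≤ R₀ := by rw [hR₀]; exact Nat.le_self_pow (by omega) B
  have hRR₀ : r ^ 2 ≤ R₀ := hBr.trans hBR
  have hR₀M : R₀ ≤ B ^ (N + 2) := by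
    rw [hR₀]; exact Nat.pow_le_pow_right hB1 (by omega)
  have hrM : r ^ 2 ≤ B ^ (N + 2) := hBr.trans (Nat.le_self_pow (by omega) B)
  have hMx : ∀ i, |x₀ i| + R₀ + (r ^ 2 : ℕ) ≤ M := by
    intro i
    have h5 := hx₀ i
    have h6 : (R₀ : ℤ) ≤ (B : ℤ) ^ (N + 2) := by exact_mod_cast hR₀M
    have h7 : ((r ^ 2 : ℕ) : ℤ) ≤ (B : ℤ) ^ (N + 2) := by exact_mod_cast hrM
    have h8 : (0 : ℤ) ≤ (B : ℤ) ^ (N + 2) := by positivity
    rw [hM]
    push_cast at *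
    linarith
  refine ⟨tau fun Q => TL (ph p K) r (Fintype.card I) (r ^ 2) (gtop (ph p K) r (Fintype.card I) R₀ x₀ f) Q,
    sys_of hp hD hε f1 f2 f3 hRR₀ hMx hf, ?_⟩
  have hδΛ : 4 * D * Λ ^ 2 / ((r ^ 2 : ℕ) : ℝ) * Λ ≤ 1 / 6 := by
    push_cast
    have hr' : (0 : ℝ) < r := by linarith
    rw [div_mul_eq_mul_div, div_le_iff₀ (by positivity)]
    have h6 : 32 * (r : ℝ) ≤ (r : ℝ) ^ 2 := by nlinarith
    nlinarith
  have hfin := lower_transfer (A := fun t => nT p (bavg R₀ fun a =>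
      g (x₀ + a + bb t) - g (x₀ + a)))
    (B := fun t => ‖TL (ph p K) r (Fintype.card I) (r ^ 2) (gtop (ph p K) r (Fintype.card I) R₀ x₀ f) [] (ic (bb t))‖)
    (V := fun t => ‖ph p K [] (ic (bb t))‖) (δ := 4 * D * Λ ^ 2 / ((r ^ 2 : ℕ) : ℝ))
    hp hΛ fam.π_nonneg
    (fun t => by rw [nT_eq hp0]; exact norm_nonneg _) (fun t => norm_nonneg _)
    (fun t => norm_nonneg _) (by positivity) hδΛ
    (fun t => avg_close hp hD hΛ f2 f4 hRR₀ hMx hf (bb t) (hl1 t) g hg) hmass h4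
  have e1 : ∀ t, nT p (∑ S, (fam.b t S : ℝ) • tau (fun Q =>
        TL (ph p K) r (Fintype.card I) (r ^ 2) (gtop (ph p K) r (Fintype.card I) R₀ x₀ f) Q) [] S)
      = ‖TL (ph p K) r (Fintype.card I) (r ^ 2) (gtop (ph p K) r (Fintype.card I) R₀ x₀ f) [] (ic (bb t))‖ := by
    intro t
    rw [sum_tau _ [] _ (hsupp t), List.reverse_nil, nT_eq' hp0, ← hbic]
  show (1 / 2) ^ p * ∑ t, fam.π t * nE p (poly fun S => (fam.b t S : ℝ)) ^ p ≤
    ∑ t, fam.π t * nT p (∑ S, (fam.b t S : ℝ) • tau (fun Q =>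
      TL (ph p K) r (Fintype.card I) (r ^ 2) (gtop (ph p K) r (Fintype.card I) R₀ x₀ f) Q) [] S) ^ p
  simp only [e1, ← hnorm]
  exact hfin

end LinM

open LinM LinAux Vale.Agent.P249.H65 in
/-- **LIN** -/
theorem specLin : SpecLin := by
  intro p D Λ hp hD hΛ
  have hp0 : 0 < p := by linarith
  have : Fact (1 ≤ ENNReal.ofReal p) :=
    ⟨by rw [← ENNReal.ofReal_one]; exact ENNReal.ofReal_le_ofReal hp.le⟩
  obtain ⟨N, C₀, hC₀, h3⟩ := SP.specLinL3 p D Λ hp hD hΛ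
  obtain ⟨C, hC, hlog⟩ := SP.specLinLog D Λ C₀ N hD hΛ hC₀
  refine ⟨C, hC, fun I _ _ K hK0 ε hε hε1 fam => ?_⟩
  classical
  have hcard : Nat.card {S : V I // K S} = Fintype.card (Ks K) := Nat.card_eq_fintype_card
  have hk1 : 1 ≤ Fintype.card (Ks K) := Fintype.card_pos_iff.2 ⟨⟨0, hK0⟩⟩
  obtain ⟨r, hr⟩ : ∃ r : ℕ,
    r = ⌈32 * D * Λ ^ 3 * (((Fintype.card (Ks K) : ℕ) : ℝ) + 1) / ε⌉₊ := ⟨_, rfl⟩
  obtain ⟨B, hB⟩ : ∃ B : ℕ, B = ⌈C₀⌉₊ * r ^ 2 := ⟨_, rfl⟩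
  obtain ⟨M, hM⟩ : ∃ M : ℕ, M = 4 * B ^ (N + 2) := ⟨_, rfl⟩
  obtain ⟨f1, f2, f3, f4, f5⟩ := r_facts hD hΛ (Nat.cast_nonneg _) hε hε1 hr
  refine ⟨(XX (ph p K) r (Fintype.card I) M (r ^ 2)).image (un p I), ?_, ?_⟩
  · rw [hcard]
    refine hlog (Fintype.card I) (Fintype.card (Ks K)) ε hk1 hε hε1 r B M _ hr hB hM ?_
    refine Finset.card_image_le.trans
      ((card_XX (ph p K) r (Fintype.card I) M (r ^ 2)).trans (le_of_eq ?_))
    rw [Fintype.card_prod, ZMod.card, mul_comm (Fintype.card I) 2]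
  · intro ι _ F hF
    refine lin_core (f := fun x => tl p (F (un p I x))) hp hD hΛ hC₀ hε fam h3 f1 f2 f3 f4 f5
      hB hM fun x hx y hy => ?_
    have h1 := hF (un p I x) (Finset.mem_image_of_mem _ hx) (un p I y)
      (Finset.mem_image_of_mem _ hy)
    rw [nE_un hp0, nT_eq hp0] at h1
    exact h1

end Vale.Agent.P249.TP
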