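import Vale.Agent.P249.TP.Basic
import Vale.Agent.P249.SP.LinSpec
import Vale.Agent.P249.H65.Abs

/-!
# P249, phase 2, block LIN: the tree of linear maps (adaptation of `SP/LinAux.lean` of helper65)
Author of the adaptation: helper892.
-/

open Finset
open scoped ENNReal

namespace Vale.Agent.P249.TP.LinAux

open Vale.Agent.P249.TP Vale.Agent.P249.H65

/-! ### Norms -/

/-- The space `ℓ_p^ι` as a normed space. -/
abbrev Lq (p : ℝ) (ι : Type) : Type := PiLp (ENNReal.ofReal p) fun _ : ι => ℝ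

/-- A function as an element of the normed space. -/
noncomputable abbrev tl (p : ℝ) {ι : Type} (v : ι → ℝ) : Lq p ι := WithLp.toLp (ENNReal.ofReal p) v

variable {p : ℝ} [Fact (1 ≤ ENNReal.ofReal p)]

omit [Fact (1 ≤ ENNReal.ofReal p)] in
theorem nT_eq [Fact (1 ≤ ENNReal.ofReal p)] (hp : 0 < p) {ι : Type} [Fintype ι] (v : ι → ℝ) : nT p v = ‖tl p v‖ := by
  have h : (ENNReal.ofReal p).toReal = p := ENNReal.toReal_ofReal hp.le
  rw [PiLp.norm_eq_sum (by rw [h]; exact hp), h]
  rfl

theorem nT_eq' (hp : 0 < p) {ι : Type} [Fintype ι] (v : Lq p ι) : nT p v.ofLp = ‖v‖ :=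
  nT_eq hp v.ofLp

/-- The normalising constant. -/
noncomputable def cc (p : ℝ) (Ω : Type) [Fintype Ω] : ℝ := (Fintype.card Ω : ℝ) ^ (1 / p)

omit [Fact (1 ≤ ENNReal.ofReal p)] in
theorem cc_pos (Ω : Type) [Fintype Ω] [Nonempty Ω] : 0 < cc p Ω := by
  unfold cc
  have : 0 < Fintype.card Ω := Fintype.card_pos
  positivity

theorem nE_eq (hp : 0 < p) {Ω : Type} [Fintype Ω] [Nonempty Ω] (f : Ω → ℝ) :
    nE p f = ‖(cc p Ω)⁻¹ • tl p f‖ := by
  rw [norm_smul, ← nT_eq hp, norm_inv, Real.norm_eq_abs, abs_of_pos (cc_pos Ω)]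
  unfold nE nT cc
  rw [Real.div_rpow (Finset.sum_nonneg fun _ _ => Real.rpow_nonneg (abs_nonneg _) _)
    (by positivity), div_eq_inv_mul]

omit [Fact (1 ≤ ENNReal.ofReal p)] in
theorem nE_le_one (hp : 0 < p) {Ω : Type} [Fintype Ω] [Nonempty Ω] {f : Ω → ℝ}
    (hf : ∀ y, |f y| ≤ 1) : nE p f ≤ 1 := by
  unfold nE
  have hc : (0 : ℝ) < Fintype.card Ω := by exact_mod_cast Fintype.card_pos
  have h1 : (∑ y, |f y| ^ p) / Fintype.card Ω ≤ 1 := by
    rw [div_le_one hc]
    refine (Finset.sum_le_card_nsmul _ _ (1 : ℝ) fun y _ =>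
      Real.rpow_le_one (abs_nonneg _) (hf y) hp.le).trans (le_of_eq ?_)
    simp
  have h0 : 0 ≤ (∑ y, |f y| ^ p) / Fintype.card Ω :=
    div_nonneg (Finset.sum_nonneg fun _ _ => Real.rpow_nonneg (abs_nonneg _) _) hc.le
  exact Real.rpow_le_one h0 h1 (by positivity)

/-! ### Walsh functions -/

variable {I : Type} [Fintype I] [DecidableEq I]

theorem sg_mul_self (b : ZMod 2) : sg b * sg b = 1 := by
  unfold sg
  split_ifs <;> norm_num

omit [Fact (1 ≤ ENNReal.ofReal p)] in
theorem w_flip (S : V I) (i : I) (y : V I) :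
    w (S + Pi.single i 1) y = sg (y i) * w S y := by
  unfold w
  rw [pr_add_left, sg_add, mul_comm]
  congr 1
  unfold pr
  congr 1
  rw [Finset.sum_eq_single i]
  · simp
  · intro j _ hj
    simp [hj]
  · intro h; exact absurd (Finset.mem_univ _) h

omit [Fintype I] [DecidableEq I] [Fact (1 ≤ ENNReal.ofReal p)] in
theorem ind_append [Fintype I] [DecidableEq I] (P : List (I × ZMod 2)) (i : I) (β : ZMod 2)
    (y : V I) : 2 * ind (P ++ [(i, β)]) y = ind P y * (1 + sg β * sg (y i)) := by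
  have h1 : ind (P ++ [(i, β)]) y = if (∀ c ∈ P, y c.1 = c.2) ∧ y i = β then 1 else 0 := by
    unfold ind
    congr 1
    simp only [List.mem_append, List.mem_singleton, eq_iff_iff]
    constructor
    · intro h
      exact ⟨fun c hc => h c (Or.inl hc), h (i, β) (Or.inr rfl)⟩
    · rintro ⟨h, h'⟩ c (hc | hc)
      · exact h c hc
      · subst hc; exact h'
  rw [h1]
  unfold ind
  by_cases hP : ∀ c ∈ P, y c.1 = c.2
  · by_cases hy : y i = β
    · rw [if_pos ⟨hP, hy⟩, if_pos hP, hy, sg_mul_self]; norm_num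
    · rw [if_neg (fun h => hy h.2), if_pos hP]
      have h2 : ∀ a b : ZMod 2, a ≠ b → sg b * sg a = -1 := by
        intro a b hab
        unfold sg
        have hz : ∀ c : ZMod 2, c = 0 ∨ c = 1 := by decide
        rcases hz a with rfl | rfl <;> rcases hz b with rfl | rfl <;> simp_all
      rw [h2 _ _ hy]; norm_num
  · rw [if_neg (fun h => hP h.1), if_neg hP]; simp

theorem abs_ind_le (P : List (I × ZMod 2)) (y : V I) : |ind P y| ≤ 1 := by
  unfold ind
  split_ifs <;> simp

/-! ### The tree of linear maps -/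

variable (K : V I → Prop) [DecidablePred K]

/-- The admissible frequencies. -/
abbrev Ks (K : V I → Prop) : Type := {S : V I // K S}

/-- Extension by zero. -/
noncomputable def ex {K : V I → Prop} [DecidablePred K] (b : Ks K → ℝ) (S : V I) : ℝ :=
  if h : K S then b ⟨S, h⟩ else 0

theorem sum_ex {K : V I → Prop} [DecidablePred K] {W : Type*} [AddCommMonoid W] [Module ℝ W]
    (b : Ks K → ℝ) (f : V I → W) : ∑ S, ex b S • f S = ∑ S : Ks K, b S • f S.1 := by
  have h1 : ∑ S, ex b S • f S = ∑ S ∈ univ.filter (fun S : V I => K S),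
      ex b S • f S := by
    rw [Finset.sum_filter]
    refine Finset.sum_congr rfl fun S _ => ?_
    by_cases h : K S
    · rw [if_pos h]
    · rw [if_neg h, ex, dif_neg h, zero_smul]
  rw [h1, ← Finset.sum_subtype_eq_sum_filter]
  refine Finset.sum_congr ?_ fun S _ => ?_
  · ext S; simp
  · rw [ex, dif_pos S.2]

theorem poly_ex {K : V I → Prop} [DecidablePred K] (b : Ks K → ℝ) (y : V I) :
    poly (ex b) y = ∑ S : Ks K, b S * w S.1 y :=
  sum_ex (W := ℝ) b (fun S => w S y)

/-- The linear map of the node with reversed word `Q`. -/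
noncomputable def ph (p : ℝ) (K : V I → Prop) [DecidablePred K] (Q : List (I × ZMod 2)) :
    (Ks K → ℝ) →ₗ[ℝ] Lq p (V I) where
  toFun b := (cc p (V I))⁻¹ • tl p (fun y => ind Q.reverse y * poly (ex b) y)
  map_add' b b' := by
    rw [← smul_add, ← WithLp.toLp_add]
    congr 2
    funext y
    simp only [poly_ex, Pi.add_apply, ← mul_add, ← Finset.sum_add_distrib, add_mul]
  map_smul' c b := by
    have h1 : (fun y => ind Q.reverse y * poly (ex (c • b)) y)
        = c • (fun y => ind Q.reverse y * poly (ex b) y) := by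
      funext y
      simp only [poly_ex, Pi.smul_apply, smul_eq_mul]
      have h : ∑ S : Ks K, c * b S * w S.1 y = c * ∑ S : Ks K, b S * w S.1 y := by
        rw [Finset.mul_sum]
        exact Finset.sum_congr rfl fun S _ => mul_assoc _ _ _
      rw [h]
      ring
    rw [h1, RingHom.id_apply]
    exact smul_comm (cc p (V I))⁻¹ c (tl p _)

theorem norm_ph (hp : 0 < p) (Q : List (I × ZMod 2)) (b : Ks K → ℝ) :
    ‖ph p K Q b‖ = nE p (fun y => ind Q.reverse y * poly (ex b) y) := by
  rw [nE_eq hp]; rfl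

theorem norm_ph_single (hp : 0 < p) (Q : List (I × ZMod 2)) (S : Ks K) :
    ‖ph p K Q (Pi.single S 1)‖ ≤ 1 := by
  rw [norm_ph K hp]
  refine nE_le_one hp fun y => ?_
  rw [abs_mul, poly_ex]
  have h1 : ∑ S' : Ks K, (Pi.single S (1 : ℝ) : Ks K → ℝ) S' * w S'.1 y = w S.1 y := by
    rw [Finset.sum_eq_single S]
    · simp
    · intro S' _ hS'
      simp [hS']
    · intro h; exact absurd (Finset.mem_univ _) h
  rw [h1, abs_w, mul_one]
  exact abs_ind_le _ _

/-- Back to functions on the cube. -/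
noncomputable def un (p : ℝ) (I : Type) [Fintype I] [DecidableEq I] (x : Lq p (V I)) : V I → ℝ :=
  cc p (V I) • x.ofLp

theorem nE_un (hp : 0 < p) (x y : Lq p (V I)) :
    nE p (un p I x - un p I y) = ‖x - y‖ := by
  rw [nE_eq hp]
  congr 1
  unfold un
  rw [← smul_sub]
  have h : tl p (cc p (V I) • (x.ofLp - y.ofLp)) = cc p (V I) • (x - y) := rfl
  rw [h, smul_smul, inv_mul_cancel₀ (cc_pos (V I)).ne', one_smul]

end Vale.Agent.P249.TP.LinAux
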