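import Vale.Agent.P249.TP.Spec

/-!
# P249, phase 2: multilinearity testing (block MLT), from linearity testing (BLR)
Author: helper892.
-/

open Finset
open scoped BigOperators

namespace Vale.Agent.P249.TP
namespace Mlt

section av

variable {Ω Ω' : Type} [Fintype Ω] [Fintype Ω']

lemma av_mono' {f g : Ω → ℝ} (h : ∀ x, f x ≤ g x) : av f ≤ av g := by
  unfold av
  exact div_le_div_of_nonneg_right (Finset.sum_le_sum fun x _ => h x) (Nat.cast_nonneg _)

lemma av_nonneg' {f : Ω → ℝ} (h : ∀ x, 0 ≤ f x) : 0 ≤ av f := by
  unfold av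
  exact div_nonneg (Finset.sum_nonneg fun x _ => h x) (Nat.cast_nonneg _)

lemma av_add' (f g : Ω → ℝ) : av (fun x => f x + g x) = av f + av g := by
  unfold av
  rw [Finset.sum_add_distrib, add_div]

lemma av_mul' (c : ℝ) (f : Ω → ℝ) : av (fun x => c * f x) = c * av f := by
  unfold av
  rw [← Finset.mul_sum, mul_div_assoc]

lemma av_equiv' (σ : Ω ≃ Ω') (f : Ω' → ℝ) : av (fun x => f (σ x)) = av f := by
  unfold av
  rw [Equiv.sum_comp σ f, Fintype.card_congr σ]

lemma av_prod' (f : Ω × Ω' → ℝ) : av f = av (fun x => av (fun y => f (x, y))) := by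
  unfold av
  rw [Fintype.sum_prod_type, Fintype.card_prod, Nat.cast_mul, ← Finset.sum_div, div_div,
    mul_comm]

lemma av_const' [Nonempty Ω] (c : ℝ) : av (fun _ : Ω => c) = c := by
  unfold av
  rw [Finset.sum_const, Finset.card_univ, nsmul_eq_mul]
  exact mul_div_cancel_left₀ c (by exact_mod_cast Fintype.card_ne_zero)

lemma av_fst' [Nonempty Ω'] (f : Ω → ℝ) : av (fun q : Ω × Ω' => f q.1) = av f := by
  rw [av_prod']
  congr 1
  funext x
  exact av_const' (f x)

lemma av_le_one' {f : Ω → ℝ} (h : ∀ x, f x ≤ 1) : av f ≤ 1 := by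
  unfold av
  have h1 : ∑ x, f x ≤ (Fintype.card Ω : ℝ) := by
    calc ∑ x, f x ≤ ∑ _x : Ω, (1 : ℝ) := Finset.sum_le_sum fun x _ => h x
      _ = Fintype.card Ω := by simp
  exact div_le_one_of_le₀ h1 (Nat.cast_nonneg _)

open Classical in
/-- rate of failure of `P` -/
noncomputable def fr (P : Ω → Prop) : ℝ := av (fun x => if P x then (0 : ℝ) else 1)

lemma fr_eq (P : Ω → Prop) [DecidablePred P] :
    av (fun x => if P x then (0 : ℝ) else 1) = fr P := by
  unfold fr
  congr 1
  funext x
  by_cases h : P x <;> simp [h]

lemma fr_le_one (P : Ω → Prop) : fr P ≤ 1 := by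
  unfold fr
  apply av_le_one'
  intro x
  split_ifs <;> norm_num

lemma fr_nonneg (P : Ω → Prop) : 0 ≤ fr P := by
  unfold fr
  apply av_nonneg'
  intro x
  split_ifs <;> norm_num

lemma fr_equiv (σ : Ω ≃ Ω') (P : Ω' → Prop) : fr (fun x => P (σ x)) = fr P := by
  unfold fr
  exact av_equiv' σ (fun x => @ite ℝ (P x) (Classical.propDecidable _) 0 1)

lemma fr_prod (P : Ω × Ω' → Prop) : fr P = av (fun x => fr (fun y => P (x, y))) := by
  unfold fr
  rw [av_prod']

lemma fr_union {P Q R : Ω → Prop} (h : ∀ x, P x → Q x → R x) : fr R ≤ fr P + fr Q := by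
  unfold fr
  rw [← av_add']
  apply av_mono'
  intro x
  have := h x
  by_cases hP : P x <;> by_cases hQ : Q x <;> by_cases hR : R x <;> simp_all

end av

/-- `G` is additive in every argument -/
def MA {k : ℕ} {U A : Type} [AddCommGroup U] [AddCommGroup A] (G : (Fin k → U) → A) : Prop :=
  ∀ (l : Fin k) (x : Fin k → U) (u v : U),
    G (Function.update x l (u + v)) = G (Function.update x l u) + G (Function.update x l v)

/-- a nonzero additive map is nonzero at half of the points -/
lemma half_ne {U A : Type} [AddCommGroup U] [Fintype U] [AddCommGroup A] (L : U →+ A)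
    (hL : L ≠ 0) : 1 / 2 ≤ fr (fun y => L y = 0) := by
  classical
  obtain ⟨y₀, hy₀⟩ : ∃ y, L y ≠ 0 := by
    by_contra hcon
    push Not at hcon
    exact hL (by ext y; simpa using hcon y)
  have h1 : fr (fun y => L (y + y₀) = 0) = fr (fun y => L y = 0) :=
    fr_equiv (Equiv.addRight y₀) (fun y => L y = 0)
  have h2 : (1 : ℝ) ≤ fr (fun y => L y = 0) + fr (fun y => L (y + y₀) = 0) := by
    have h3 : fr (fun _ : U => False) ≤ fr (fun y => L y = 0) + fr (fun y => L (y + y₀) = 0) := by
      apply fr_union
      intro x hx hx'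
      rw [map_add, hx, zero_add] at hx'
      exact hy₀ hx'
    have h4 : fr (fun _ : U => False) = 1 := by
      unfold fr
      simp only [if_false]
      exact av_const' 1
    linarith
  linarith

/-- the involution `(x, u) ↦ (update x l u, x l)` -/
def swp {k : ℕ} {U : Type} (l : Fin k) : ((Fin k → U) × U) ≃ ((Fin k → U) × U) where
  toFun q := (Function.update q.1 l q.2, q.1 l)
  invFun q := (Function.update q.1 l q.2, q.1 l)
  left_inv q := by simp
  right_inv q := by simp

/-- `(x, u) ↦ (x, x l + u)` -/
def shr {k : ℕ} {U : Type} [AddCommGroup U] (l : Fin k) :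
    ((Fin k → U) × U) ≃ ((Fin k → U) × U) where
  toFun q := (q.1, q.1 l + q.2)
  invFun q := (q.1, -q.1 l + q.2)
  left_inv q := by simp
  right_inv q := by simp

lemma av_upd {k : ℕ} {U : Type} [Fintype U] [Nonempty U] (l : Fin k) (φ : (Fin k → U) → ℝ) :
    av (fun q : (Fin k → U) × U => φ (Function.update q.1 l q.2)) = av φ := by
  have h1 := av_equiv' (swp (U := U) l) (fun q => φ q.1)
  rw [av_fst'] at h1
  exact h1

lemma av_upd_add {k : ℕ} {U : Type} [AddCommGroup U] [Fintype U] (l : Fin k)
    (φ : (Fin k → U) → ℝ) :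
    av (fun q : (Fin k → U) × U => φ (Function.update q.1 l (q.1 l + q.2))) = av φ := by
  have h1 := av_equiv' (shr (U := U) l) (fun q => φ (Function.update q.1 l q.2))
  rw [av_upd] at h1
  exact h1

/-- the constants -/
noncomputable def Cst : ℕ → ℝ
  | 0 => 1
  | k + 1 => 20 + 122 * Cst k

lemma Cst_pos : ∀ k, 0 < Cst k
  | 0 => one_pos
  | k + 1 => by
    have := Cst_pos k
    show (0 : ℝ) < 20 + 122 * Cst k
    linarith

/-- `(x, y, u) ↦ (cons y x, u)` -/
def rho0 {k : ℕ} {U : Type} : ((Fin k → U) × (U × U)) ≃ ((Fin (k + 1) → U) × U) where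
  toFun p := (Fin.cons p.2.1 p.1, p.2.2)
  invFun q := (Fin.tail q.1, (q.1 0, q.2))
  left_inv p := by simp
  right_inv q := by simp

/-- `((x, u), y) ↦ (cons y x, u)` -/
def rho1 {k : ℕ} {U : Type} : (((Fin k → U) × U) × U) ≃ ((Fin (k + 1) → U) × U) where
  toFun p := (Fin.cons p.2 p.1.1, p.1.2)
  invFun q := ((Fin.tail q.1, q.2), q.1 0)
  left_inv p := by simp
  right_inv q := by simp

/-- `(x, y) ↦ cons y x` -/
def rho2 {k : ℕ} {U : Type} : ((Fin k → U) × U) ≃ (Fin (k + 1) → U) where
  toFun p := Fin.cons p.2 p.1
  invFun q := (Fin.tail q, q 0)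
  left_inv p := by simp
  right_inv q := by simp

theorem claim (hB : SpecBlr) : ∀ (k : ℕ) (U : Type) [AddCommGroup U] [Fintype U]
    (A : Type) [AddCommGroup A] (f : (Fin k → U) → A) (e : ℝ), 0 ≤ e →
    (∀ l : Fin k, fr (fun q : (Fin k → U) × U => f q.1 + f (Function.update q.1 l q.2) =
      f (Function.update q.1 l (q.1 l + q.2))) ≤ e) →
    ∃ B : (Fin k → U) → A, MA B ∧ fr (fun x => f x = B x) ≤ Cst k * e := by
  intro k
  induction k with
  | zero =>
    intro U _ _ A _ f e he _
    refine ⟨f, fun l => l.elim0, ?_⟩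
    have h1 : fr (fun x : Fin 0 → U => f x = f x) = 0 := by
      unfold fr av
      simp
    rw [h1]
    exact mul_nonneg (Cst_pos 0).le he
  | succ k ih =>
    intro U _ _ A _ f e he hf
    classical
    -- mode zero
    set E : (Fin k → U) → ℝ := fun x => fr (fun q : U × U =>
      f (Fin.cons q.1 x) + f (Fin.cons q.2 x) = f (Fin.cons (q.1 + q.2) x)) with hE
    have hE0 : av E ≤ e := by
      have h1 := hf 0
      rw [← fr_equiv rho0] at h1
      rw [fr_prod] at h1
      refine le_trans (le_of_eq ?_) h1
      congr 1
      funext x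
      rw [hE]
      simp only [rho0, Equiv.coe_fn_mk]
      congr 1
      funext q
      simp
    have hG0 : ∀ x : Fin k → U, ∃ h : U →+ A,
        fr (fun y => f (Fin.cons y x) = h y) ≤ 20 * E x := by
      intro x
      by_cases hx : E x ≤ 1 / 20
      · obtain ⟨h, hh⟩ := hB U A (fun y => f (Fin.cons y x)) (E x) hx
          (le_of_eq (fr_eq _))
        refine ⟨h, ?_⟩
        rw [fr_eq] at hh
        have : 0 ≤ E x := fr_nonneg _
        linarith
      · refine ⟨0, ?_⟩
        push Not at hx
        have := fr_le_one (fun y => f (Fin.cons y x) = (0 : U →+ A) y)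
        linarith
    choose G hG using hG0
    set φ : (Fin k → U) → ℝ := fun x => fr (fun y => f (Fin.cons y x) = G x y) with hφ
    have hφ1 : av φ ≤ 20 * e := by
      calc av φ ≤ av (fun x => 20 * E x) := av_mono' hG
        _ = 20 * av E := av_mul' _ _
        _ ≤ 20 * e := by linarith
    -- tests for G
    have hGt : ∀ l : Fin k, fr (fun q : (Fin k → U) × U =>
        G q.1 + G (Function.update q.1 l q.2) =
          G (Function.update q.1 l (q.1 l + q.2))) ≤ 122 * e := by
      intro l
      have hpt : ∀ q : (Fin k → U) × U,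
          (1 / 2 : ℝ) * (if G q.1 + G (Function.update q.1 l q.2) =
            G (Function.update q.1 l (q.1 l + q.2)) then (0 : ℝ) else 1) ≤
          ((φ q.1 + φ (Function.update q.1 l q.2)) + φ (Function.update q.1 l (q.1 l + q.2))) +
            fr (fun y => f (Fin.cons y q.1) + f (Fin.cons y (Function.update q.1 l q.2)) =
              f (Fin.cons y (Function.update q.1 l (q.1 l + q.2)))) := by
        intro q
        have n1 : 0 ≤ φ q.1 := fr_nonneg _
        have n2 : 0 ≤ φ (Function.update q.1 l q.2) := fr_nonneg _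
        have n3 : 0 ≤ φ (Function.update q.1 l (q.1 l + q.2)) := fr_nonneg _
        have n4 : 0 ≤ fr (fun y => f (Fin.cons y q.1) +
            f (Fin.cons y (Function.update q.1 l q.2)) =
              f (Fin.cons y (Function.update q.1 l (q.1 l + q.2)))) := fr_nonneg _
        by_cases ht : G q.1 + G (Function.update q.1 l q.2) =
            G (Function.update q.1 l (q.1 l + q.2))
        · rw [if_pos ht]
          linarith
        · rw [if_neg ht]
          have hL : G q.1 + G (Function.update q.1 l q.2) -
            G (Function.update q.1 l (q.1 l + q.2)) ≠ 0 := fun h0 => ht (sub_eq_zero.mp h0)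
          have h1 := half_ne _ hL
          have h2 : fr (fun y => (G q.1 + G (Function.update q.1 l q.2) -
              G (Function.update q.1 l (q.1 l + q.2))) y = 0) ≤
              fr (fun y => (f (Fin.cons y q.1) = G q.1 y ∧
                f (Fin.cons y (Function.update q.1 l q.2)) = G (Function.update q.1 l q.2) y) ∧
                f (Fin.cons y (Function.update q.1 l (q.1 l + q.2))) =
                  G (Function.update q.1 l (q.1 l + q.2)) y) +
              fr (fun y => f (Fin.cons y q.1) +
                f (Fin.cons y (Function.update q.1 l q.2)) =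
                  f (Fin.cons y (Function.update q.1 l (q.1 l + q.2)))) := by
            apply fr_union
            rintro y ⟨⟨a1, a2⟩, a3⟩ a4
            simp only [AddMonoidHom.sub_apply, AddMonoidHom.add_apply]
            rw [← a1, ← a2, ← a3, a4, sub_self]
          have h3 : fr (fun y => (f (Fin.cons y q.1) = G q.1 y ∧
                f (Fin.cons y (Function.update q.1 l q.2)) = G (Function.update q.1 l q.2) y) ∧
                f (Fin.cons y (Function.update q.1 l (q.1 l + q.2))) =
                  G (Function.update q.1 l (q.1 l + q.2)) y) ≤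
              fr (fun y => f (Fin.cons y q.1) = G q.1 y ∧
                f (Fin.cons y (Function.update q.1 l q.2)) = G (Function.update q.1 l q.2) y) +
                φ (Function.update q.1 l (q.1 l + q.2)) :=
            fr_union fun y a b => ⟨a, b⟩
          have h4 : fr (fun y => f (Fin.cons y q.1) = G q.1 y ∧
                f (Fin.cons y (Function.update q.1 l q.2)) = G (Function.update q.1 l q.2) y) ≤
              φ q.1 + φ (Function.update q.1 l q.2) :=
            fr_union fun y a b => ⟨a, b⟩
          linarith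
      have hav := av_mono' hpt
      rw [av_mul', fr_eq, av_add', av_add', av_add', av_fst', av_upd, av_upd_add] at hav
      have hT4 : av (fun q : (Fin k → U) × U => fr (fun y => f (Fin.cons y q.1) +
          f (Fin.cons y (Function.update q.1 l q.2)) =
            f (Fin.cons y (Function.update q.1 l (q.1 l + q.2))))) ≤ e := by
        have h1 := hf l.succ
        rw [← fr_equiv rho1, fr_prod] at h1
        refine le_trans (le_of_eq ?_) h1
        congr 1
        funext q
        simp only [rho1, Equiv.coe_fn_mk]
        congr 1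
        funext y
        simp only [Fin.cons_succ, Fin.cons_update]
      linarith
    obtain ⟨M, hM, hGM⟩ := ih U (U →+ A) G (122 * e) (by linarith) hGt
    refine ⟨fun x => M (Fin.tail x) (x 0), ?_, ?_⟩
    · intro l
      refine Fin.cases ?_ (fun j => ?_) l
      · intro x u v
        simp only [Fin.tail_update_zero, Function.update_self, map_add]
      · intro x u v
        have h0 : ∀ w : U, Function.update x j.succ w 0 = x 0 := by
          intro w
          exact Function.update_of_ne (Fin.succ_ne_zero j).symm _ _
        simp only [Fin.tail_update_succ, h0]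
        rw [hM j (Fin.tail x) u v]
        rfl
    · rw [← fr_equiv rho2]
      have h1 : fr (fun p : (Fin k → U) × U => f (rho2 p) = M (Fin.tail (rho2 p)) ((rho2 p) 0)) ≤
          fr (fun p : (Fin k → U) × U => f (Fin.cons p.2 p.1) = G p.1 p.2) +
          fr (fun p : (Fin k → U) × U => G p.1 = M p.1) := by
        apply fr_union
        rintro ⟨x, y⟩ a b
        simp only [rho2, Equiv.coe_fn_mk, Fin.tail_cons, Fin.cons_zero]
        simp only at a b
        rw [a, b]
      have h2 : fr (fun p : (Fin k → U) × U => f (Fin.cons p.2 p.1) = G p.1 p.2) ≤ 20 * e := by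
        rw [fr_prod]
        exact hφ1
      have h3 : fr (fun p : (Fin k → U) × U => G p.1 = M p.1) = fr (fun x => G x = M x) := by
        unfold fr
        exact av_fst' (fun x => @ite ℝ (G x = M x) (Classical.propDecidable _) 0 1)
      have h4 : Cst (k + 1) = 20 + 122 * Cst k := rfl
      rw [h4]
      have h5 : Cst k * (122 * e) = 122 * Cst k * e := by ring
      rw [h3] at h1
      rw [h5] at hGM
      linarith

/-- a map additive in every argument, as a multilinear map over `ZMod 2` -/
def toML {k n : ℕ} (B : (Fin k → V (Fin n)) → ZMod 2) (hB : MA B) :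
    MultilinearMap (ZMod 2) (fun _ : Fin k => V (Fin n)) (ZMod 2) where
  toFun := B
  map_update_add' := by
    intro inst x l u v
    obtain rfl : inst = instDecidableEqFin k := Subsingleton.elim _ _
    exact hB l x u v
  map_update_smul' := by
    intro inst x l c u
    obtain rfl : inst = instDecidableEqFin k := Subsingleton.elim _ _
    have h0 : B (Function.update x l 0) = 0 := by
      have h := hB l x 0 0
      rw [add_zero] at h
      exact left_eq_add.mp h
    have hc : c = 0 ∨ c = 1 := by
      revert c
      decide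
    rcases hc with rfl | rfl
    · rw [zero_smul, zero_smul]
      exact h0
    · rw [one_smul, one_smul]

lemma ma_eq {k n : ℕ} (B : (Fin k → V (Fin n)) → ZMod 2) (hB : MA B) (x : Fin k → V (Fin n)) :
    B x = pr (tens x) (fun i => B (fun l => Pi.single (i l) 1)) := by
  have h1 : x = fun l => ∑ j : Fin n, x l j • (Pi.single j (1 : ZMod 2) : V (Fin n)) := by
    funext l
    funext a
    rw [Finset.sum_apply]
    simp [Pi.single_apply]
  have h2 : B x = (toML B hB) x := rfl
  rw [h2]
  conv_lhs => rw [h1]
  rw [MultilinearMap.map_sum]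
  unfold pr
  apply Finset.sum_congr rfl
  intro r _
  rw [MultilinearMap.map_smul_univ]
  rfl

end Mlt

/-- **MLT** from BLR -/
theorem specMlt_of (hB : SpecBlr) : SpecMlt := by
  intro k
  refine ⟨Mlt.Cst k, Mlt.Cst_pos k, ?_⟩
  intro n f e he hf
  obtain ⟨B, hB1, hB2⟩ := Mlt.claim hB k (V (Fin n)) (ZMod 2) f e he
    (fun l => by
      have h := hf l
      rw [Mlt.fr_eq] at h
      exact h)
  refine ⟨fun i => B (fun l => Pi.single (i l) 1), ?_⟩
  rw [Mlt.fr_eq]
  have h1 : (fun x => f x = pr (tens x) (fun i => B (fun l => Pi.single (i l) 1))) =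
      fun x => f x = B x := by
    funext x
    rw [← Mlt.ma_eq B hB1 x]
  rw [h1]
  exact hB2

end Vale.Agent.P249.TP
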