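import Vale.Agent.P249.TP.Basic
import Vale.Agent.P249.TP.Mlt

/-!
# P249, phase 2: linearity testing for functions on tensors (block LT), from BLR and MLT
Author: helper892.
-/

open Finset
open scoped BigOperators

namespace Vale.Agent.P249.TP
namespace LtM

open Mlt

/-- a nonzero map additive in every argument is nonzero at `2 ^ (-k)` of the points -/
theorem nonvan : ∀ (k : ℕ) (U : Type) [AddCommGroup U] [Fintype U] (A : Type) [AddCommGroup A]
    (G : (Fin k → U) → A), MA G → (∃ x, G x ≠ 0) → (1 / 2 : ℝ) ^ k ≤ fr (fun x => G x = 0) := by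
  intro k
  induction k with
  | zero =>
    intro U _ _ A _ G _ hx
    obtain ⟨x, hx⟩ := hx
    have h1 : fr (fun x => G x = 0) = fr (fun _ : Fin 0 → U => False) := by
      unfold fr
      congr 1
      funext y
      have hy : y = x := Subsingleton.elim _ _
      simp [hy, hx]
    rw [h1]
    unfold fr
    simp only [if_false, pow_zero]
    exact le_of_eq (av_const' 1).symm
  | succ k ih =>
    intro U _ _ A _ G hG hx
    obtain ⟨x₀, hx₀⟩ := hx
    set L : (Fin k → U) → (U →+ A) := fun x => AddMonoidHom.mk' (fun y => G (Fin.cons y x)) (by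
      intro u v
      have h := hG 0 (Fin.cons 0 x) u v
      simpa only [Fin.update_cons_zero] using h) with hL
    have hLa : ∀ x y, L x y = G (Fin.cons y x) := fun x y => rfl
    have hMA : MA L := by
      intro l x u v
      ext y
      rw [AddMonoidHom.add_apply, hLa, hLa, hLa]
      simp only [Fin.cons_update]
      exact hG l.succ (Fin.cons y x) u v
    have hne : L (Fin.tail x₀) ≠ 0 := by
      intro h0
      apply hx₀
      have h1 : L (Fin.tail x₀) (x₀ 0) = 0 := by rw [h0]; rfl
      rw [hLa, Fin.cons_self_tail] at h1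
      exact h1
    have h1 := ih U (U →+ A) L hMA ⟨_, hne⟩
    rw [← fr_equiv rho2, fr_prod]
    calc (1 / 2 : ℝ) ^ (k + 1) = (1 / 2) * (1 / 2 : ℝ) ^ k := by ring
      _ ≤ (1 / 2) * fr (fun x => L x = 0) := by linarith
      _ ≤ _ := by
        unfold fr
        rw [← av_mul']
        apply av_mono'
        intro x
        by_cases h : L x = 0
        · rw [if_pos h, mul_zero]
          exact fr_nonneg _
        · rw [if_neg h, mul_one]
          exact half_ne (L x) h

/-- additivity in every argument of `z ↦ h (tens z)` for additive `h` -/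
theorem ma_tens {k s : ℕ} (h : V (Fin k → Fin s) →+ ZMod 2) :
    MA (fun z : Fin k → V (Fin s) => h (tens z)) := by
  intro l x u v
  simp only [tens_update_add, map_add]

/-- an additive map vanishing on rank one tensors vanishes -/
theorem zero_of_tens {k s : ℕ} (h : V (Fin k → Fin s) →+ ZMod 2)
    (h0 : ∀ z : Fin k → V (Fin s), h (tens z) = 0) : h = 0 := by
  classical
  refine AddMonoidHom.ext fun c => ?_
  have hc : c = ∑ j, c j • (Pi.single j (1 : ZMod 2) : V (Fin k → Fin s)) := by
    funext a
    rw [Finset.sum_apply]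
    simp [Pi.single_apply]
  rw [hc, map_sum, AddMonoidHom.zero_apply]
  apply Finset.sum_eq_zero
  intro j _
  rcases zmod2_cases (c j) with hj | hj
  · rw [hj, zero_smul, map_zero]
  · rw [hj, one_smul, single_eq_tens]
    exact h0 _

/-- `A ↦ (∑ j, z l j • A l j)_l` -/
def comb {k s n : ℕ} (z : Fin k → V (Fin s)) : Fr k s n →+ (Fin k → V (Fin n)) where
  toFun A := fun l => ∑ j, z l j • A l j
  map_zero' := by
    funext l
    simp
  map_add' A A' := by
    funext l
    simp only [Pi.add_apply, smul_add, Finset.sum_add_distrib]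

theorem comb_surj {k s n : ℕ} (z : Fin k → V (Fin s)) (hz : ∀ l, z l ≠ 0) :
    Function.Surjective (comb (n := n) z) := by
  classical
  intro x
  have h1 : ∀ l, ∃ j, z l j = 1 := by
    intro l
    by_contra hcon
    push Not at hcon
    apply hz l
    funext j
    rcases zmod2_cases (z l j) with h | h
    · exact h
    · exact absurd h (hcon j)
  choose J hJ using h1
  refine ⟨fun l => Pi.single (J l) (x l), ?_⟩
  funext l
  show ∑ j, z l j • (Pi.single (J l) (x l) : Fin s → V (Fin n)) j = x l
  rw [Finset.sum_eq_single (J l)]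
  · rw [hJ l, one_smul, Pi.single_eq_same]
  · intro j _ hj
    rw [Pi.single_eq_of_ne hj, smul_zero]
  · intro h
    exact absurd (Finset.mem_univ _) h

/-- proportion of `z` with a vanishing factor -/
theorem av_zero_factor (k s : ℕ) :
    fr (fun z : Fin k → V (Fin s) => ∀ l, z l ≠ 0) ≤ k * (1 / 2 : ℝ) ^ s := by
  classical
  have h1 : fr (fun z : Fin k → V (Fin s) => ∀ l, z l ≠ 0) ≤
      av (fun z : Fin k → V (Fin s) => ∑ l : Fin k, if z l = 0 then (1 : ℝ) else 0) := by
    unfold fr
    apply av_mono'
    intro z
    by_cases h : ∀ l, z l ≠ 0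
    · rw [if_pos h]
      exact Finset.sum_nonneg fun l _ => by split_ifs <;> norm_num
    · rw [if_neg h]
      push Not at h
      obtain ⟨l, hl⟩ := h
      have h2 := Finset.single_le_sum (f := fun l : Fin k => if z l = 0 then (1 : ℝ) else 0)
        (fun l _ => by split_ifs <;> norm_num) (Finset.mem_univ l)
      simp only [hl, if_true] at h2
      exact h2
  refine h1.trans ?_
  rw [av_sum]
  have h3 : ∀ l : Fin k, av (fun z : Fin k → V (Fin s) => if z l = 0 then (1 : ℝ) else 0) =
      (1 / 2 : ℝ) ^ s := by
    intro l
    have h4 := av_surj (Pi.evalAddMonoidHom (fun _ : Fin k => V (Fin s)) l)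
      (fun x => ⟨fun _ => x, rfl⟩) (fun x : V (Fin s) => if x = 0 then (1 : ℝ) else 0)
    refine Eq.trans h4 ?_
    unfold av
    rw [Finset.sum_ite_eq' Finset.univ (0 : V (Fin s)) (fun _ => (1 : ℝ)),
      if_pos (Finset.mem_univ _), card_V_real, Fintype.card_fin, one_div, one_div, inv_pow]
  rw [Finset.sum_congr rfl fun l _ => h3 l]
  simp

end LtM

open Mlt LtM in
/-- **LT** from BLR and MLT -/
theorem specLt_of' (hB : SpecBlr) (hM : SpecMlt) : SpecLt := by
  intro k hk η hη
  obtain ⟨C, hC, hM⟩ := hM k
  have hDpos : 0 < 20 + 2 ^ k * (2 + C) := by positivity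
  set e : ℝ := η / (2 * (20 + 2 ^ k * (2 + C))) with he
  have he0 : 0 < e := by positivity
  obtain ⟨s₀, hs₀⟩ : ∃ s₀ : ℕ, 2 ^ k * (k * (1 / 2 : ℝ) ^ s₀) ≤ η / 2 := by
    have hpos : (0 : ℝ) < 2 ^ k * k := by
      have : (0 : ℝ) < k := by exact_mod_cast hk
      positivity
    obtain ⟨s₀, hs₀⟩ := exists_pow_lt_of_lt_one (show 0 < η / 2 / (2 ^ k * k) by positivity)
      (show (1 / 2 : ℝ) < 1 by norm_num)
    refine ⟨s₀, ?_⟩
    rw [lt_div_iff₀ hpos] at hs₀
    nlinarith
  refine ⟨e, s₀, he0, ?_⟩
  intro s hs n f hT1 hT2 hT3
  have hs' : 2 ^ k * (k * (1 / 2 : ℝ) ^ s) ≤ η / 2 := by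
    refine le_trans ?_ hs₀
    have h1 : (1 / 2 : ℝ) ^ s ≤ (1 / 2 : ℝ) ^ s₀ :=
      pow_le_pow_of_le_one (by norm_num) (by norm_num) hs
    have h2 : (0 : ℝ) ≤ k := Nat.cast_nonneg k
    exact mul_le_mul_of_nonneg_left (mul_le_mul_of_nonneg_left h1 h2) (by positivity)
  -- the linear form
  obtain ⟨P, hP⟩ := hM n (fun x => f (tens x)) e he0.le (fun l => by
    refine le_trans (le_of_eq ?_) (hT1 l)
    apply av_congr
    intro q
    rw [tens_add_tens_update])
  rw [fr_eq] at hP
  refine ⟨P, ?_⟩
  rw [fr_eq, fr_prod]
  -- the errors for a frame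
  set E : Fr k s n → ℝ := fun A => fr (fun q : V (Fin k → Fin s) × V (Fin k → Fin s) =>
    f (blk A q.1) + f (blk A q.2) = f (blk A q.1 + blk A q.2)) with hE
  set E' : Fr k s n → ℝ := fun A => fr (fun q : V (Fin k → Fin s) × (Fin k → V (Fin s)) =>
    f (blk A q.1) + f (blk A (tens q.2)) = f (blk A q.1 + blk A (tens q.2))) with hE'
  set b : Fr k s n → ℝ := fun A => fr (fun z : Fin k → V (Fin s) =>
    f (blk A (tens z)) = pr (blk A (tens z)) P) with hb
  have avE : av E ≤ e := by
    rw [fr_eq, fr_prod] at hT2
    exact hT2
  have avE' : av E' ≤ e := by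
    rw [fr_eq, fr_prod] at hT3
    exact hT3
  have avb : av b ≤ C * e + k * (1 / 2 : ℝ) ^ s := by
    classical
    have h1 : av b = av (fun z : Fin k → V (Fin s) => fr (fun A : Fr k s n =>
        f (blk A (tens z)) = pr (blk A (tens z)) P)) := by
      rw [hb]
      unfold fr
      exact av_comm _
    rw [h1]
    have h2 : ∀ z : Fin k → V (Fin s), fr (fun A : Fr k s n =>
        f (blk A (tens z)) = pr (blk A (tens z)) P) ≤
        C * e + (if ∀ l, z l ≠ 0 then (0 : ℝ) else 1) := by
      intro z
      by_cases hz : ∀ l, z l ≠ 0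
      · rw [if_pos hz, add_zero]
        refine le_trans (le_of_eq ?_) hP
        have h3 := av_surj (comb (n := n) z) (comb_surj z hz)
          (fun x => @ite ℝ (f (tens x) = pr (tens x) P) (Classical.propDecidable _) 0 1)
        unfold fr
        rw [← h3]
        apply av_congr
        intro A
        beta_reduce
        rw [blk_tens]
        rfl
      · rw [if_neg hz]
        have := fr_le_one (fun A : Fr k s n => f (blk A (tens z)) = pr (blk A (tens z)) P)
        have h0 : 0 ≤ C * e := by positivity
        linarith
    refine (av_mono h2).trans ?_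
    rw [av_add, av_const, fr_eq]
    have := av_zero_factor k s
    linarith
  -- pointwise
  have key : ∀ A : Fr k s n, fr (fun c : V (Fin k → Fin s) => f (blk A c) = pr (blk A c) P) ≤
      20 * E A + 2 ^ k * (2 * E' A + b A) := by
    intro A
    have n1 : 0 ≤ E A := fr_nonneg _
    have n2 : 0 ≤ E' A := fr_nonneg _
    have n3 : 0 ≤ b A := fr_nonneg _
    have n4 : (0 : ℝ) < 2 ^ k := by positivity
    have n5 : fr (fun c : V (Fin k → Fin s) => f (blk A c) = pr (blk A c) P) ≤ 1 := fr_le_one _
    by_cases h1 : E A ≤ 1 / 20
    · obtain ⟨h, hh⟩ := hB (V (Fin k → Fin s)) (ZMod 2) (fun c => f (blk A c)) (E A) h1 (by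
        rw [hE]
        refine le_of_eq ?_
        rw [fr_eq]
        simp only [blk_add])
      rw [fr_eq] at hh
      have h2 : fr (fun z : Fin k → V (Fin s) => f (blk A (tens z)) = h (tens z)) ≤ 2 * E' A := by
        have hpt : ∀ z : Fin k → V (Fin s),
            (1 / 2 : ℝ) * (if f (blk A (tens z)) = h (tens z) then (0 : ℝ) else 1) ≤
            fr (fun c : V (Fin k → Fin s) =>
              f (blk A c) + f (blk A (tens z)) = f (blk A c + blk A (tens z))) := by
          intro z
          by_cases hz : f (blk A (tens z)) = h (tens z)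
          · rw [if_pos hz, mul_zero]
            exact fr_nonneg _
          · rw [if_neg hz, mul_one]
            have a1 : fr (fun c : V (Fin k → Fin s) => f (blk A (c + tens z)) = h (c + tens z)) =
                fr (fun c : V (Fin k → Fin s) => f (blk A c) = h c) :=
              fr_equiv (Equiv.addRight (tens z)) (fun c => f (blk A c) = h c)
            have a2 : fr (fun _ : V (Fin k → Fin s) => False) ≤
                fr (fun c : V (Fin k → Fin s) => f (blk A c) = h c ∧
                  f (blk A (c + tens z)) = h (c + tens z)) +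
                fr (fun c : V (Fin k → Fin s) =>
                  f (blk A c) + f (blk A (tens z)) = f (blk A c + blk A (tens z))) := by
              apply fr_union
              rintro c ⟨b1, b2⟩ b3
              apply hz
              rw [← blk_add, b1, b2, map_add] at b3
              exact add_left_cancel b3
            have a3 : fr (fun c : V (Fin k → Fin s) => f (blk A c) = h c ∧
                  f (blk A (c + tens z)) = h (c + tens z)) ≤
                fr (fun c : V (Fin k → Fin s) => f (blk A c) = h c) +
                fr (fun c : V (Fin k → Fin s) => f (blk A (c + tens z)) = h (c + tens z)) :=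
              fr_union fun c x y => ⟨x, y⟩
            have a4 : fr (fun _ : V (Fin k → Fin s) => False) = 1 := by
              unfold fr
              simp only [if_false]
              exact av_const' 1
            rw [a1] at a3
            rw [a4] at a2
            linarith
        have h3 := av_mono hpt
        rw [av_mul_left, fr_eq] at h3
        have h4 : av (fun z : Fin k → V (Fin s) => fr (fun c : V (Fin k → Fin s) =>
              f (blk A c) + f (blk A (tens z)) = f (blk A c + blk A (tens z)))) = E' A := by
          rw [hE']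
          simp only
          rw [fr_prod]
          unfold fr
          exact av_comm _
        linarith
      by_cases h3 : 2 * E' A + b A < (1 / 2 : ℝ) ^ k
      · -- `h` is the linear form
        set h' : V (Fin k → Fin s) →+ ZMod 2 := h - AddMonoidHom.mk' (fun c => pr (blk A c) P)
          (by
            intro c c'
            show pr (blk A (c + c')) P = pr (blk A c) P + pr (blk A c') P
            rw [blk_add, pr_add_left]) with hh'
        have h'a : ∀ c, h' c = h c - pr (blk A c) P := fun c => rfl
        have h4 : fr (fun z : Fin k → V (Fin s) => h' (tens z) = 0) ≤ 2 * E' A + b A := by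
          have a5 : fr (fun z : Fin k → V (Fin s) => h' (tens z) = 0) ≤
              fr (fun z : Fin k → V (Fin s) => f (blk A (tens z)) = h (tens z)) + b A := by
            apply fr_union
            intro z c1 c2
            rw [h'a, ← c1, c2, sub_self]
          linarith
        have h5 : h' = 0 := by
          apply zero_of_tens
          by_contra hcon
          push Not at hcon
          have h6 := nonvan k (V (Fin s)) (ZMod 2) (fun z => h' (tens z)) (ma_tens h') hcon
          linarith
        have h6 : (fun c : V (Fin k → Fin s) => f (blk A c) = pr (blk A c) P) =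
            fun c => f (blk A c) = h c := by
          funext c
          have h7 : h' c = 0 := by rw [h5]; rfl
          rw [h'a, sub_eq_zero] at h7
          rw [h7]
        rw [h6]
        have : 0 ≤ 2 ^ k * (2 * E' A + b A) := by positivity
        linarith
      · push Not at h3
        have h4 : 1 ≤ 2 ^ k * (2 * E' A + b A) := by
          have h5 : (2 : ℝ) ^ k * (1 / 2) ^ k = 1 := by
            rw [← mul_pow]; norm_num
          calc (1 : ℝ) = 2 ^ k * (1 / 2) ^ k := h5.symm
            _ ≤ _ := mul_le_mul_of_nonneg_left h3 n4.le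
        linarith
    · push Not at h1
      have : 0 ≤ 2 ^ k * (2 * E' A + b A) := by positivity
      linarith
  calc av (fun A : Fr k s n => fr (fun c : V (Fin k → Fin s) =>
        f (blk A c) = pr (blk A c) P))
      ≤ av (fun A => 20 * E A + 2 ^ k * (2 * E' A + b A)) := av_mono key
    _ = 20 * av E + 2 ^ k * (2 * av E' + av b) := by
      rw [av_add, av_mul_left, av_mul_left, av_add, av_mul_left]
    _ ≤ 20 * e + 2 ^ k * (2 * e + (C * e + k * (1 / 2 : ℝ) ^ s)) := by
      have n4 : (0 : ℝ) < 2 ^ k := by positivity
      have h1 : 2 * av E' + av b ≤ 2 * e + (C * e + k * (1 / 2 : ℝ) ^ s) := by linarith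
      have h2 := mul_le_mul_of_nonneg_left h1 n4.le
      linarith
    _ = (20 + 2 ^ k * (2 + C)) * e + 2 ^ k * (k * (1 / 2 : ℝ) ^ s) := by ring
    _ ≤ η / 2 + η / 2 := by
      refine add_le_add (le_of_eq ?_) hs'
      rw [he]
      field_simp
    _ = η := by ring

end Vale.Agent.P249.TP
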