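import Vale.Agent.P249.TP.Spec

/-!
# START (location map from a peaked system), phase 2
-/

open Finset
open scoped BigOperators

namespace Vale.Agent.P249.TP

namespace StartAux

/-! ### averages -/

section avs

variable {Ω Ω' : Type} [Fintype Ω] [Fintype Ω']

lemma av_mono {f g : Ω → ℝ} (h : ∀ x, f x ≤ g x) : av f ≤ av g := by
  unfold av
  exact div_le_div_of_nonneg_right (Finset.sum_le_sum fun x _ => h x) (Nat.cast_nonneg _)

lemma av_nonneg {f : Ω → ℝ} (h : ∀ x, 0 ≤ f x) : 0 ≤ av f := by
  unfold av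
  exact div_nonneg (Finset.sum_nonneg fun x _ => h x) (Nat.cast_nonneg _)

lemma av_add (f g : Ω → ℝ) : av (fun x => f x + g x) = av f + av g := by
  unfold av
  rw [Finset.sum_add_distrib, add_div]

lemma av_sub (f g : Ω → ℝ) : av (fun x => f x - g x) = av f - av g := by
  unfold av
  rw [Finset.sum_sub_distrib, sub_div]

lemma av_mul_left (c : ℝ) (f : Ω → ℝ) : av (fun x => c * f x) = c * av f := by
  unfold av
  rw [← Finset.mul_sum, mul_div_assoc]

lemma av_const [Nonempty Ω] (c : ℝ) : av (fun _ : Ω => c) = c := by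
  unfold av
  rw [Finset.sum_const, Finset.card_univ, nsmul_eq_mul]
  have : (Fintype.card Ω : ℝ) ≠ 0 := by exact_mod_cast Fintype.card_ne_zero
  field_simp

lemma av_sum {ι : Type} [Fintype ι] (f : ι → Ω → ℝ) :
    av (fun x => ∑ i, f i x) = ∑ i, av (f i) := by
  unfold av
  rw [Finset.sum_comm, Finset.sum_div]

lemma av_fst [Nonempty Ω'] (f : Ω → ℝ) : av (fun q : Ω × Ω' => f q.1) = av f := by
  unfold av
  rw [Fintype.sum_prod_type, Fintype.card_prod]
  simp only [Finset.sum_const, Finset.card_univ, nsmul_eq_mul]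
  rw [← Finset.mul_sum, Nat.cast_mul]
  have : (Fintype.card Ω' : ℝ) ≠ 0 := by exact_mod_cast Fintype.card_ne_zero
  by_cases h : (Fintype.card Ω : ℝ) = 0
  · rw [h]; simp
  · field_simp

lemma av_equiv (e : Ω ≃ Ω') (f : Ω' → ℝ) : av (fun x => f (e x)) = av f := by
  unfold av
  rw [Fintype.card_congr e, e.sum_comp]

end avs

/-! ### scalars -/

/-- the ratio sign -/
noncomputable def rs (h t : ℝ) : ℝ := if 0 ≤ h * t then 1 else -1

lemma rs_or (h t : ℝ) : rs h t = 1 ∨ rs h t = -1 := by
  unfold rs; split_ifs <;> simp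

lemma scal {h x y z : ℝ} (hh : h ≠ 0)
    (h1 : min |(h + x) / 2| |(h - x) / 2| ≤ |h| / 16)
    (h2 : min |(h + x + y + z) / 4| |(h + x - y - z) / 4| ≤ |h| / 16)
    (h3 : min |(h - x + y - z) / 4| |(h - x - y + z) / 4| ≤ |h| / 16) :
    rs h x * rs h y = rs h z := by
  rcases lt_or_gt_of_ne hh with hneg | hpos
  · have e : ∀ t : ℝ, rs h t = if t ≤ 0 then 1 else -1 := by
      intro t
      unfold rs
      refine if_congr ?_ rfl rfl
      constructor
      · intro h'
        by_contra hc
        push Not at hc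
        have := mul_neg_of_neg_of_pos hneg hc
        linarith
      · intro h'
        exact mul_nonneg_of_nonpos_of_nonpos hneg.le h'
    rw [e, e, e]
    rw [abs_of_neg hneg] at h1 h2 h3
    rw [min_le_iff, abs_le, abs_le] at h1 h2 h3
    rcases h1 with h1 | h1 <;> rcases h2 with h2 | h2 <;> rcases h3 with h3 | h3 <;>
      obtain ⟨h1a, h1b⟩ := h1 <;> obtain ⟨h2a, h2b⟩ := h2 <;> obtain ⟨h3a, h3b⟩ := h3 <;>
      split_ifs <;> first | (norm_num; done) | (exfalso; linarith)
  · have e : ∀ t : ℝ, rs h t = if 0 ≤ t then 1 else -1 := by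
      intro t
      unfold rs
      exact if_congr (mul_nonneg_iff_of_pos_left hpos) rfl rfl
    rw [e, e, e]
    rw [abs_of_pos hpos] at h1 h2 h3
    rw [min_le_iff, abs_le, abs_le] at h1 h2 h3
    rcases h1 with h1 | h1 <;> rcases h2 with h2 | h2 <;> rcases h3 with h3 | h3 <;>
      obtain ⟨h1a, h1b⟩ := h1 <;> obtain ⟨h2a, h2b⟩ := h2 <;> obtain ⟨h3a, h3b⟩ := h3 <;>
      split_ifs <;> first | (norm_num; done) | (exfalso; linarith)

/-- the sign of `h` -/
noncomputable def sh (h : ℝ) : ℝ := if 0 ≤ h then 1 else -1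

lemma sh_or (h : ℝ) : sh h = 1 ∨ sh h = -1 := by
  unfold sh; split_ifs <;> simp

lemma sh_mul (h t : ℝ) (hh : h ≠ 0) : sh h * t = rs h t * |t| := by
  unfold sh rs
  rcases lt_or_gt_of_ne hh with hneg | hpos
  · rw [if_neg (not_le.mpr hneg)]
    split_ifs with h1
    · have ht : t ≤ 0 := by
        by_contra hc
        push Not at hc
        have := mul_neg_of_neg_of_pos hneg hc
        linarith
      rw [abs_of_nonpos ht]; ring
    · have ht : 0 ≤ t := by
        by_contra hc
        push Not at hc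
        exact h1 (mul_pos_of_neg_of_neg hneg hc).le
      rw [abs_of_nonneg ht]
  · rw [if_pos hpos.le]
    split_ifs with h1
    · have ht : 0 ≤ t := by
        by_contra hc
        push Not at hc
        have := mul_neg_of_pos_of_neg hpos hc
        linarith
      rw [abs_of_nonneg ht]
    · have ht : t ≤ 0 := by
        by_contra hc
        push Not at hc
        exact h1 (mul_pos hpos hc).le
      rw [abs_of_nonpos ht]; ring

lemma term_lb {p h t g : ℝ} (hp : 1 < p) (hh : h ≠ 0) (hg : g = 1 ∨ g = -1) :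
    7 / 8 * |h| ^ p - 3 * |h| ^ p * (if rs h t = g then 0 else 1) -
      16 ^ p * (min |(h + t) / 2| |(h - t) / 2|) ^ p ≤ |h| ^ (p - 1) * g * (sh h * t) := by
  rw [sh_mul h t hh]
  set m := min |(h + t) / 2| |(h - t) / 2| with hm
  have hm0 : 0 ≤ m := le_min (abs_nonneg _) (abs_nonneg _)
  have hh0 : 0 < |h| := abs_pos.mpr hh
  have ha0 : 0 < |h| ^ (p - 1) := Real.rpow_pos_of_pos hh0 _
  have hpp : |h| ^ p = |h| ^ (p - 1) * |h| := by
    rw [← Real.rpow_add_one hh0.ne']; ring_nf
  have hP0 : 0 < |h| ^ p := Real.rpow_pos_of_pos hh0 _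
  have h16 : (16 : ℝ) ^ p * m ^ p = (16 * m) ^ p := by
    rw [Real.mul_rpow (by norm_num) hm0]
  have h16' : 0 ≤ (16 * m) ^ p := by positivity
  have ht0 : 0 ≤ |t| := abs_nonneg t
  rw [h16]
  by_cases hr : rs h t = g
  · rw [if_pos hr, ← hr]
    have hsq : rs h t * rs h t = 1 := by
      rcases rs_or h t with h' | h' <;> rw [h'] <;> norm_num
    have e1 : |h| ^ (p - 1) * rs h t * (rs h t * |t|) = |h| ^ (p - 1) * |t| := by
      calc _ = |h| ^ (p - 1) * (rs h t * rs h t) * |t| := by ring
        _ = _ := by rw [hsq]; ring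
    rw [e1]
    by_cases hsm : m ≤ |h| / 16
    · -- |t| ≥ 7/8 |h|
      have ht : 7 / 8 * |h| ≤ |t| := by
        rw [hm, min_le_iff] at hsm
        rcases hsm with h' | h'
        · have := abs_sub_abs_le_abs_sub h (-t)
          rw [abs_neg] at this
          have e2 : |h - -t| = 2 * |(h + t) / 2| := by
            rw [abs_div, sub_neg_eq_add]; norm_num; ring
          rw [e2] at this
          linarith
        · have := abs_sub_abs_le_abs_sub h t
          have e2 : |h - t| = 2 * |(h - t) / 2| := by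
            rw [abs_div]; norm_num; ring
          rw [e2] at this
          linarith
      have := mul_le_mul_of_nonneg_left ht ha0.le
      nlinarith
    · push Not at hsm
      have h1 : |h| ^ p ≤ (16 * m) ^ p :=
        Real.rpow_le_rpow hh0.le (by linarith) (by linarith)
      have h2 : 0 ≤ |h| ^ (p - 1) * |t| := by positivity
      linarith
  · rw [if_neg hr]
    have hgr : g * rs h t = -1 := by
      rcases rs_or h t with h' | h' <;> rcases hg with h'' | h'' <;> rw [h', h''] at hr ⊢ <;>
        first | (norm_num; done) | (exact absurd rfl hr)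
    have e1 : |h| ^ (p - 1) * g * (rs h t * |t|) = -(|h| ^ (p - 1) * |t|) := by
      calc _ = |h| ^ (p - 1) * (g * rs h t) * |t| := by ring
        _ = _ := by rw [hgr]; ring
    rw [e1]
    by_cases ht : |t| ≤ 2 * |h|
    · have := mul_le_mul_of_nonneg_left ht ha0.le
      nlinarith
    · push Not at ht
      have hmt : |t| ≤ 4 * m := by
        rw [hm]
        have e2 : |t| / 4 ≤ min |(h + t) / 2| |(h - t) / 2| := by
          apply le_min
          · rw [abs_div, abs_two]
            have := abs_sub_abs_le_abs_sub t (-h)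
            rw [abs_neg, sub_neg_eq_add, add_comm] at this
            linarith
          · rw [abs_div, abs_two, abs_sub_comm]
            have := abs_sub_abs_le_abs_sub t h
            linarith
        linarith
      have h3 : |h| ^ (p - 1) * |t| ≤ |t| ^ (p - 1) * |t| := by
        apply mul_le_mul_of_nonneg_right _ ht0
        exact Real.rpow_le_rpow hh0.le (by linarith) (by linarith)
      have h4 : |t| ^ (p - 1) * |t| = |t| ^ p := by
        rw [← Real.rpow_add_one (by linarith : |t| ≠ 0)]; ring_nf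
      have h5 : |t| ^ p ≤ (16 * m) ^ p :=
        Real.rpow_le_rpow ht0 (by linarith) (by linarith)
      nlinarith

lemma min_abs_nonneg (a b : ℝ) : 0 ≤ min |a| |b| := le_min (abs_nonneg _) (abs_nonneg _)

/-! ### signs in `ZMod 2` -/

lemma sg_or (a : ZMod 2) : sg a = 1 ∨ sg a = -1 := by
  unfold sg; split_ifs <;> simp

lemma zmod2_cases (a : ZMod 2) : a = 0 ∨ a = 1 := by
  revert a; decide

lemma sg_add (a b : ZMod 2) : sg (a + b) = sg a * sg b := by
  have h10 : (1 : ZMod 2) ≠ 0 := by decide
  have h11 : (1 : ZMod 2) + 1 = 0 := by decide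
  rcases zmod2_cases a with rfl | rfl <;> rcases zmod2_cases b with rfl | rfl <;>
    simp [sg, h10, h11]

lemma sg_inj {a b : ZMod 2} (h : sg a = sg b) : a = b := by
  have h10 : (1 : ZMod 2) ≠ 0 := by decide
  rcases zmod2_cases a with rfl | rfl <;> rcases zmod2_cases b with rfl | rfl <;>
    first | rfl | (exfalso; simp [sg, h10] at h; try linarith)

/-- the sign function at one coordinate, in `ZMod 2` -/
noncomputable def ff {I : Type} (t : V I → ℝ) (S : V I) : ZMod 2 := if 0 ≤ t 0 * t S then 0 else 1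

lemma sg_ff {I : Type} (t : V I → ℝ) (S : V I) : sg (ff t S) = rs (t 0) (t S) := by
  have h10 : (1 : ZMod 2) ≠ 0 := by decide
  unfold ff rs sg
  split_ifs <;> first | rfl | (exfalso; simp_all)

section coord

variable {I : Type}

/-- the pair `(S, S')` is fine for the coordinate with values `t` -/
def okp (t : V I → ℝ) (S S' : V I) : Prop :=
  min |(t 0 + t S) / 2| |(t 0 - t S) / 2| ≤ |t 0| / 16 ∧
  min |(t 0 + t S + t S' + t (S + S')) / 4| |(t 0 + t S - t S' - t (S + S')) / 4| ≤ |t 0| / 16 ∧
  min |(t 0 - t S + t S' - t (S + S')) / 4| |(t 0 - t S - t S' + t (S + S')) / 4| ≤ |t 0| / 16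

open Classical in
/-- indicator of failure -/
noncomputable def nf (t : V I → ℝ) (S S' : V I) : ℝ := if okp t S S' then 0 else 1

lemma nf_nonneg (t : V I → ℝ) (S S' : V I) : 0 ≤ nf t S S' := by
  unfold nf; split_ifs <;> norm_num

lemma ff_add {t : V I → ℝ} {S S' : V I} (h0 : t 0 ≠ 0) (h : okp t S S') :
    ff t S + ff t S' = ff t (S + S') := by
  apply sg_inj
  rw [sg_add, sg_ff, sg_ff, sg_ff]
  exact scal h0 h.1 h.2.1 h.2.2

lemma test_le (t : V I → ℝ) (h0 : t 0 ≠ 0) (S S' : V I) :
    (if ff t S + ff t S' = ff t (S + S') then (0 : ℝ) else 1) ≤ nf t S S' := by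
  by_cases h : okp t S S'
  · rw [if_pos (ff_add h0 h)]
    exact nf_nonneg _ _ _
  · have e : nf t S S' = 1 := by unfold nf; rw [if_neg h]
    rw [e]
    split_ifs <;> norm_num

/-- total of the three minima at one coordinate -/
noncomputable def m3 (p : ℝ) (t : V I → ℝ) (S S' : V I) : ℝ :=
  (min |(t 0 + t S) / 2| |(t 0 - t S) / 2|) ^ p +
  ((min |(t 0 + t S + t S' + t (S + S')) / 4| |(t 0 + t S - t S' - t (S + S')) / 4|) ^ p +
  (min |(t 0 - t S + t S' - t (S + S')) / 4| |(t 0 - t S - t S' + t (S + S')) / 4|) ^ p)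

lemma m3_nonneg (p : ℝ) (t : V I → ℝ) (S S' : V I) : 0 ≤ m3 p t S S' := by
  unfold m3
  have := min_abs_nonneg
  apply add_nonneg
  · exact Real.rpow_nonneg (this _ _) _
  · apply add_nonneg
    · exact Real.rpow_nonneg (this _ _) _
    · exact Real.rpow_nonneg (this _ _) _

lemma mass_le {p : ℝ} (hp : 1 < p) (t : V I → ℝ) (S S' : V I) :
    |t 0| ^ p * nf t S S' ≤ 16 ^ p * m3 p t S S' := by
  have hA : 0 ≤ |t 0| ^ p := Real.rpow_nonneg (abs_nonneg _) _
  have h16 : (0 : ℝ) < 16 ^ p := by positivity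
  have hm := m3_nonneg p t S S'
  unfold nf
  by_cases h3 : okp t S S'
  · rw [if_pos h3]
    have := mul_nonneg h16.le hm
    linarith
  · rw [if_neg h3]
    have key : ∀ m : ℝ, 0 ≤ m → ¬ m ≤ |t 0| / 16 → |t 0| ^ p ≤ 16 ^ p * m ^ p := by
      intro m hm0 hlt
      push Not at hlt
      rw [← Real.mul_rpow (by norm_num) hm0]
      exact Real.rpow_le_rpow (abs_nonneg _) (by linarith) (by linarith)
    have n1 := Real.rpow_nonneg (min_abs_nonneg ((t 0 + t S) / 2) ((t 0 - t S) / 2)) p
    have n2 := Real.rpow_nonneg (min_abs_nonneg ((t 0 + t S + t S' + t (S + S')) / 4)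
      ((t 0 + t S - t S' - t (S + S')) / 4)) p
    have n3 := Real.rpow_nonneg (min_abs_nonneg ((t 0 - t S + t S' - t (S + S')) / 4)
      ((t 0 - t S - t S' + t (S + S')) / 4)) p
    unfold m3
    unfold okp at h3
    simp only [not_and_or] at h3
    rcases h3 with h3 | h3 | h3
    · have := key _ (min_abs_nonneg _ _) h3
      nlinarith
    · have := key _ (min_abs_nonneg _ _) h3
      nlinarith
    · have := key _ (min_abs_nonneg _ _) h3
      nlinarith

end coord

section fam

variable {I : Type} {ι : Type} [Fintype ι]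

lemma def_eq (p : ℝ) (T : V I → ι → ℝ) (S S' : V I) :
    def1 p T S + def2 p T S S' = ∑ i, m3 p (fun U => T U i) S S' := by
  unfold def1 def2 m3
  rw [← Finset.sum_add_distrib]

/-- the mass of the failures in one family of tests -/
lemma fam_fail {p δ H : ℝ} (hp : 1 < p) (T : V I → ι → ℝ) {Ω : Type} [Fintype Ω]
    (S S' : Ω → V I)
    (h : av (fun q => def1 p T (S q) + def2 p T (S q) (S' q)) ≤ δ * H) :
    ∑ i, |T 0 i| ^ p * av (fun q => nf (fun U => T U i) (S q) (S' q)) ≤ 16 ^ p * δ * H := by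
  have h16 : (0 : ℝ) < 16 ^ p := by positivity
  calc ∑ i, |T 0 i| ^ p * av (fun q => nf (fun U => T U i) (S q) (S' q))
      = ∑ i, av (fun q => |T 0 i| ^ p * nf (fun U => T U i) (S q) (S' q)) := by
        apply Finset.sum_congr rfl; intro i _
        rw [av_mul_left]
    _ ≤ ∑ i, av (fun q => 16 ^ p * m3 p (fun U => T U i) (S q) (S' q)) := by
        apply Finset.sum_le_sum; intro i _
        exact av_mono fun q => mass_le hp (fun U => T U i) (S q) (S' q)
    _ = 16 ^ p * av (fun q => ∑ i, m3 p (fun U => T U i) (S q) (S' q)) := by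
        rw [av_sum, Finset.mul_sum]
        apply Finset.sum_congr rfl; intro i _
        rw [av_mul_left]
    _ = 16 ^ p * av (fun q => def1 p T (S q) + def2 p T (S q) (S' q)) := by
        congr 2
        funext q
        rw [def_eq]
    _ ≤ 16 ^ p * (δ * H) := mul_le_mul_of_nonneg_left h h16.le
    _ = _ := by ring

end fam

end StartAux

open StartAux in
theorem specStart_of (hLT : SpecLt) : SpecStart := by
  intro p k hp hk
  obtain ⟨e, s₀, he0, hLT⟩ := hLT k hk (1 / 100) (by norm_num)
  have h16 : (0 : ℝ) < 16 ^ p := by positivity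
  have hk0 : (0 : ℝ) < k := by exact_mod_cast hk
  set δ : ℝ := (16 : ℝ) ^ (-p) / 20 * min 1 (e / (k + 2)) with hδ
  have hmin0 : 0 < min 1 (e / ((k : ℝ) + 2)) := lt_min one_pos (by positivity)
  have hδ0 : 0 < δ := by positivity
  have h16δ : (16 : ℝ) ^ p * δ = 1 / 20 * min 1 (e / (k + 2)) := by
    rw [hδ, Real.rpow_neg (by norm_num)]
    field_simp
  have h16δ1 : (16 : ℝ) ^ p * δ ≤ 1 / 20 := by
    rw [h16δ]
    have := min_le_left (1 : ℝ) (e / ((k : ℝ) + 2))
    linarith
  have h16δ2 : ((k : ℝ) + 2) * ((16 : ℝ) ^ p * δ) ≤ e * (1 / 20) := by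
    rw [h16δ]
    have h1 := min_le_right (1 : ℝ) (e / ((k : ℝ) + 2))
    have h2 : ((k : ℝ) + 2) * (e / ((k : ℝ) + 2)) = e := by field_simp
    have h3 : ((k : ℝ) + 2) * min 1 (e / ((k : ℝ) + 2)) ≤ e := by
      calc _ ≤ ((k : ℝ) + 2) * (e / ((k : ℝ) + 2)) :=
            mul_le_mul_of_nonneg_left h1 (by linarith)
        _ = e := h2
    linarith
  refine ⟨δ, s₀, hδ0, ?_⟩
  intro s hs n ι _ T H₀ hH₀ hH hF1 hF2 hF3
  classical
  set H : ℝ := ∑ i, |T 0 i| ^ p with hHdef
  have hHpos : 0 < H := lt_of_lt_of_le hH₀ hH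
  have hA : ∀ i, 0 ≤ |T 0 i| ^ p := fun i => Real.rpow_nonneg (abs_nonneg _) _
  -- the failure probabilities
  set a1 : Fin k → ι → ℝ := fun l i => av (fun q : (Fin k → V (Fin n)) × V (Fin n) =>
    nf (fun U => T U i) (tens q.1) (tens (Function.update q.1 l q.2))) with ha1
  set a2 : ι → ℝ := fun i => av (fun q : Fr k s n × V (Fin k → Fin s) × V (Fin k → Fin s) =>
    nf (fun U => T U i) (blk q.1 q.2.1) (blk q.1 q.2.2)) with ha2
  set a3 : ι → ℝ := fun i => av (fun q : Fr k s n × V (Fin k → Fin s) × (Fin k → V (Fin s)) =>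
    nf (fun U => T U i) (blk q.1 q.2.1) (blk q.1 (tens q.2.2))) with ha3
  have hb1 : ∀ l, ∑ i, |T 0 i| ^ p * a1 l i ≤ 16 ^ p * δ * H := fun l =>
    fam_fail hp T (fun q : (Fin k → V (Fin n)) × V (Fin n) => tens q.1)
      (fun q => tens (Function.update q.1 l q.2)) (hF1 l)
  have hb2 : ∑ i, |T 0 i| ^ p * a2 i ≤ 16 ^ p * δ * H :=
    fam_fail hp T (fun q : Fr k s n × V (Fin k → Fin s) × V (Fin k → Fin s) => blk q.1 q.2.1)
      (fun q => blk q.1 q.2.2) hF2
  have hb3 : ∑ i, |T 0 i| ^ p * a3 i ≤ 16 ^ p * δ * H :=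
    fam_fail hp T (fun q : Fr k s n × V (Fin k → Fin s) × (Fin k → V (Fin s)) => blk q.1 q.2.1)
      (fun q => blk q.1 (tens q.2.2)) hF3
  have n1 : ∀ l i, 0 ≤ a1 l i := fun l i => av_nonneg fun q => nf_nonneg _ _ _
  have n2 : ∀ i, 0 ≤ a2 i := fun i => av_nonneg fun q => nf_nonneg _ _ _
  have n3 : ∀ i, 0 ≤ a3 i := fun i => av_nonneg fun q => nf_nonneg _ _ _
  set good : ι → Prop := fun i => T 0 i ≠ 0 ∧ (∀ l, a1 l i ≤ e) ∧ a2 i ≤ e ∧ a3 i ≤ e with hgood
  have hex : ∀ i, ∃ P : V (Fin k → Fin n), good i →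
      av (fun q : Fr k s n × V (Fin k → Fin s) =>
        if ff (fun U => T U i) (blk q.1 q.2) = pr (blk q.1 q.2) P then (0 : ℝ) else 1) ≤
          1 / 100 := by
    intro i
    by_cases hi : good i
    · obtain ⟨h0, h1, h2, h3⟩ := hi
      obtain ⟨P, hP⟩ := hLT s hs n (ff fun U => T U i)
        (fun l => (av_mono fun q => test_le (fun U => T U i) h0 _ _).trans (h1 l))
        ((av_mono fun q => test_le (fun U => T U i) h0 _ _).trans h2)
        ((av_mono fun q => test_le (fun U => T U i) h0 _ _).trans h3)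
      exact ⟨P, fun _ => hP⟩
    · exact ⟨0, fun h => absurd h hi⟩
  choose P hP using hex
  set c : ℝ := H ^ ((p - 1) / p) with hc
  have hc0 : 0 < c := Real.rpow_pos_of_pos hHpos _
  refine ⟨fun i => if good i then |T 0 i| ^ (p - 1) * sh (T 0 i) / c else 0, P, ?_, ?_⟩
  · -- norm
    have hpp : (0 : ℝ) < p / (p - 1) := div_pos (by linarith) (by linarith)
    have h1 : ∀ i, |(if good i then
        |T 0 i| ^ (p - 1) * sh (T 0 i) / c else 0)| ^ (p / (p - 1)) ≤ |T 0 i| ^ p / H := by
      intro i
      split_ifs with h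
      · have e2 : |sh (T 0 i)| = 1 := by
          rcases sh_or (T 0 i) with h' | h' <;> rw [h'] <;> norm_num
        have e3 : |(|T 0 i| ^ (p - 1))| = |T 0 i| ^ (p - 1) :=
          abs_of_nonneg (Real.rpow_nonneg (abs_nonneg _) _)
        rw [abs_div, abs_mul, e2, e3, abs_of_pos hc0, mul_one,
          Real.div_rpow (Real.rpow_nonneg (abs_nonneg _) _) hc0.le,
          ← Real.rpow_mul (abs_nonneg _), hc, ← Real.rpow_mul hHpos.le]
        have e4 : (p - 1) * (p / (p - 1)) = p := by
          have : p - 1 ≠ 0 := by linarith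
          field_simp
        have e5 : (p - 1) / p * (p / (p - 1)) = 1 := by
          have : p - 1 ≠ 0 := by linarith
          have : p ≠ 0 := by linarith
          field_simp
        rw [e4, e5, Real.rpow_one]
      · rw [abs_zero, Real.zero_rpow hpp.ne']
        exact div_nonneg (hA i) hHpos.le
    calc _ ≤ ∑ i, |T 0 i| ^ p / H := Finset.sum_le_sum fun i _ => h1 i
      _ = 1 := by rw [← Finset.sum_div, ← hHdef]; exact div_self hHpos.ne'
  · -- main estimate
    -- the average of the first defect over the blocks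
    have hdef1 : (16 : ℝ) ^ p * av (fun q : Fr k s n × V (Fin k → Fin s) =>
        def1 p T (blk q.1 q.2)) ≤ 1 / 20 * H := by
      have h1 : av (fun q : Fr k s n × V (Fin k → Fin s) => def1 p T (blk q.1 q.2)) ≤ δ * H := by
        refine le_trans ?_ hF2
        have e1 : av (fun q : Fr k s n × V (Fin k → Fin s) => def1 p T (blk q.1 q.2)) =
            av (fun q : (Fr k s n × V (Fin k → Fin s)) × V (Fin k → Fin s) =>
              def1 p T (blk q.1.1 q.1.2)) :=
          (av_fst (Ω' := V (Fin k → Fin s))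
            (fun q : Fr k s n × V (Fin k → Fin s) => def1 p T (blk q.1 q.2))).symm
        have e2 : av (fun q : (Fr k s n × V (Fin k → Fin s)) × V (Fin k → Fin s) =>
              def1 p T (blk q.1.1 q.1.2)) =
            av (fun q : Fr k s n × V (Fin k → Fin s) × V (Fin k → Fin s) =>
              def1 p T (blk q.1 q.2.1)) :=
          av_equiv (Equiv.prodAssoc (Fr k s n) (V (Fin k → Fin s)) (V (Fin k → Fin s)))
            (fun q : Fr k s n × V (Fin k → Fin s) × V (Fin k → Fin s) =>
              def1 p T (blk q.1 q.2.1))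
        rw [e1, e2]
        apply av_mono
        intro q
        have h2 : 0 ≤ def2 p T (blk q.1 q.2.1) (blk q.1 q.2.2) := by
          unfold def2
          apply Finset.sum_nonneg
          intro i _
          apply add_nonneg
          · exact Real.rpow_nonneg (min_abs_nonneg _ _) _
          · exact Real.rpow_nonneg (min_abs_nonneg _ _) _
        linarith
      calc _ ≤ (16 : ℝ) ^ p * (δ * H) := mul_le_mul_of_nonneg_left h1 h16.le
        _ = (16 : ℝ) ^ p * δ * H := by ring
        _ ≤ _ := mul_le_mul_of_nonneg_right h16δ1 hHpos.le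
    -- mass of the good coordinates
    have hmass : 19 / 20 * H ≤ ∑ i, if good i then |T 0 i| ^ p else 0 := by
      have h1 : ∀ i, |T 0 i| ^ p - 1 / e * (∑ l, |T 0 i| ^ p * a1 l i + |T 0 i| ^ p * a2 i +
          |T 0 i| ^ p * a3 i) ≤ if good i then |T 0 i| ^ p else 0 := by
        intro i
        have m1 : ∀ l, 0 ≤ |T 0 i| ^ p * a1 l i := fun l => mul_nonneg (hA i) (n1 l i)
        have m1s : 0 ≤ ∑ l, |T 0 i| ^ p * a1 l i := Finset.sum_nonneg fun l _ => m1 l
        have m2 : 0 ≤ |T 0 i| ^ p * a2 i := mul_nonneg (hA i) (n2 i)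
        have m3' : 0 ≤ |T 0 i| ^ p * a3 i := mul_nonneg (hA i) (n3 i)
        have hie : 0 < 1 / e := by positivity
        split_ifs with h
        · have : 0 ≤ 1 / e * (∑ l, |T 0 i| ^ p * a1 l i + |T 0 i| ^ p * a2 i +
            |T 0 i| ^ p * a3 i) := by positivity
          linarith
        · by_cases h0 : T 0 i = 0
          · have hz : |T 0 i| ^ p = 0 := by
              rw [h0, abs_zero, Real.zero_rpow (by linarith)]
            rw [hz]
            simp
          · have hx : |T 0 i| ^ p * e ≤ ∑ l, |T 0 i| ^ p * a1 l i + |T 0 i| ^ p * a2 i +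
                |T 0 i| ^ p * a3 i := by
              have h' : ¬ ((∀ l, a1 l i ≤ e) ∧ a2 i ≤ e ∧ a3 i ≤ e) := fun h'' => h ⟨h0, h''⟩
              rw [not_and_or, not_and_or, not_forall] at h'
              rcases h' with ⟨l, hl⟩ | h' | h'
              · push Not at hl
                have h1 := mul_le_mul_of_nonneg_left hl.le (hA i)
                have h2 : |T 0 i| ^ p * a1 l i ≤ ∑ l, |T 0 i| ^ p * a1 l i :=
                  Finset.single_le_sum (f := fun l => |T 0 i| ^ p * a1 l i)
                    (fun l _ => m1 l) (Finset.mem_univ l)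
                linarith
              · push Not at h'
                have h1 := mul_le_mul_of_nonneg_left h'.le (hA i)
                linarith
              · push Not at h'
                have h1 := mul_le_mul_of_nonneg_left h'.le (hA i)
                linarith
            have hy := mul_le_mul_of_nonneg_left hx hie.le
            have hz : 1 / e * (|T 0 i| ^ p * e) = |T 0 i| ^ p := by field_simp
            rw [hz] at hy
            linarith
      have h2 := Finset.sum_le_sum fun i (_ : i ∈ (univ : Finset ι)) => h1 i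
      rw [Finset.sum_sub_distrib, ← Finset.mul_sum, Finset.sum_add_distrib,
        Finset.sum_add_distrib, Finset.sum_comm, ← hHdef] at h2
      have h3 : ∑ l, ∑ i, |T 0 i| ^ p * a1 l i ≤ k * (16 ^ p * δ * H) := by
        calc _ ≤ ∑ _l : Fin k, (16 ^ p * δ * H) := Finset.sum_le_sum fun l _ => hb1 l
          _ = _ := by rw [Finset.sum_const, Finset.card_univ, Fintype.card_fin, nsmul_eq_mul]
      have h4 : 1 / e * (∑ l, ∑ i, |T 0 i| ^ p * a1 l i + ∑ i, |T 0 i| ^ p * a2 i +
          ∑ i, |T 0 i| ^ p * a3 i) ≤ 1 / 20 * H := by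
        have h5 : ∑ l, ∑ i, |T 0 i| ^ p * a1 l i + ∑ i, |T 0 i| ^ p * a2 i +
          ∑ i, |T 0 i| ^ p * a3 i ≤ e * (1 / 20) * H := by
          calc _ ≤ ((k : ℝ) + 2) * (16 ^ p * δ) * H := by linarith
            _ ≤ _ := mul_le_mul_of_nonneg_right h16δ2 hHpos.le
        calc _ ≤ 1 / e * (e * (1 / 20) * H) :=
              mul_le_mul_of_nonneg_left h5 (by positivity)
          _ = _ := by field_simp
      linarith
    -- coordinatewise lower bound
    have hco : ∀ i, 7 / 8 * (if good i then |T 0 i| ^ p else 0) - 3 / 100 * |T 0 i| ^ p -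
          16 ^ p * av (fun q : Fr k s n × V (Fin k → Fin s) =>
            (min |(T 0 i + T (blk q.1 q.2) i) / 2| |(T 0 i - T (blk q.1 q.2) i) / 2|) ^ p) ≤
        c * av (fun q : Fr k s n × V (Fin k → Fin s) =>
          (if good i then |T 0 i| ^ (p - 1) * sh (T 0 i) / c else 0) *
            (w (blk q.1 q.2) (P i) * T (blk q.1 q.2) i)) := by
      intro i
      have hm0 : 0 ≤ av (fun q : Fr k s n × V (Fin k → Fin s) =>
            (min |(T 0 i + T (blk q.1 q.2) i) / 2| |(T 0 i - T (blk q.1 q.2) i) / 2|) ^ p) :=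
        av_nonneg fun q => Real.rpow_nonneg (min_abs_nonneg _ _) _
      by_cases h : good i
      · simp only [if_pos h]
        have h0 := h.1
        have hPi := hP i h
        have e1 : c * av (fun q : Fr k s n × V (Fin k → Fin s) =>
          (|T 0 i| ^ (p - 1) * sh (T 0 i) / c) *
            (w (blk q.1 q.2) (P i) * T (blk q.1 q.2) i)) =
            av (fun q : Fr k s n × V (Fin k → Fin s) =>
              |T 0 i| ^ (p - 1) * w (blk q.1 q.2) (P i) * (sh (T 0 i) * T (blk q.1 q.2) i)) := by
          rw [← av_mul_left]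
          congr 1
          funext q
          field_simp
        rw [e1]
        have e2 : 7 / 8 * |T 0 i| ^ p - 3 * |T 0 i| ^ p *
            av (fun q : Fr k s n × V (Fin k → Fin s) =>
              if ff (fun U => T U i) (blk q.1 q.2) = pr (blk q.1 q.2) (P i) then (0 : ℝ) else 1) -
            16 ^ p * av (fun q : Fr k s n × V (Fin k → Fin s) =>
            (min |(T 0 i + T (blk q.1 q.2) i) / 2| |(T 0 i - T (blk q.1 q.2) i) / 2|) ^ p) ≤
            av (fun q : Fr k s n × V (Fin k → Fin s) =>
              |T 0 i| ^ (p - 1) * w (blk q.1 q.2) (P i) * (sh (T 0 i) * T (blk q.1 q.2) i)) := by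
          have e3 : 7 / 8 * |T 0 i| ^ p - 3 * |T 0 i| ^ p *
            av (fun q : Fr k s n × V (Fin k → Fin s) =>
              if ff (fun U => T U i) (blk q.1 q.2) = pr (blk q.1 q.2) (P i) then (0 : ℝ) else 1) -
            16 ^ p * av (fun q : Fr k s n × V (Fin k → Fin s) =>
            (min |(T 0 i + T (blk q.1 q.2) i) / 2| |(T 0 i - T (blk q.1 q.2) i) / 2|) ^ p) =
            av (fun q : Fr k s n × V (Fin k → Fin s) => 7 / 8 * |T 0 i| ^ p -
              3 * |T 0 i| ^ p * (if ff (fun U => T U i) (blk q.1 q.2) =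
                pr (blk q.1 q.2) (P i) then (0 : ℝ) else 1) -
              16 ^ p * (min |(T 0 i + T (blk q.1 q.2) i) / 2|
                |(T 0 i - T (blk q.1 q.2) i) / 2|) ^ p) := by
            rw [av_sub, av_sub, av_const, av_mul_left, av_mul_left]
          rw [e3]
          apply av_mono
          intro q
          refine le_trans ?_ (term_lb hp h0 (sg_or (pr (blk q.1 q.2) (P i))))
          have e4 : (if rs (T 0 i) (T (blk q.1 q.2) i) = w (blk q.1 q.2) (P i) then (0 : ℝ)
              else 1) ≤ (if ff (fun U => T U i) (blk q.1 q.2) =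
                pr (blk q.1 q.2) (P i) then (0 : ℝ) else 1) := by
            by_cases h5 : ff (fun U => T U i) (blk q.1 q.2) = pr (blk q.1 q.2) (P i)
            · rw [if_pos h5, if_pos]
              unfold w
              rw [← h5, sg_ff]
            · rw [if_neg h5]
              split_ifs <;> norm_num
          have e5 := mul_le_mul_of_nonneg_left e4 (by positivity : (0 : ℝ) ≤ 3 * |T 0 i| ^ p)
          linarith
        refine le_trans ?_ e2
        have e6 := mul_le_mul_of_nonneg_left hPi (by positivity : (0 : ℝ) ≤ 3 * |T 0 i| ^ p)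
        linarith
      · simp only [if_neg h, zero_mul]
        have h1 : av (fun _ : Fr k s n × V (Fin k → Fin s) => (0 : ℝ)) = 0 := by
          unfold av; simp
        rw [h1]
        have := mul_nonneg h16.le hm0
        have := hA i
        linarith
    have hsum := Finset.sum_le_sum fun i (_ : i ∈ (univ : Finset ι)) => hco i
    rw [Finset.sum_sub_distrib, Finset.sum_sub_distrib, ← Finset.mul_sum, ← Finset.mul_sum,
      ← Finset.mul_sum, ← Finset.mul_sum, ← av_sum, ← av_sum, ← hHdef] at hsum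
    have hd : av (fun q : Fr k s n × V (Fin k → Fin s) => ∑ i,
            (min |(T 0 i + T (blk q.1 q.2) i) / 2| |(T 0 i - T (blk q.1 q.2) i) / 2|) ^ p) =
        av (fun q : Fr k s n × V (Fin k → Fin s) => def1 p T (blk q.1 q.2)) := rfl
    rw [hd] at hsum
    set R := av (fun q : Fr k s n × V (Fin k → Fin s) => ∑ i,
      (if good i then |T 0 i| ^ (p - 1) * sh (T 0 i) / c else 0) *
        (w (blk q.1 q.2) (P i) * T (blk q.1 q.2) i)) with hR
    have hfin : 1 / 4 * H ≤ c * R := by linarith
    have hcH : H ^ (1 / p) * c = H := by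
      rw [hc, ← Real.rpow_add hHpos]
      have : 1 / p + (p - 1) / p = 1 := by
        have : p ≠ 0 := by linarith
        field_simp
        ring
      rw [this, Real.rpow_one]
    have h7 : 1 / 4 * H ^ (1 / p) ≤ R := by
      have : 1 / 4 * (H ^ (1 / p) * c) ≤ c * R := by rw [hcH]; exact hfin
      have h8 : (1 / 4 * H ^ (1 / p)) * c ≤ R * c := by linarith
      exact le_of_mul_le_mul_right h8 hc0
    have h9 : H₀ ^ (1 / p) ≤ H ^ (1 / p) :=
      Real.rpow_le_rpow hH₀.le hH (by positivity)
    linarith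

end Vale.Agent.P249.TP
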