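import Vale.Agent.P249.TP.UniC

/-!
# P249 phase 2, block UNI: `specUni` (helper583)
-/

open Finset
open scoped BigOperators

namespace Vale.Agent.P249.TP.Uni

open Vale.Agent.P249.TP

set_option linter.unusedSectionVars false

variable {I : Type} [Fintype I] [DecidableEq I]

lemma ph_clk_ge {K : ℕ → V I → Prop} (hK : Graded K) {Q : Type} [Fintype Q] {s s' : Q → V I}
    {m : ℕ} (hs : ∀ q, K m (s q)) (hs' : ∀ q, K m (s' q)) {p : ℝ} (hp : 1 < p) (h2 : 2 ≤ p)
    {ι : Type} [Fintype ι] (T : V I → ι → ℝ) (R l : ℕ) :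
    Ph s s' R (l + 1) (f0 p T) + (p / 2 - 1) / 2 * Ph s s' R l (De p s s' T) ≤
      Ph s s' (R + 1) l (f0 p T) := by
  have h := ph_mono hK hs hs' (R := R) (l := l)
    (f := fun χ => 1 * Op (cA Q) (mA s s') (f0 p T) χ + (p / 2 - 1) / 2 * De p s s' T χ)
    (f' := Op (cM Q) (mM s s') (f0 p T))
    (fun χ _ => by have := int_ge hp h2 s s' T χ; linarith)
  rw [ph_lin, ← ph_succ_A, ← ph_succ_M, one_mul] at h
  exact h

lemma ph_clk_le {K : ℕ → V I → Prop} (hK : Graded K) {Q : Type} [Fintype Q] {s s' : Q → V I}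
    {m : ℕ} (hs : ∀ q, K m (s q)) (hs' : ∀ q, K m (s' q)) {p : ℝ} (hp : 1 < p) (h2 : p ≤ 2)
    {ι : Type} [Fintype ι] (T : V I → ι → ℝ) (R l : ℕ) :
    Ph s s' (R + 1) l (f0 p T) + (1 - p / 2) / 2 * Ph s s' R l (De p s s' T) ≤
      Ph s s' R (l + 1) (f0 p T) := by
  have h := ph_mono hK hs hs' (R := R) (l := l)
    (f := fun χ => 1 * Op (cM Q) (mM s s') (f0 p T) χ + (1 - p / 2) / 2 * De p s s' T χ)
    (f' := Op (cA Q) (mA s s') (f0 p T))
    (fun χ _ => by have := int_le hp h2 s s' T χ; linarith)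
  rw [ph_lin, ← ph_succ_A, ← ph_succ_M, one_mul] at h
  exact h

/-- telescoping, increasing form -/
lemma tele {L0 : ℕ} (hL0 : 1 ≤ L0) {c U : ℝ} (hc : 0 < c) {B G : ℕ → ℝ}
    (h0 : ∀ l ≤ L0, 0 ≤ B l) (hU : ∀ l ≤ L0, B l ≤ U)
    (h : ∀ l < L0, B l + c * G l ≤ B (l + 1)) : ∃ l < L0, G l ≤ U / (c * L0) := by
  have hL : (0 : ℝ) < L0 := by exact_mod_cast hL0
  have hsum : ∀ n ≤ L0, B 0 + c * ∑ l ∈ range n, G l ≤ B n := by
    intro n
    induction n with
    | zero => intro _; simp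
    | succ n ih =>
      intro hn
      have h1 := ih (by omega)
      have h2 := h n (by omega)
      rw [Finset.sum_range_succ]
      linarith
  by_contra hcon
  push Not at hcon
  have h1 : ∑ l ∈ range L0, (U / (c * L0)) < ∑ l ∈ range L0, G l := by
    refine Finset.sum_lt_sum_of_nonempty ?_ fun l hl => hcon l (Finset.mem_range.mp hl)
    rw [Finset.nonempty_range_iff]; omega
  rw [Finset.sum_const, Finset.card_range, nsmul_eq_mul] at h1
  have h2 : (L0 : ℝ) * (U / (c * L0)) = U / c := by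
    field_simp
  rw [h2, div_lt_iff₀ hc] at h1
  have h3 := hsum L0 le_rfl
  have h4 := h0 0 (Nat.zero_le _)
  have h5 := hU L0 le_rfl
  linarith

/-- telescoping, decreasing form -/
lemma tele' {L0 : ℕ} (hL0 : 1 ≤ L0) {c U : ℝ} (hc : 0 < c) {B G : ℕ → ℝ}
    (h0 : ∀ l ≤ L0, 0 ≤ B l) (hU : ∀ l ≤ L0, B l ≤ U)
    (h : ∀ l < L0, B (l + 1) + c * G l ≤ B l) : ∃ l < L0, G l ≤ U / (c * L0) := by
  have hL : (0 : ℝ) < L0 := by exact_mod_cast hL0
  have hsum : ∀ n ≤ L0, B n + c * ∑ l ∈ range n, G l ≤ B 0 := by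
    intro n
    induction n with
    | zero => intro _; simp
    | succ n ih =>
      intro hn
      have h1 := ih (by omega)
      have h2 := h n (by omega)
      rw [Finset.sum_range_succ]
      linarith
  by_contra hcon
  push Not at hcon
  have h1 : ∑ l ∈ range L0, (U / (c * L0)) < ∑ l ∈ range L0, G l := by
    refine Finset.sum_lt_sum_of_nonempty ?_ fun l hl => hcon l (Finset.mem_range.mp hl)
    rw [Finset.nonempty_range_iff]; omega
  rw [Finset.sum_const, Finset.card_range, nsmul_eq_mul] at h1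
  have h2 : (L0 : ℝ) * (U / (c * L0)) = U / c := by
    field_simp
  rw [h2, div_lt_iff₀ hc] at h1
  have h3 := hsum L0 le_rfl
  have h4 := h0 L0 le_rfl
  have h5 := hU 0 (Nat.zero_le _)
  linarith

/-- choice of the universe -/
lemma exists_universe {K : ℕ → V I → Prop} (hK : Graded K) {Q : Type} [Fintype Q] [Nonempty Q]
    {s s' : Q → V I} {m : ℕ} (hs : ∀ q, K m (s q)) (hs' : ∀ q, K m (s' q)) {p δ c1 : ℝ}
    (hδ : 0 < δ) (hc1 : 0 < c1) {ι : Type} [Fintype ι] (T : V I → ι → ℝ) {R l L0 : ℕ}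
    (hl : l ≤ L0) (hB : c1 ≤ Ph s s' R l (f0 p T))
    (hG : Ph s s' R l (De p s s' T) ≤ δ * c1 / 4) :
    ∃ χ : Co I, Adm (fun k => K (k * (2 * m))) (R + l) χ ∧
      c1 / 4 * (1 / 4) ^ L0 ≤ f0 p T χ ∧ De p s s' T χ ≤ δ * f0 p T χ := by
  set a : ℝ := c1 / 4 * (1 / 4) ^ L0 with ha
  have ha0 : 0 < a := by positivity
  set F : Co I → ℝ := fun χ => 1 * ((1 : ℝ) * f0 p T χ + (-a) * (1 : ℝ)) +
    (-(1 / δ)) * De p s s' T χ with hF
  have hPhF : Ph s s' R l F = 1 * (1 * Ph s s' R l (f0 p T) +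
      (-a) * Ph s s' R l (fun _ : Co I => (1 : ℝ))) +
      (-(1 / δ)) * Ph s s' R l (De p s s' T) := by
    rw [hF, ph_lin, ph_lin s s' R l 1 (-a) (f0 p T) (fun _ => 1)]
  have hpos : 0 < Ph s s' R l F := by
    rw [hPhF, ph_one]
    have h2 : a * 4 ^ l ≤ c1 / 4 := by
      have h5 : (4 : ℝ) ^ l ≤ 4 ^ L0 := pow_le_pow_right₀ (by norm_num) hl
      refine (mul_le_mul_of_nonneg_left h5 ha0.le).trans (le_of_eq ?_)
      rw [ha, mul_assoc, ← mul_pow]
      norm_num
    have h3 : 1 / δ * Ph s s' R l (De p s s' T) ≤ c1 / 4 := by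
      refine (mul_le_mul_of_nonneg_left hG (by positivity)).trans (le_of_eq ?_)
      field_simp
    linarith
  have hex : ∃ χ : Co I, Adm (fun k => K (k * (2 * m))) (R + l) χ ∧ 0 < F χ := by
    by_contra hcon
    push Not at hcon
    have h1 := ph_mono hK hs hs' (R := R) (l := l) (f := F) (f' := fun _ => 0) hcon
    have h2 := ph_smul s s' R l 0 F
    simp only [zero_mul] at h2
    linarith
  obtain ⟨χ, hχ, hχF⟩ := hex
  have h0 := De_nonneg p s s' T χ
  simp only [hF] at hχF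
  refine ⟨χ, hχ, ?_, ?_⟩
  · have h1 : 0 ≤ 1 / δ * De p s s' T χ := mul_nonneg (by positivity) h0
    linarith
  · have h1 : 1 / δ * De p s s' T χ < f0 p T χ := by linarith
    rw [one_div, inv_mul_lt_iff₀ hδ] at h1
    exact h1.le

end Vale.Agent.P249.TP.Uni

namespace Vale.Agent.P249.TP

open Vale.Agent.P249.TP.Uni

theorem specUni : SpecUni := by
  intro p D δ hp hp2 hD hδ
  have hp0 : 0 < p := by linarith
  obtain ⟨c, hc0, hcge, hcle⟩ : ∃ c : ℝ, 0 < c ∧ (2 ≤ p → c = (p / 2 - 1) / 2) ∧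
      (p ≤ 2 → c = (1 - p / 2) / 2) := by
    rcases lt_or_gt_of_ne hp2 with h | h
    · exact ⟨(1 - p / 2) / 2, by linarith, fun h' => by linarith, fun _ => rfl⟩
    · exact ⟨(p / 2 - 1) / 2, by linarith, fun _ => rfl, fun h' => by linarith⟩
  set U : ℝ := 2 ^ p * D ^ p with hU
  have hU1 : 1 ≤ U := by
    have h1 : 1 ≤ (2 : ℝ) ^ p := Real.one_le_rpow (by norm_num) hp0.le
    have h2 : 1 ≤ D ^ p := Real.one_le_rpow hD hp0.le
    exact one_le_mul_of_one_le_of_one_le h1 h2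
  set c1 : ℝ := (1 / 2) ^ p with hc1
  have hc1pos : 0 < c1 := by positivity
  -- number of levels
  set L0 : ℕ := ⌈4 * U / (c * (δ * c1))⌉₊ + 1 with hL0
  have hL1 : 1 ≤ L0 := by omega
  have hLpos : (0 : ℝ) < L0 := by exact_mod_cast hL1
  have hd3 : U / (c * L0) ≤ δ * c1 / 4 := by
    have h1 : 4 * U / (c * (δ * c1)) ≤ L0 := by
      have := Nat.le_ceil (4 * U / (c * (δ * c1)))
      rw [hL0]; push_cast; linarith
    rw [div_le_iff₀ (by positivity)] at h1
    rw [div_le_iff₀ (by positivity)]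
    linarith
  refine ⟨2 * L0, 4 ^ L0, c1 / 4 * (1 / 4) ^ L0, 1 / 4 ^ L0, one_le_pow₀ (by norm_num),
    by positivity, by positivity, ?_⟩
  intro I _ _ K hK Q _ _ s s' m hs hs'
  -- the family
  have hfam : ∃ fam : TestFam p (4 ^ L0) (K (2 * L0 * m)), ∀ (ι : Type) [Fintype ι]
      (τ : List (I × ZMod 2) → V I → ι → ℝ), L3 fam τ →
      (2 ≤ p → c1 ≤ Ph s s' 0 (L0 - 1) (f0 p (τ []))) ∧
      (p ≤ 2 → c1 ≤ Ph s s' (L0 - 1) 0 (f0 p (τ []))) := by
    have hle : (L0 - 1) * (2 * m) ≤ 2 * L0 * m := by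
      calc (L0 - 1) * (2 * m) ≤ L0 * (2 * m) := Nat.mul_le_mul_right _ (by omega)
        _ = 2 * L0 * m := by ring
    rcases lt_or_gt_of_ne hp2 with h | h
    · obtain ⟨fam, hf⟩ := exists_fam hK hs hs' (p := p) (Λ := 4 ^ L0) hp (R := L0 - 1) (l := 0)
        (n := 2 * L0 * m) (by simpa using hle) (pow_le_pow_right₀ (by norm_num) (by omega))
      exact ⟨fam, fun ι _ τ h3 => ⟨fun h' => by linarith, fun _ => hf ι τ h3⟩⟩
    · obtain ⟨fam, hf⟩ := exists_fam hK hs hs' (p := p) (Λ := 4 ^ L0) hp (R := 0) (l := L0 - 1)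
        (n := 2 * L0 * m) (by simpa using hle) (pow_le_pow_right₀ (by norm_num) (by omega))
      exact ⟨fam, fun ι _ τ h3 => ⟨fun _ => hf ι τ h3, fun h' => by linarith⟩⟩
  obtain ⟨fam, hfam⟩ := hfam
  refine ⟨fam, fun ε hε0 hεν m' ι _ τ hsys hL3 => ?_⟩
  obtain ⟨hfam1, hfam2⟩ := hfam ι τ hL3
  set T := τ [] with hT
  have hε1 : ∀ l ≤ L0, ε * 4 ^ l ≤ 1 := by
    intro l hl
    have h1 : (4 : ℝ) ^ l ≤ 4 ^ L0 := pow_le_pow_right₀ (by norm_num) hl
    have h2 : (0 : ℝ) < 4 ^ L0 := by positivity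
    calc ε * 4 ^ l ≤ 1 / 4 ^ L0 * 4 ^ L0 := mul_le_mul hεν h1 (by positivity) (by positivity)
      _ = 1 := by field_simp
  have hbd : ∀ R l, R + l ≤ L0 → 0 ≤ Ph s s' R l (f0 p T) ∧ Ph s s' R l (f0 p T) ≤ U := by
    intro R l hl
    refine ph_up hK hs hs' hp hD hε0 (n := 2 * L0 * m + m') ?_ (hε1 l (by omega)) hsys
    calc (R + l) * (2 * m) ≤ L0 * (2 * m) := Nat.mul_le_mul_right _ hl
      _ = 2 * L0 * m := by ring
      _ ≤ 2 * L0 * m + m' := Nat.le_add_right _ _
  have hmain : ∃ R l, R + l = L0 - 1 ∧ l ≤ L0 ∧ c1 ≤ Ph s s' R l (f0 p T) ∧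
      Ph s s' R l (De p s s' T) ≤ δ * c1 / 4 := by
    rcases lt_or_gt_of_ne hp2 with h | h
    · -- p < 2
      have hstep : ∀ R l, Ph s s' (R + 1) l (f0 p T) + c * Ph s s' R l (De p s s' T) ≤
          Ph s s' R (l + 1) (f0 p T) := by
        intro R l
        rw [hcle h.le]
        exact ph_clk_le hK hs hs' hp h.le T R l
      obtain ⟨l, hl, hGl⟩ := tele hL1 hc0 (U := U)
        (B := fun l => Ph s s' (L0 - l) l (f0 p T))
        (G := fun l => Ph s s' (L0 - 1 - l) l (De p s s' T))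
        (fun l hl => (hbd (L0 - l) l (by omega)).1) (fun l hl => (hbd (L0 - l) l (by omega)).2)
        (fun l hl => by
          have h1 := hstep (L0 - 1 - l) l
          have e1 : L0 - 1 - l + 1 = L0 - l := by omega
          have e2 : L0 - 1 - l = L0 - (l + 1) := by omega
          rw [e1] at h1
          rw [← e2]
          exact h1)
      refine ⟨L0 - 1 - l, l, by omega, hl.le, ?_, hGl.trans hd3⟩
      have hmon : ∀ l ≤ L0 - 1, c1 ≤ Ph s s' (L0 - 1 - l) l (f0 p T) := by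
        intro l
        induction l with
        | zero => intro _; simpa using hfam2 h.le
        | succ l ih =>
          intro hl
          have h1 := ih (by omega)
          have h2 := hstep (L0 - 1 - (l + 1)) l
          have e1 : L0 - 1 - (l + 1) + 1 = L0 - 1 - l := by omega
          rw [e1] at h2
          have h3 : 0 ≤ c * Ph s s' (L0 - 1 - (l + 1)) l (De p s s' T) :=
            mul_nonneg hc0.le (ph_nonneg hK hs hs' fun χ _ => De_nonneg p s s' T χ)
          linarith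
      exact hmon l (by omega)
    · -- p > 2
      have hstep : ∀ R l, Ph s s' R (l + 1) (f0 p T) + c * Ph s s' R l (De p s s' T) ≤
          Ph s s' (R + 1) l (f0 p T) := by
        intro R l
        rw [hcge h.le]
        exact ph_clk_ge hK hs hs' hp h.le T R l
      obtain ⟨l, hl, hGl⟩ := tele' hL1 hc0 (U := U)
        (B := fun l => Ph s s' (L0 - l) l (f0 p T))
        (G := fun l => Ph s s' (L0 - 1 - l) l (De p s s' T))
        (fun l hl => (hbd (L0 - l) l (by omega)).1) (fun l hl => (hbd (L0 - l) l (by omega)).2)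
        (fun l hl => by
          have h1 := hstep (L0 - 1 - l) l
          have e1 : L0 - 1 - l + 1 = L0 - l := by omega
          have e2 : L0 - 1 - l = L0 - (l + 1) := by omega
          rw [e1] at h1
          rw [← e2]
          exact h1)
      refine ⟨L0 - 1 - l, l, by omega, hl.le, ?_, hGl.trans hd3⟩
      have hmon : ∀ j, ∀ l, l + j = L0 - 1 → c1 ≤ Ph s s' (L0 - 1 - l) l (f0 p T) := by
        intro j
        induction j with
        | zero =>
          intro l hl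
          have e1 : l = L0 - 1 := by omega
          rw [e1]
          simpa using hfam1 h.le
        | succ j ih =>
          intro l hl
          have h1 := ih (l + 1) (by omega)
          have h2 := hstep (L0 - 1 - (l + 1)) l
          have e1 : L0 - 1 - (l + 1) + 1 = L0 - 1 - l := by omega
          rw [e1] at h2
          have h3 : 0 ≤ c * Ph s s' (L0 - 1 - (l + 1)) l (De p s s' T) :=
            mul_nonneg hc0.le (ph_nonneg hK hs hs' fun χ _ => De_nonneg p s s' T χ)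
          linarith
      exact hmon (L0 - 1 - l) l (by omega)
  obtain ⟨R, l, hRl, hlL, hBl, hGl⟩ := hmain
  obtain ⟨χ, hχ, hχ0, hχ1⟩ := exists_universe hK hs hs' (p := p) hδ hc1pos T hlL hBl hGl
  have h1 : ∑ i, |trans χ (τ []) 0 i| ^ p = f0 p T χ := by
    unfold f0
    exact Finset.sum_congr rfl fun i _ => by rw [trans_zero]
  refine ⟨fun P => trans χ (τ P), ?_, ?_, ?_⟩
  · refine sys_trans hK hp (by linarith) hε0 (a := (R + l) * (2 * m)) hsys hχ.supp hχ.l1 hχ.sup ?_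
    have : (R + l) * (2 * m) ≤ 2 * L0 * m := by
      rw [hRl]
      calc (L0 - 1) * (2 * m) ≤ L0 * (2 * m) := Nat.mul_le_mul_right _ (by omega)
        _ = 2 * L0 * m := by ring
    omega
  · rw [h1]
    exact hχ0
  · rw [h1]
    exact hχ1

end Vale.Agent.P249.TP
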