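import Vale.Agent.P249.TP.Core
import Vale.Agent.P249.TP.Final
import Vale.Agent.P249.TP.Lt892
import Vale.Agent.P249.TP.Blr
import Vale.Agent.P249.TP.Lin
import Vale.Agent.P249.TP.Uni
import Vale.Agent.P249.TP.Start
import Vale.Agent.P249.TP.Block
import Vale.Agent.P249.TP.Abs
import Vale.Agent.P249.TP.KeyGt
import Vale.Agent.P249.TP.KeyLt
import Vale.Agent.P249.TP.Grade

/-!
# P249, phase 2: assembly
-/

namespace Vale.Agent.P249.TP

theorem specLt : SpecLt := specLt_of' specBlr (specMlt_of specBlr)

theorem specCore : SpecCore :=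
  core specLin specUni (specStart_of specLt) (specBlock_of specAbs specKeyGt specKeyLt)
    specGrade specCount

theorem specFinal : SpecFinal := specFinal_of specCore

end Vale.Agent.P249.TP
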