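import Vale.Agent.P249.TP.Basic

/-!
# P249, phase 2: the path from the root to the points (helper557)
-/

open Finset
open scoped BigOperators

namespace Vale.Agent.P249.TP

section norms

variable {ι : Type} [Fintype ι]

lemma nT_nonneg (p : ℝ) (v : ι → ℝ) : 0 ≤ nT p v :=
  Real.rpow_nonneg (Finset.sum_nonneg fun _ _ => Real.rpow_nonneg (abs_nonneg _) _) _

/-- a coordinate is bounded by the norm -/
lemma abs_le_nT {p : ℝ} (hp : 0 < p) (v : ι → ℝ) (i : ι) : |v i| ≤ nT p v := by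
  unfold nT
  have h1 : |v i| ^ p ≤ ∑ j, |v j| ^ p :=
    Finset.single_le_sum (f := fun j => |v j| ^ p)
      (fun j _ => Real.rpow_nonneg (abs_nonneg _) _) (Finset.mem_univ i)
  calc |v i| = (|v i| ^ p) ^ (1 / p) := by
        rw [← Real.rpow_mul (abs_nonneg _), mul_one_div_cancel hp.ne', Real.rpow_one]
    _ ≤ _ := Real.rpow_le_rpow (Real.rpow_nonneg (abs_nonneg _) _) h1 (by positivity)

/-- a functional of norm at most one has entries at most one -/
lemma abs_psi_le_one {q : ℝ} (hq : 0 < q) {ψ : ι → ℝ} (h : ∑ i, |ψ i| ^ q ≤ 1) (i : ι) :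
    |ψ i| ≤ 1 := by
  have h1 : |ψ i| ^ q ≤ ∑ j, |ψ j| ^ q :=
    Finset.single_le_sum (f := fun j => |ψ j| ^ q)
      (fun j _ => Real.rpow_nonneg (abs_nonneg _) _) (Finset.mem_univ i)
  by_contra hc
  push Not at hc
  have h2 : 1 < |ψ i| ^ q := Real.one_lt_rpow hc hq
  linarith

/-- Hölder: the `ℓ_1` norm of a functional of `ℓ_{p'}` norm at most one -/
lemma sum_abs_psi_le {p : ℝ} (hp : 1 < p) {ψ : ι → ℝ} (h : ∑ i, |ψ i| ^ (p / (p - 1)) ≤ 1) :
    ∑ i, |ψ i| ≤ (Fintype.card ι : ℝ) ^ (1 / p) := by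
  have hpq : (p / (p - 1)).HolderConjugate p :=
    (Real.HolderConjugate.conjExponent hp).symm
  have h1 := Real.inner_le_Lp_mul_Lq univ (fun i => |ψ i|) (fun _ : ι => (1 : ℝ)) hpq
  simp only [mul_one, abs_abs, abs_one, Real.one_rpow, Finset.sum_const, Finset.card_univ,
    nsmul_eq_mul] at h1
  refine h1.trans ?_
  have h2 : (∑ i, |ψ i| ^ (p / (p - 1))) ^ (1 / (p / (p - 1))) ≤ 1 := by
    apply Real.rpow_le_one
    · exact Finset.sum_nonneg fun i _ => Real.rpow_nonneg (abs_nonneg _) _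
    · exact h
    · have := hpq.pos
      positivity
  have h3 : 0 ≤ (Fintype.card ι : ℝ) ^ (1 / p) := by positivity
  nlinarith

end norms

section path

variable {I : Type}

lemma pre_append (C : List I) (i : I) (y : V I) : pre (C ++ [i]) y = pre C y ++ [(i, y i)] := by
  simp [pre]

@[simp] lemma pre_nil (y : V I) : pre ([] : List I) y = [] := rfl

@[simp] lemma length_pre (C : List I) (y : V I) : (pre C y).length = C.length := by simp [pre]

variable [Fintype I]

lemma gg_nil {ι : Type} [Fintype ι] (τ : List (I × ZMod 2) → V I → ι → ℝ) (ψ : ι → ℝ)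
    (P : ι → V I) (ξ : V I) : gg τ ψ P [] ξ = ∑ i, ψ i * (w ξ (P i) * τ [] ξ i) := rfl

variable [DecidableEq I]

/-- one step of the path -/
lemma gg_step {p D ε : ℝ} (hp : 1 < p) {K : V I → Prop} {ι : Type} [Fintype ι]
    {τ : List (I × ZMod 2) → V I → ι → ℝ} (h : Sys p D ε K τ) {ψ : ι → ℝ} {P : ι → V I}
    (hψ : ∑ i, |ψ i| ^ (p / (p - 1)) ≤ 1) {C : List I} (hC : C.length < Fintype.card I)
    (i : I) {ξ : V I} (h1 : K ξ) (h2 : K (ξ + Pi.single i 1)) :
    |gg τ ψ P (C ++ [i]) ξ - (1 / 2) * (gg τ ψ P C ξ + gg τ ψ P C (ξ + Pi.single i 1))| ≤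
      ε * Fintype.card ι := by
  have hq : 0 < p / (p - 1) := div_pos (by linarith) (by linarith)
  have e1 : gg τ ψ P (C ++ [i]) ξ -
      (1 / 2) * (gg τ ψ P C ξ + gg τ ψ P C (ξ + Pi.single i 1)) =
      ∑ j, ψ j * (w ξ (P j) * (τ (pre C (P j) ++ [(i, P j i)]) ξ -
        (1 / 2 : ℝ) • (τ (pre C (P j)) ξ + sg (P j i) • τ (pre C (P j)) (ξ + Pi.single i 1))) j) := by
    unfold gg
    rw [← Finset.sum_add_distrib, Finset.mul_sum, ← Finset.sum_sub_distrib]
    refine Finset.sum_congr rfl fun j _ => ?_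
    rw [pre_append, w_add, w_single]
    simp only [Pi.sub_apply, Pi.smul_apply, Pi.add_apply, smul_eq_mul]
    ring
  rw [e1]
  refine (Finset.abs_sum_le_sum_abs _ _).trans ?_
  calc ∑ j, |ψ j * (w ξ (P j) * (τ (pre C (P j) ++ [(i, P j i)]) ξ -
        (1 / 2 : ℝ) • (τ (pre C (P j)) ξ + sg (P j i) • τ (pre C (P j)) (ξ + Pi.single i 1))) j)|
      ≤ ∑ _j : ι, ε := by
        refine Finset.sum_le_sum fun j _ => ?_
        rw [abs_mul, abs_mul, abs_w, one_mul]
        have a1 := abs_psi_le_one hq hψ j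
        have a2 := abs_le_nT (by linarith : 0 < p) (τ (pre C (P j) ++ [(i, P j i)]) ξ -
          (1 / 2 : ℝ) • (τ (pre C (P j)) ξ + sg (P j i) • τ (pre C (P j)) (ξ + Pi.single i 1))) j
        have a3 := h.L2 (pre C (P j)) (by simpa using hC) i (P j i) ξ h1 h2
        exact (mul_le_of_le_one_left (abs_nonneg _) a1).trans (a2.trans a3)
    _ = ε * Fintype.card ι := by
        rw [Finset.sum_const, Finset.card_univ, nsmul_eq_mul, mul_comm]

/-- a prefix containing all coordinates is a point -/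
lemma ind_pre_full {C : List I} (hC : ∀ i, i ∈ C) (x y : V I) :
    ind (pre C x) y = if y = x then 1 else 0 := by
  unfold ind
  have : (∀ c ∈ pre C x, y c.1 = c.2) ↔ y = x := by
    constructor
    · intro h
      funext i
      exact h (i, x i) (by simp only [pre, List.mem_map]; exact ⟨i, hC i, rfl⟩)
    · rintro rfl c hc
      simp only [pre, List.mem_map] at hc
      obtain ⟨i, _, rfl⟩ := hc
      rfl
  simp only [this]

/-- the end of the path -/
lemma gg_end {p D ε : ℝ} (hp : 1 < p) {K : V I → Prop} {ι : Type} [Fintype ι]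
    {τ : List (I × ZMod 2) → V I → ι → ℝ} (h : Sys p D ε K τ) {ψ : ι → ℝ} {P : ι → V I}
    (hψ : ∑ i, |ψ i| ^ (p / (p - 1)) ≤ 1) {C : List I} (hC : ∀ i, i ∈ C)
    (hlen : C.length ≤ Fintype.card I) {ξ : V I} (hξ : K ξ) :
    |gg τ ψ P C ξ| ≤ (Fintype.card ι : ℝ) ^ (1 / p) *
      (D * (2 : ℝ) ^ (-(Fintype.card I : ℝ) / p) + ε) := by
  have hp0 : 0 < p := by linarith
  have key : ∀ j, |τ (pre C (P j)) ξ j| ≤ D * (2 : ℝ) ^ (-(Fintype.card I : ℝ) / p) + ε := by
    intro j
    refine (abs_le_nT hp0 _ j).trans ?_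
    have h1 := h.L1 (pre C (P j)) (by simpa using hlen) (Pi.single ξ 1) (by
      intro S hS
      rw [Pi.single_eq_of_ne]
      rintro rfl
      exact hS hξ)
    have e1 : ∑ S, (Pi.single ξ 1 : V I → ℝ) S • τ (pre C (P j)) S = τ (pre C (P j)) ξ := by
      rw [Finset.sum_eq_single ξ]
      · simp
      · intro S _ hS
        rw [Pi.single_eq_of_ne hS, zero_smul]
      · intro hh; exact absurd (Finset.mem_univ _) hh
    have e2 : ∑ S, |(Pi.single ξ 1 : V I → ℝ) S| = 1 := by
      rw [Finset.sum_eq_single ξ]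
      · simp
      · intro S _ hS
        rw [Pi.single_eq_of_ne hS, abs_zero]
      · intro hh; exact absurd (Finset.mem_univ _) hh
    have e3 : nE p (fun y => ind (pre C (P j)) y * poly (Pi.single ξ 1) y) =
        (2 : ℝ) ^ (-(Fintype.card I : ℝ) / p) := by
      have e4 : ∀ y, |ind (pre C (P j)) y * poly (Pi.single ξ 1) y| ^ p =
          if y = P j then (1 : ℝ) else 0 := by
        intro y
        have e5 : poly (Pi.single ξ 1) y = w ξ y := by
          unfold poly
          rw [Finset.sum_eq_single ξ]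
          · simp
          · intro S _ hS
            rw [Pi.single_eq_of_ne hS, zero_mul]
          · intro hh; exact absurd (Finset.mem_univ _) hh
        rw [e5, ind_pre_full hC, abs_mul, abs_w, mul_one]
        split_ifs
        · simp
        · rw [abs_zero, Real.zero_rpow hp0.ne']
      unfold nE
      simp only [e4]
      rw [Finset.sum_ite_eq' univ (P j), if_pos (Finset.mem_univ _), card_V_real,
        ← Real.rpow_natCast, one_div, ← Real.rpow_neg (by norm_num),
        ← Real.rpow_mul (by norm_num)]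
      congr 1
      ring
    rw [e1, e2, e3, mul_one] at h1
    exact h1
  have h0 : 0 ≤ D * (2 : ℝ) ^ (-(Fintype.card I : ℝ) / p) + ε ∨ IsEmpty ι := by
    rcases isEmpty_or_nonempty ι with hι | ⟨⟨j⟩⟩
    · exact Or.inr hι
    · exact Or.inl ((abs_nonneg _).trans (key j))
  rcases h0 with h0 | hι
  · unfold gg
    refine (Finset.abs_sum_le_sum_abs _ _).trans ?_
    calc ∑ j, |ψ j * (w ξ (P j) * τ (pre C (P j)) ξ j)|
        ≤ ∑ j, |ψ j| * (D * (2 : ℝ) ^ (-(Fintype.card I : ℝ) / p) + ε) := by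
          refine Finset.sum_le_sum fun j _ => ?_
          rw [abs_mul, abs_mul, abs_w, one_mul]
          exact mul_le_mul_of_nonneg_left (key j) (abs_nonneg _)
      _ = (∑ j, |ψ j|) * (D * (2 : ℝ) ^ (-(Fintype.card I : ℝ) / p) + ε) := by
          rw [Finset.sum_mul]
      _ ≤ _ := mul_le_mul_of_nonneg_right (sum_abs_psi_le hp hψ) h0
  · unfold gg
    have h0 : (Fintype.card ι : ℝ) = 0 := by simp
    rw [h0, Real.zero_rpow (by positivity), zero_mul]
    simp

end path

/-! ### the path for averages over random blocks -/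

section blocks

variable {k s n : ℕ}

instance : Nonempty (Fr k s n × V (Fin k → Fin s)) := ⟨(0, 0)⟩

/-- average over random blocks -/
noncomputable def uu {ι : Type} [Fintype ι]
    (τ : List ((Fin k → Fin n) × ZMod 2) → V (Fin k → Fin n) → ι → ℝ) (ψ : ι → ℝ)
    (P : ι → V (Fin k → Fin n)) (s : ℕ) (C : List (Fin k → Fin n)) : ℝ :=
  av fun q : Fr k s n × V (Fin k → Fin s) => gg τ ψ P C (blk q.1 q.2)

lemma uu_step {p D ε E : ℝ} (hp : 1 < p) (hG : Graded (InK k n)) {r : ℕ}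
    (hr : s + 1 ≤ r) {ι : Type} [Fintype ι]
    {τ : List ((Fin k → Fin n) × ZMod 2) → V (Fin k → Fin n) → ι → ℝ}
    (h : Sys p D ε (InK k n r) τ) {ψ : ι → ℝ} {P : ι → V (Fin k → Fin n)}
    (hψ : ∑ i, |ψ i| ^ (p / (p - 1)) ≤ 1) {C : List (Fin k → Fin n)} (hC : C.length < n ^ k)
    (hE : ∀ x : Fin k → V (Fin n), |av (fun q : Fr k s n × V (Fin k → Fin s) =>
        gg τ ψ P C (blk q.1 q.2 + tens x) - gg τ ψ P C (blk q.1 q.2))| ≤ E)
    (i : Fin k → Fin n) :
    |uu τ ψ P s (C ++ [i]) - uu τ ψ P s C| ≤ E + ε * Fintype.card ι := by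
  have hε : 0 ≤ ε * Fintype.card ι := by
    have := gg_step hp h (P := P) hψ (C := C) (by rw [card_index]; exact hC) i (ξ := 0)
      (hG.mono 0 r 0 (Nat.zero_le _) hG.zero)
      (by rw [zero_add]; exact hG.mono 1 r _ (by omega) (hG.single i))
    exact (abs_nonneg _).trans this
  have h1 : ∀ q : Fr k s n × V (Fin k → Fin s),
      |gg τ ψ P (C ++ [i]) (blk q.1 q.2) - (1 / 2) * (gg τ ψ P C (blk q.1 q.2) +
        gg τ ψ P C (blk q.1 q.2 + Pi.single i 1))| ≤ ε * Fintype.card ι := by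
    intro q
    refine gg_step hp h hψ (by rw [card_index]; exact hC) i
      (hG.mono s r _ (by omega) (inK_blk q.1 q.2)) ?_
    exact hG.mono (s + 1) r _ hr (hG.add s 1 _ _ (inK_blk q.1 q.2) (hG.single i))
  have h2 := hE fun l => Pi.single (i l) 1
  rw [← single_eq_tens] at h2
  have h3 : |av (fun q : Fr k s n × V (Fin k → Fin s) =>
      gg τ ψ P (C ++ [i]) (blk q.1 q.2) - (1 / 2) * (gg τ ψ P C (blk q.1 q.2) +
        gg τ ψ P C (blk q.1 q.2 + Pi.single i 1)))| ≤ ε * Fintype.card ι :=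
    abs_av_le_of_le h1
  have e1 : uu τ ψ P s (C ++ [i]) - uu τ ψ P s C =
      av (fun q : Fr k s n × V (Fin k → Fin s) =>
      gg τ ψ P (C ++ [i]) (blk q.1 q.2) - (1 / 2) * (gg τ ψ P C (blk q.1 q.2) +
        gg τ ψ P C (blk q.1 q.2 + Pi.single i 1))) +
      (1 / 2) * av (fun q : Fr k s n × V (Fin k → Fin s) =>
        gg τ ψ P C (blk q.1 q.2 + Pi.single i 1) - gg τ ψ P C (blk q.1 q.2)) := by
    unfold uu
    rw [← av_sub, ← av_mul_left, ← av_add]
    exact av_congr fun q => by ring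
  rw [e1]
  have hE0 : 0 ≤ E := (abs_nonneg _).trans h2
  refine (abs_add_le _ _).trans ?_
  rw [abs_mul, abs_of_pos (by norm_num : (0 : ℝ) < 1 / 2)]
  linarith

lemma uu_path {p D ε E : ℝ} (hp : 1 < p) (hG : Graded (InK k n)) {r : ℕ}
    (hr : s + 1 ≤ r) {ι : Type} [Fintype ι]
    {τ : List ((Fin k → Fin n) × ZMod 2) → V (Fin k → Fin n) → ι → ℝ}
    (h : Sys p D ε (InK k n r) τ) {ψ : ι → ℝ} {P : ι → V (Fin k → Fin n)}
    (hψ : ∑ i, |ψ i| ^ (p / (p - 1)) ≤ 1)
    (hE : ∀ C : List (Fin k → Fin n), C.length ≤ n ^ k → ∀ x : Fin k → V (Fin n),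
      |av (fun q : Fr k s n × V (Fin k → Fin s) =>
        gg τ ψ P C (blk q.1 q.2 + tens x) - gg τ ψ P C (blk q.1 q.2))| ≤ E)
    (C : List (Fin k → Fin n)) : C.length ≤ n ^ k →
    |uu τ ψ P s C - uu τ ψ P s []| ≤ C.length * (E + ε * Fintype.card ι) := by
  induction C using List.reverseRecOn with
  | nil => intro _; simp
  | append_singleton C i ih =>
    intro hC
    rw [List.length_append, List.length_singleton] at hC ⊢
    have h1 := ih (by omega)
    have h2 := uu_step hp hG hr h hψ (C := C) (by omega) (hE C (by omega)) i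
    push_cast
    have h3 : uu τ ψ P s (C ++ [i]) - uu τ ψ P s [] =
        (uu τ ψ P s (C ++ [i]) - uu τ ψ P s C) + (uu τ ψ P s C - uu τ ψ P s []) := by ring
    rw [h3]
    refine (abs_add_le _ _).trans ?_
    nlinarith

/-- the whole path -/
theorem uu_total {p D ε E : ℝ} (hp : 1 < p) (hG : Graded (InK k n)) {r : ℕ}
    (hr : s + 1 ≤ r) {ι : Type} [Fintype ι]
    {τ : List ((Fin k → Fin n) × ZMod 2) → V (Fin k → Fin n) → ι → ℝ}
    (h : Sys p D ε (InK k n r) τ) {ψ : ι → ℝ} {P : ι → V (Fin k → Fin n)}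
    (hψ : ∑ i, |ψ i| ^ (p / (p - 1)) ≤ 1)
    (hE : ∀ C : List (Fin k → Fin n), C.length ≤ n ^ k → ∀ x : Fin k → V (Fin n),
      |av (fun q : Fr k s n × V (Fin k → Fin s) =>
        gg τ ψ P C (blk q.1 q.2 + tens x) - gg τ ψ P C (blk q.1 q.2))| ≤ E) :
    |uu τ ψ P s []| ≤ (n : ℝ) ^ k * (E + ε * Fintype.card ι) +
      (Fintype.card ι : ℝ) ^ (1 / p) * (D * (2 : ℝ) ^ (-((n : ℝ) ^ k) / p) + ε) := by
  set C : List (Fin k → Fin n) := (univ : Finset (Fin k → Fin n)).toList with hC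
  have hmem : ∀ i, i ∈ C := fun i => by rw [hC, Finset.mem_toList]; exact Finset.mem_univ i
  have hlen : C.length = n ^ k := by
    rw [hC, Finset.length_toList, Finset.card_univ, card_index]
  have h1 := uu_path hp hG hr h hψ hE C hlen.le
  have h2 : |uu τ ψ P s C| ≤ (Fintype.card ι : ℝ) ^ (1 / p) *
      (D * (2 : ℝ) ^ (-((n : ℝ) ^ k) / p) + ε) := by
    refine abs_av_le_of_le fun q => ?_
    have := gg_end hp h (P := P) hψ hmem (by rw [hlen, card_index]) (ξ := blk q.1 q.2)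
      (hG.mono s r _ (by omega) (inK_blk q.1 q.2))
    rw [card_index] at this
    push_cast at this
    exact this
  rw [hlen] at h1
  push_cast at h1
  have h3 : uu τ ψ P s [] = uu τ ψ P s C - (uu τ ψ P s C - uu τ ψ P s []) := by ring
  rw [h3]
  refine (abs_sub _ _).trans ?_
  linarith

end blocks

end Vale.Agent.P249.TP
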