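import Mathlib

/-!
# P249, phase 2: `d_p(n, D)` grows faster than `exp ((log log n) ^ A)` for every `A`, `p ≠ 2`
Frozen definitions and statements (captain helper557).  Each `SpecXxx : Prop` below is to be proved
as `theorem specXxx : SpecXxx` in the file named in its doc string.  The proofs are sketched in
`Vale/Agent/P249/TP/PROOF.md`.
-/

open Finset
open scoped BigOperators

namespace Vale.Agent.P249.TP

/-- vectors over `F_2` -/
abbrev V (I : Type) := I → ZMod 2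

/-- the sign of an element of `F_2` -/
def sg (x : ZMod 2) : ℝ := if x = 0 then 1 else -1

/-- the pairing of `F_2^I` with itself -/
def pr {I : Type} [Fintype I] (S y : V I) : ZMod 2 := ∑ i, S i * y i

/-- Walsh function -/
noncomputable def w {I : Type} [Fintype I] (S y : V I) : ℝ := sg (pr S y)

/-- average over a finite type -/
noncomputable def av {Ω : Type} [Fintype Ω] (f : Ω → ℝ) : ℝ := (∑ x, f x) / Fintype.card Ω

/-- `L_p`-norm for the uniform probability -/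
noncomputable def nE (p : ℝ) {Ω : Type} [Fintype Ω] (f : Ω → ℝ) : ℝ :=
  ((∑ y, |f y| ^ p) / Fintype.card Ω) ^ (1 / p)

/-- norm of `ℓ_p^ι` -/
noncomputable def nT (p : ℝ) {ι : Type} [Fintype ι] (v : ι → ℝ) : ℝ := (∑ i, |v i| ^ p) ^ (1 / p)

section basic

variable {I : Type} [Fintype I] [DecidableEq I]

/-- Walsh polynomial with coefficients `b` -/
noncomputable def poly (b : V I → ℝ) (y : V I) : ℝ := ∑ S, b S * w S y

/-- indicator of the subcube given by the prefix `P` (a list of (coordinate, value)) -/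
noncomputable def ind (P : List (I × ZMod 2)) (y : V I) : ℝ :=
  if ∀ c ∈ P, y c.1 = c.2 then 1 else 0

/-- the linearised system on the frequencies satisfying `K`: `τ P S` = image of `1_P w_S` -/
structure Sys (p D ε : ℝ) (K : V I → Prop) {ι : Type} [Fintype ι]
    (τ : List (I × ZMod 2) → V I → ι → ℝ) : Prop where
  L1 : ∀ P : List (I × ZMod 2), P.length ≤ Fintype.card I → ∀ b : V I → ℝ,
    (∀ S, ¬ K S → b S = 0) →
    nT p (∑ S, b S • τ P S) ≤ D * nE p (fun y => ind P y * poly b y) + ε * ∑ S, |b S|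
  L2 : ∀ P : List (I × ZMod 2), P.length < Fintype.card I → ∀ (i : I) (β : ZMod 2) (S : V I),
    K S → K (S + Pi.single i 1) →
    nT p (τ (P ++ [(i, β)]) S - (1 / 2 : ℝ) • (τ P S + sg β • τ P (S + Pi.single i 1))) ≤ ε

/-- a weighted finite family of integer polynomials, on which the lower bound (L3) is required -/
structure TestFam (p Λ : ℝ) (K : V I → Prop) where
  T : Type
  [ft : Fintype T]
  π : T → ℝ
  b : T → V I → ℤ
  π_nonneg : ∀ t, 0 ≤ π t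
  supp : ∀ t S, ¬ K S → b t S = 0
  l1 : ∀ t, ∑ S, |(b t S : ℝ)| ≤ Λ
  mass : ∑ t, π t ≤ Λ * ∑ t, π t * nE p (poly fun S => (b t S : ℝ)) ^ p

/-- (L3) -/
def L3 {p Λ : ℝ} {K : V I → Prop} (fam : TestFam p Λ K) {ι : Type} [Fintype ι]
    (τ : List (I × ZMod 2) → V I → ι → ℝ) : Prop :=
  letI := fam.ft
  (1 / 2) ^ p * ∑ t, fam.π t * nE p (poly fun S => (fam.b t S : ℝ)) ^ p ≤
    ∑ t, fam.π t * nT p (∑ S, (fam.b t S : ℝ) • τ [] S) ^ p

/-- `F` (arbitrary, nonlinear) has distortion at most `D` on `X` -/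
def BiLip (p D : ℝ) {ι : Type} [Fintype ι] (X : Finset (V I → ℝ))
    (F : (V I → ℝ) → ι → ℝ) : Prop :=
  ∀ x ∈ X, ∀ y ∈ X, nE p (x - y) ≤ nT p (F x - F y) ∧ nT p (F x - F y) ≤ D * nE p (x - y)

/-- first defect -/
noncomputable def def1 (p : ℝ) {ι : Type} [Fintype ι] (T : V I → ι → ℝ) (S : V I) : ℝ :=
  ∑ i, (min |(T 0 i + T S i) / 2| |(T 0 i - T S i) / 2|) ^ p

/-- second defect -/
noncomputable def def2 (p : ℝ) {ι : Type} [Fintype ι] (T : V I → ι → ℝ) (S S' : V I) : ℝ :=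
  ∑ i, ((min |(T 0 i + T S i + T S' i + T (S + S') i) / 4|
      |(T 0 i + T S i - T S' i - T (S + S') i) / 4|) ^ p +
    (min |(T 0 i - T S i + T S' i - T (S + S') i) / 4|
      |(T 0 i - T S i - T S' i + T (S + S') i) / 4|) ^ p)

/-- a graded family of frequencies -/
structure Graded (K : ℕ → V I → Prop) : Prop where
  zero : K 0 0
  mono : ∀ a b S, a ≤ b → K a S → K b S
  add : ∀ a b S S', K a S → K b S' → K (a + b) (S + S')
  single : ∀ i, K 1 (Pi.single i 1)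

/-- prefix of the point `y` along the list of coordinates `C` -/
def pre (C : List I) (y : V I) : List (I × ZMod 2) := C.map fun i => (i, y i)

/-- the located functional `g_C(ξ) = ∑ ψ_i w_ξ(P_i) T_{pre C P_i}(w_ξ)(i)` -/
noncomputable def gg {ι : Type} [Fintype ι] (τ : List (I × ZMod 2) → V I → ι → ℝ) (ψ : ι → ℝ)
    (P : ι → V I) (C : List I) (ξ : V I) : ℝ :=
  ∑ i, ψ i * (w ξ (P i) * τ (pre C (P i)) ξ i)

/-- Fourier transform -/
noncomputable def hat {M : Type} [Fintype M] [DecidableEq M] (ω : V M → ℝ) (z : V M) : ℝ :=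
  ∑ ζ, ω ζ * w z ζ

end basic

/-! ### Tensors -/

/-- rank one tensor -/
def tens {k n : ℕ} (x : Fin k → V (Fin n)) : V (Fin k → Fin n) := fun i => ∏ l, x l (i l)

/-- the tensor with coefficients `c` in the frame `A` -/
def blk {k s n : ℕ} (A : Fin k → Fin s → V (Fin n)) (c : V (Fin k → Fin s)) :
    V (Fin k → Fin n) := ∑ j, c j • tens (fun l => A l (j l))

/-- tensors of Tucker rank at most `r` -/
def InK (k n r : ℕ) (S : V (Fin k → Fin n)) : Prop :=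
  ∃ (A : Fin k → Fin r → V (Fin n)) (c : V (Fin k → Fin r)), S = blk A c

/-- frames -/
abbrev Fr (k s n : ℕ) := Fin k → Fin s → V (Fin n)

/-! ### Statements -/

/-- **LIN** (linearisation).  File `Lin.lean` (adaptation of `SP/Lin.lean`, `SP/LinAux.lean`). -/
def SpecLin : Prop := ∀ p D Λ : ℝ, 1 < p → 1 ≤ D → 1 ≤ Λ → ∃ C : ℝ, 0 < C ∧
  ∀ (I : Type) [Fintype I] [DecidableEq I] (K : V I → Prop), K 0 → ∀ (ε : ℝ), 0 < ε → ε ≤ 1 →
    ∀ fam : TestFam p Λ K, ∃ X : Finset (V I → ℝ),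
      Real.log X.card ≤ C * (Nat.card {S : V I // K S} : ℝ) ^ 4 *
        ((Fintype.card I : ℝ) + 1) ^ 2 * (1 + Real.log (1 / ε)) ∧
      ∀ (ι : Type) [Fintype ι] (F : (V I → ℝ) → ι → ℝ), BiLip p D X F →
        ∃ τ : List (I × ZMod 2) → V I → ι → ℝ, Sys p D ε K τ ∧ L3 fam τ

/-- **UNI** (choice of the universe).  Files `Uni*.lean`. -/
def SpecUni : Prop := ∀ p D δ : ℝ, 1 < p → p ≠ 2 → 1 ≤ D → 0 < δ →
  ∃ (L : ℕ) (Λ H₀ ν : ℝ), 1 ≤ Λ ∧ 0 < H₀ ∧ 0 < ν ∧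
    ∀ (I : Type) [Fintype I] [DecidableEq I] (K : ℕ → V I → Prop), Graded K →
      ∀ (Q : Type) [Fintype Q] [Nonempty Q] (s s' : Q → V I) (m : ℕ),
      (∀ q, K m (s q)) → (∀ q, K m (s' q)) →
      ∃ fam : TestFam p Λ (K (L * m)), ∀ ε : ℝ, 0 ≤ ε → ε ≤ ν →
        ∀ (m' : ℕ) (ι : Type) [Fintype ι] (τ : List (I × ZMod 2) → V I → ι → ℝ),
          Sys p D ε (K (L * m + m')) τ → L3 fam τ →
          ∃ τ' : List (I × ZMod 2) → V I → ι → ℝ, Sys p D ε (K m') τ' ∧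
            H₀ ≤ ∑ i, |τ' [] 0 i| ^ p ∧
            av (fun q => def1 p (τ' []) (s q) + def2 p (τ' []) (s q) (s' q)) ≤
              δ * ∑ i, |τ' [] 0 i| ^ p

/-- **BLR** (linearity testing with values in an abelian group).  File `Blr.lean`. -/
def SpecBlr : Prop := ∀ (G A : Type) [AddCommGroup G] [Fintype G] [AddCommGroup A]
  [DecidableEq A] (f : G → A) (e : ℝ), e ≤ 1 / 20 →
  av (fun q : G × G => if f q.1 + f q.2 = f (q.1 + q.2) then (0 : ℝ) else 1) ≤ e →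
  ∃ h : G →+ A, av (fun x => if f x = h x then (0 : ℝ) else 1) ≤ 2 * e

/-- **MLT** (multilinearity testing).  File `Mlt.lean`; uses BLR. -/
def SpecMlt : Prop := ∀ k : ℕ, ∃ C : ℝ, 0 < C ∧ ∀ (n : ℕ) (f : (Fin k → V (Fin n)) → ZMod 2)
  (e : ℝ), 0 ≤ e → (∀ l : Fin k, av (fun q : (Fin k → V (Fin n)) × V (Fin n) =>
    if f q.1 + f (Function.update q.1 l q.2) = f (Function.update q.1 l (q.1 l + q.2))
      then (0 : ℝ) else 1) ≤ e) →
  ∃ B : V (Fin k → Fin n), av (fun x => if f x = pr (tens x) B then (0 : ℝ) else 1) ≤ C * e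

/-- **LT** (linearity testing for functions on tensors).  File `Lt.lean`; uses BLR and MLT. -/
def SpecLt : Prop := ∀ k : ℕ, 1 ≤ k → ∀ η : ℝ, 0 < η → ∃ (e : ℝ) (s₀ : ℕ), 0 < e ∧
  ∀ s : ℕ, s₀ ≤ s → ∀ (n : ℕ) (f : V (Fin k → Fin n) → ZMod 2),
    (∀ l : Fin k, av (fun q : (Fin k → V (Fin n)) × V (Fin n) =>
      if f (tens q.1) + f (tens (Function.update q.1 l q.2)) =
        f (tens q.1 + tens (Function.update q.1 l q.2)) then (0 : ℝ) else 1) ≤ e) →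
    av (fun q : Fr k s n × V (Fin k → Fin s) × V (Fin k → Fin s) =>
      if f (blk q.1 q.2.1) + f (blk q.1 q.2.2) = f (blk q.1 q.2.1 + blk q.1 q.2.2)
        then (0 : ℝ) else 1) ≤ e →
    av (fun q : Fr k s n × V (Fin k → Fin s) × (Fin k → V (Fin s)) =>
      if f (blk q.1 q.2.1) + f (blk q.1 (tens q.2.2)) =
        f (blk q.1 q.2.1 + blk q.1 (tens q.2.2)) then (0 : ℝ) else 1) ≤ e →
    ∃ P : V (Fin k → Fin n), av (fun q : Fr k s n × V (Fin k → Fin s) =>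
      if f (blk q.1 q.2) = pr (blk q.1 q.2) P then (0 : ℝ) else 1) ≤ η

/-- **START** (location map from a peaked system).  File `Start.lean`; uses LT. -/
def SpecStart : Prop := ∀ (p : ℝ) (k : ℕ), 1 < p → 1 ≤ k → ∃ (δ : ℝ) (s₀ : ℕ), 0 < δ ∧
  ∀ s : ℕ, s₀ ≤ s → ∀ (n : ℕ) (ι : Type) [Fintype ι] (T : V (Fin k → Fin n) → ι → ℝ) (H₀ : ℝ),
    0 < H₀ → H₀ ≤ ∑ i, |T 0 i| ^ p →
    (∀ l : Fin k, av (fun q : (Fin k → V (Fin n)) × V (Fin n) =>
      def1 p T (tens q.1) + def2 p T (tens q.1) (tens (Function.update q.1 l q.2))) ≤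
        δ * ∑ i, |T 0 i| ^ p) →
    av (fun q : Fr k s n × V (Fin k → Fin s) × V (Fin k → Fin s) =>
      def1 p T (blk q.1 q.2.1) + def2 p T (blk q.1 q.2.1) (blk q.1 q.2.2)) ≤
        δ * ∑ i, |T 0 i| ^ p →
    av (fun q : Fr k s n × V (Fin k → Fin s) × (Fin k → V (Fin s)) =>
      def1 p T (blk q.1 q.2.1) + def2 p T (blk q.1 q.2.1) (blk q.1 (tens q.2.2))) ≤
        δ * ∑ i, |T 0 i| ^ p →
    ∃ (ψ : ι → ℝ) (P : ι → V (Fin k → Fin n)), ∑ i, |ψ i| ^ (p / (p - 1)) ≤ 1 ∧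
      1 / 4 * H₀ ^ (1 / p) ≤ av (fun q : Fr k s n × V (Fin k → Fin s) =>
        ∑ i, ψ i * (w (blk q.1 q.2) (P i) * T (blk q.1 q.2) i))

/-- the conclusion of KEY with exponent `r` -/
def KeyAt (p r : ℝ) : Prop := ∀ (D ε : ℝ), 1 ≤ D → 0 ≤ ε →
  ∀ (I : Type) [Fintype I] [DecidableEq I] (K : V I → Prop) (ι : Type) [Fintype ι]
    (τ : List (I × ZMod 2) → V I → ι → ℝ), Sys p D ε K τ →
    ∀ (ψ : ι → ℝ) (P : ι → V I), ∑ i, |ψ i| ^ (p / (p - 1)) ≤ 1 →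
    ∀ C : List I, C.length ≤ Fintype.card I →
    ∀ (M : Type) [Fintype M] [DecidableEq M] (Φ : V M →+ V I) (ξ₀ : V I),
      (∀ ζ, K (ξ₀ + Φ ζ)) → ∀ ω : V M → ℝ,
      |∑ ζ, ω ζ * gg τ ψ P C (ξ₀ + Φ ζ)| ≤
        D * (∑ z, |hat ω z| ^ r) ^ (1 / r) +
          ε * 2 ^ (Fintype.card I + Fintype.card M) * ∑ ζ, |ω ζ|

/-- **KEY, p ≥ 2**.  File `KeyGt.lean`. -/
def SpecKeyGt : Prop := ∀ p : ℝ, 2 ≤ p → KeyAt p p

/-- **KEY, p ≤ 2**.  File `KeyLt.lean`. -/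
def SpecKeyLt : Prop := ∀ p : ℝ, 1 < p → p ≤ 2 → KeyAt p (p / (p - 1))

/-- the element `∑ Z_{ab} θ(u_a)(v_b)` -/
def bil {α J I : Type} {b : ℕ} (θ : V α →+ V J →+ V I) (u : Fin b → V α) (v : Fin b → V J)
    (Z : V (Fin b × Fin b)) : V I := ∑ a : Fin b × Fin b, Z a • θ (u a.1) (v a.2)

/-- **TV** (random combinations of a random frame are almost uniform).  File `Tv.lean`. -/
def SpecTv : Prop := ∀ (α : Type) [Fintype α] [DecidableEq α] (s b : ℕ) (x : V α)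
  (G : (Fin s → V α) → ℝ) (B : ℝ), (∀ a, |G a| ≤ B) →
  |av (fun u : Fin b → V α => av (fun c : Fin s → V (Fin (b + 1)) =>
      G (fun j => c j 0 • x + ∑ i : Fin b, c j i.succ • u i))) - av G| ≤
    2 * B * 2 ^ s / 2 ^ b

/-- **RK** (Fourier transform of a random matrix of rank at most `s`).  File `Rk.lean`.
The first sum is over all `z` of `E (-1)^{<z, ∑_j c_j ⊗ e_j>}` raised to the power `r`. -/
def SpecRk : Prop := ∀ (s b : ℕ) (r : ℝ), 2 * (b : ℝ) + 1 ≤ r * s →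
  ∑ z ∈ univ.filter (fun z : V (Fin b × Fin b) => z ≠ 0),
    |av (fun q : (Fin s → V (Fin b)) × (Fin s → V (Fin b)) =>
      w z (fun a => ∑ j, q.1 j a.1 * q.2 j a.2))| ^ r ≤ 4 * (2 : ℝ) ^ (2 * (b : ℝ) - r * s)

/-- **ABS** (absorption of a rank one shift by a random matrix of rank `s`).  File `Abs.lean`; uses
TV and RK. -/
def SpecAbs : Prop := ∀ r : ℝ, 2 < r → ∃ c C : ℝ, 0 < c ∧ 0 < C ∧
  ∀ (s : ℕ), 1 ≤ s → ∀ (α J I : Type) [Fintype α] [DecidableEq α] [Fintype J] [DecidableEq J]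
    (θ : V α →+ V J →+ V I) (ξ₀ : V I) (g : V I → ℝ) (D η : ℝ), 0 ≤ η →
    (∀ (a : Fin (s + 1) → V α) (c : Fin (s + 1) → V J), |g (ξ₀ + ∑ j, θ (a j) (c j))| ≤ D) →
    (∀ b : ℕ, b ≤ 2 * s + 1 → ∀ (u : Fin b → V α) (v : Fin b → V J)
      (ω : V (Fin b × Fin b) → ℝ),
      |∑ Z, ω Z * g (ξ₀ + bil θ u v Z)| ≤
        D * (∑ z, |hat ω z| ^ r) ^ (1 / r) + η * ∑ Z, |ω Z|) →
    ∀ (x : V α) (y : V J),
      |av (fun q : (Fin s → V α) × (Fin s → V J) =>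
        g (ξ₀ + θ x y + ∑ j, θ (q.1 j) (q.2 j)) - g (ξ₀ + ∑ j, θ (q.1 j) (q.2 j)))| ≤
        C * D * (2 : ℝ) ^ (-c * s) + 2 * η

/-- **BLOCK** (absorption of a rank one tensor by a random block, mode by mode).
File `Block.lean`; uses ABS and KEY. -/
def SpecBlock : Prop := ∀ p : ℝ, 1 < p → p ≠ 2 → ∃ c C : ℝ, 0 < c ∧ 0 < C ∧
  ∀ (k s n : ℕ), 1 ≤ k → 1 ≤ s → ∀ (D ε : ℝ), 1 ≤ D → 0 ≤ ε → ∀ (ι : Type) [Fintype ι]
    (τ : List ((Fin k → Fin n) × ZMod 2) → V (Fin k → Fin n) → ι → ℝ),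
    Sys p D ε (InK k n (2 * s + 3)) τ →
    ∀ (ψ : ι → ℝ) (P : ι → V (Fin k → Fin n)), ∑ i, |ψ i| ^ (p / (p - 1)) ≤ 1 →
    ∀ C' : List (Fin k → Fin n), C'.length ≤ n ^ k → ∀ x : Fin k → V (Fin n),
      |av (fun q : Fr k (s + 1) n × V (Fin k → Fin (s + 1)) =>
        gg τ ψ P C' (blk q.1 q.2 + tens x) - gg τ ψ P C' (blk q.1 q.2))| ≤
        k * (C * (D * (2 : ℝ) ^ (-c * s) + ε * 2 ^ (n ^ k + (2 * s + 1) ^ 2)))

/-- **GRADE** (Tucker rank is a grading).  File `Grade.lean`. -/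
def SpecGrade : Prop := ∀ k n : ℕ, 1 ≤ k → Graded (InK k n)

/-- **COUNT** (number of tensors of Tucker rank at most `r`).  File `Grade.lean`. -/
def SpecCount : Prop := ∀ k n r : ℕ,
  (Nat.card {S : V (Fin k → Fin n) // InK k n r S} : ℝ) ≤ 2 ^ (k * r * n + r ^ k)

/-- **CORE** (assembly of everything above).  File `Core.lean`. -/
def SpecCore : Prop := ∀ (p D : ℝ) (k : ℕ), 1 < p → p ≠ 2 → 1 ≤ D → 1 ≤ k →
  ∃ (a : ℝ) (n₀ : ℕ), 0 < a ∧ ∀ n : ℕ, n₀ ≤ n → ∃ X : Finset (V (Fin k → Fin n) → ℝ),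
    Real.log X.card ≤ Real.exp (a * n * Real.log n) ∧
    ∀ (ι : Type) [Fintype ι] (F : (V (Fin k → Fin n) → ℝ) → ι → ℝ), BiLip p D X F →
      (2 : ℝ) ^ ((n : ℝ) ^ k / 2) < Fintype.card ι

/-- **FINAL** (asymptotics and translation to `L_p(μ)`).  File `Final.lean`; uses CORE. -/
def SpecFinal : Prop := ∀ (p : ENNReal) [Fact (1 ≤ p)], 1 < p → p ≠ ⊤ → p ≠ 2 →
  ∀ D : ℝ, 1 ≤ D → ∀ A : ℝ, ∃ n₀ : ℕ, ∀ n : ℕ, n₀ ≤ n →
    ∃ (Ω : Type) (_ : MeasurableSpace Ω) (μ : MeasureTheory.Measure Ω)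
      (_ : MeasureTheory.IsProbabilityMeasure μ) (X : Finset (MeasureTheory.Lp ℝ p μ)),
      X.card = n ∧ ∀ d : ℕ,
        (∃ f : MeasureTheory.Lp ℝ p μ → PiLp p (fun _ : Fin d => ℝ), ∃ s : ℝ, 0 < s ∧
          ∀ x ∈ X, ∀ y ∈ X, s * ‖x - y‖ ≤ ‖f x - f y‖ ∧ ‖f x - f y‖ ≤ D * s * ‖x - y‖) →
        Real.exp ((Real.log (Real.log n)) ^ A) ≤ d

end Vale.Agent.P249.TP
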