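import Vale.Agent.P249.TP.Spec
import Vale.Agent.P249.SP.Clk

/-!
# P249 phase 2, block UNI, part A: universes, operators, Clarkson for pairs (helper583)
-/

open Finset
open scoped BigOperators

namespace Vale.Agent.P249.TP.Uni

open Vale.Agent.P249.TP

set_option linter.unusedSectionVars false

/-- coefficient functions (universes) -/
abbrev Co (I : Type) := V I → ℝ

section Ops

variable {I : Type} [Fintype I] [DecidableEq I]

/-- multiplication by the character `w_S` -/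
def tw (S : V I) (χ : Co I) : Co I := fun U => χ (U + S)

/-- `(χ + e χ w_S)/2` -/
noncomputable def at' (S : V I) (e : ℝ) (χ : Co I) : Co I :=
  fun U => (χ U + e * χ (U + S)) / 2

/-- the universe `1` -/
def one' (I : Type) [Fintype I] [DecidableEq I] : Co I := fun U => if U = 0 then 1 else 0

/-- general operator -/
noncomputable def Op {J : Type} [Fintype J] (c : ℝ) (m : J → Co I → Co I) (f : Co I → ℝ) :
    Co I → ℝ := fun χ => c * ∑ j, f (m j χ)

/-- `T(χ)` at the coordinate `i` -/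
def lin {ι : Type} (T : V I → ι → ℝ) (χ : Co I) (i : ι) : ℝ := ∑ S, χ S * T S i

/-- `‖T(χ)‖^p` -/
noncomputable def f0 (p : ℝ) {ι : Type} [Fintype ι] (T : V I → ι → ℝ) (χ : Co I) : ℝ :=
  ∑ i, |lin T χ i| ^ p

/-- defect of `χ` in the direction `S` -/
noncomputable def Df (p : ℝ) {ι : Type} [Fintype ι] (T : V I → ι → ℝ) (S : V I) (χ : Co I) : ℝ :=
  ∑ i, (min |lin T (at' S 1 χ) i| |lin T (at' S (-1) χ) i|) ^ p

/-- the translated system on the universe `χ` -/
def trans {ι : Type} (χ : Co I) (T : V I → ι → ℝ) : V I → ι → ℝ :=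
  fun S i => ∑ U, χ U * T (U + S) i

/-- `p`-th power of the `L_p`-norm -/
noncomputable def Nf (p : ℝ) (χ : Co I) : ℝ := (∑ y, |poly χ y| ^ p) / Fintype.card (V I)

/-- admissible universes -/
structure Adm (K : ℕ → V I → Prop) (k : ℕ) (χ : Co I) : Prop where
  supp : ∀ U, ¬ K k U → χ U = 0
  l1 : ∑ U, |χ U| ≤ 1
  sup : ∀ y, |poly χ y| ≤ 1

end Ops

section Basic

variable {I : Type} [Fintype I] [DecidableEq I]

lemma sg_add' (a b : ZMod 2) : sg (a + b) = sg a * sg b := by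
  have h : ∀ a b : ZMod 2, (a = 0 ∧ b = 0 ∧ a + b = 0) ∨ (a = 0 ∧ b ≠ 0 ∧ a + b ≠ 0) ∨
      (a ≠ 0 ∧ b = 0 ∧ a + b ≠ 0) ∨ (a ≠ 0 ∧ b ≠ 0 ∧ a + b = 0) := by decide
  unfold sg
  rcases h a b with ⟨h1, h2, h3⟩ | ⟨h1, h2, h3⟩ | ⟨h1, h2, h3⟩ | ⟨h1, h2, h3⟩ <;>
    simp [h1, h2, h3]

lemma pr_add' (S S' y : V I) : pr (S + S') y = pr S y + pr S' y := by
  unfold pr
  rw [← Finset.sum_add_distrib]
  exact Finset.sum_congr rfl fun i _ => by rw [Pi.add_apply, add_mul]

lemma w_add' (S S' y : V I) : w (S + S') y = w S y * w S' y := by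
  unfold w
  rw [pr_add', sg_add']

lemma two' (S : V I) : S + S = 0 := by
  funext i
  exact CharTwo.add_self_eq_zero (S i)

lemma w_zero' (y : V I) : w (0 : V I) y = 1 := by
  unfold w pr sg
  simp

lemma w_mul_self' (S y : V I) : w S y * w S y = 1 := by
  rw [← w_add', two', w_zero']

lemma w_cases' (S y : V I) : w S y = 1 ∨ w S y = -1 :=
  mul_self_eq_one_iff.mp (w_mul_self' S y)

lemma abs_w' (S y : V I) : |w S y| = 1 := by
  rcases w_cases' S y with e | e <;> rw [e] <;> simp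

lemma add_add' (U S : V I) : U + S + S = U := by
  rw [add_assoc, two', add_zero]

lemma sum_tr {M : Type*} [AddCommMonoid M] (S : V I) (g : V I → M) :
    ∑ U, g (U + S) = ∑ U, g U :=
  Equiv.sum_comp (Equiv.addRight S) g

lemma poly_tw (S : V I) (χ : Co I) (y : V I) : poly (tw S χ) y = w S y * poly χ y := by
  unfold poly tw
  rw [← sum_tr S, Finset.mul_sum]
  refine Finset.sum_congr rfl fun U _ => ?_
  rw [add_add', w_add']; ring

lemma poly_at (S : V I) (e : ℝ) (χ : Co I) (y : V I) :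
    poly (at' S e χ) y = (1 + e * w S y) / 2 * poly χ y := by
  have h' := poly_tw S χ y
  unfold poly tw at h'
  unfold poly at'
  have : ∀ U : V I, (χ U + e * χ (U + S)) / 2 * w U y =
      1 / 2 * (χ U * w U y) + e / 2 * (χ (U + S) * w U y) := fun U => by ring
  rw [Finset.sum_congr rfl fun U _ => this U, Finset.sum_add_distrib, ← Finset.mul_sum,
    ← Finset.mul_sum, h']
  ring

lemma poly_one' (y : V I) : poly (one' I) y = 1 := by
  unfold poly one'
  simp [w_zero']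

variable {K : ℕ → V I → Prop}

lemma adm_one (h0 : K 0 0) : Adm K 0 (one' I) := by
  refine ⟨fun U hU => ?_, ?_, fun y => ?_⟩
  · unfold one'
    rw [if_neg]
    rintro rfl
    exact hU h0
  · unfold one'
    simp [apply_ite abs]
  · rw [poly_one']; simp

lemma l1_tw (S : V I) (χ : Co I) : ∑ U, |tw S χ U| = ∑ U, |χ U| := by
  unfold tw
  exact sum_tr S fun U => |χ U|

lemma l1_at (S : V I) {e : ℝ} (he : |e| ≤ 1) (χ : Co I) :
    ∑ U, |at' S e χ U| ≤ ∑ U, |χ U| := by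
  have h1 := l1_tw S χ
  unfold tw at h1
  unfold at'
  have : ∀ U : V I, |(χ U + e * χ (U + S)) / 2| ≤
      1 / 2 * |χ U| + 1 / 2 * |χ (U + S)| := fun U => by
    rw [abs_div, abs_two]
    have h3 : |χ U + e * χ (U + S)| ≤ |χ U| + |χ (U + S)| := by
      refine (abs_add_le _ _).trans ?_
      rw [abs_mul]
      have := mul_le_mul_of_nonneg_right he (abs_nonneg (χ (U + S)))
      linarith
    linarith
  refine (Finset.sum_le_sum fun U _ => this U).trans ?_
  rw [Finset.sum_add_distrib, ← Finset.mul_sum, ← Finset.mul_sum]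
  linarith

lemma sup_tw {S : V I} {χ : Co I} (h : ∀ y, |poly χ y| ≤ 1) (y : V I) :
    |poly (tw S χ) y| ≤ 1 := by
  rw [poly_tw, abs_mul, abs_w', one_mul]
  exact h y

lemma sup_at {S : V I} {e : ℝ} (he : |e| ≤ 1) {χ : Co I} (h : ∀ y, |poly χ y| ≤ 1) (y : V I) :
    |poly (at' S e χ) y| ≤ 1 := by
  rw [poly_at, abs_mul]
  have h1 : |(1 + e * w S y) / 2| ≤ 1 := by
    rw [abs_div, abs_two]
    have h3 : |1 + e * w S y| ≤ 1 + 1 := by
      refine (abs_add_le _ _).trans ?_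
      rw [abs_mul, abs_w', abs_one]
      linarith
    linarith
  calc |(1 + e * w S y) / 2| * |poly χ y| ≤ 1 * 1 :=
        mul_le_mul h1 (h y) (abs_nonneg _) zero_le_one
    _ = 1 := by ring

lemma at_tw (S S' : V I) (e : ℝ) (χ : Co I) : at' S' e (tw S χ) = tw S (at' S' e χ) := by
  funext U
  unfold at' tw
  have : (U + S') + S = (U + S) + S' := by abel
  rw [this]

lemma tw_tw (S S' : V I) (χ : Co I) : tw S (tw S' χ) = tw (S + S') χ := by
  funext U
  unfold tw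
  rw [add_assoc]

lemma tw_comm (S S' : V I) (χ : Co I) : tw S (tw S' χ) = tw S' (tw S χ) := by
  rw [tw_tw, tw_tw, add_comm]

lemma at_at (S S' : V I) (e e' : ℝ) (χ : Co I) :
    at' S' e' (at' S e χ) = at' S e (at' S' e' χ) := by
  funext U
  unfold at'
  have : (U + S') + S = (U + S) + S' := by abel
  rw [this]
  ring

lemma Op_comm {J J' : Type} [Fintype J] [Fintype J'] (c c' : ℝ) {m : J → Co I → Co I}
    {m' : J' → Co I → Co I} (hm : ∀ j j' χ, m j (m' j' χ) = m' j' (m j χ)) (f : Co I → ℝ) :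
    Op c m (Op c' m' f) = Op c' m' (Op c m f) := by
  funext χ
  unfold Op
  simp only [Finset.mul_sum]
  rw [Finset.sum_comm]
  refine Finset.sum_congr rfl fun j _ => Finset.sum_congr rfl fun j' _ => ?_
  rw [hm]
  ring

lemma Op_lin {J : Type} [Fintype J] (c : ℝ) (m : J → Co I → Co I) (a b : ℝ) (f f' : Co I → ℝ) :
    Op c m (fun χ => a * f χ + b * f' χ) = fun χ => a * Op c m f χ + b * Op c m f' χ := by
  funext χ
  unfold Op
  rw [Finset.sum_add_distrib, ← Finset.mul_sum, ← Finset.mul_sum]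
  ring

lemma Op_mono {J : Type} [Fintype J] {c : ℝ} (hc : 0 ≤ c) {m : J → Co I → Co I} {k : ℕ}
    (hm : ∀ j χ, Adm K k χ → Adm K (k + 1) (m j χ)) {f f' : Co I → ℝ}
    (hf : ∀ χ, Adm K (k + 1) χ → f χ ≤ f' χ) (χ : Co I) (hχ : Adm K k χ) :
    Op c m f χ ≤ Op c m f' χ := by
  unfold Op
  exact mul_le_mul_of_nonneg_left (Finset.sum_le_sum fun j _ => hf _ (hm j χ hχ)) hc

/-- `(M^R A^l f)(1)` -/
noncomputable def Phi {J : Type} [Fintype J] (cM cA : ℝ) (mM mA : J → Co I → Co I) (R l : ℕ)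
    (f : Co I → ℝ) : ℝ := (Op cM mM)^[R] ((Op cA mA)^[l] f) (one' I)

section Phi

variable {J : Type} [Fintype J] {cM cA : ℝ} {mM mA : J → Co I → Co I}

lemma M_A_iter (hm : ∀ j j' χ, mM j (mA j' χ) = mA j' (mM j χ)) (l : ℕ) (f : Co I → ℝ) :
    Op cM mM ((Op cA mA)^[l] f) = (Op cA mA)^[l] (Op cM mM f) := by
  induction l generalizing f with
  | zero => rfl
  | succ l ih =>
    rw [Function.iterate_succ_apply, Function.iterate_succ_apply, ih, Op_comm cM cA hm]

lemma phi_succ_M (hm : ∀ j j' χ, mM j (mA j' χ) = mA j' (mM j χ)) (R l : ℕ) (f : Co I → ℝ) :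
    Phi cM cA mM mA (R + 1) l f = Phi cM cA mM mA R l (Op cM mM f) := by
  unfold Phi
  rw [Function.iterate_succ_apply, M_A_iter hm]

lemma phi_succ_A (R l : ℕ) (f : Co I → ℝ) :
    Phi cM cA mM mA R (l + 1) f = Phi cM cA mM mA R l (Op cA mA f) := by
  unfold Phi
  rw [Function.iterate_succ_apply]

lemma phi_mono (h0 : K 0 0) (hcM : 0 ≤ cM) (hcA : 0 ≤ cA)
    (hM : ∀ k j χ, Adm K k χ → Adm K (k + 1) (mM j χ))
    (hA : ∀ k j χ, Adm K k χ → Adm K (k + 1) (mA j χ)) {R l : ℕ} {f f' : Co I → ℝ}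
    (hf : ∀ χ, Adm K (R + l) χ → f χ ≤ f' χ) :
    Phi cM cA mM mA R l f ≤ Phi cM cA mM mA R l f' := by
  have hA' : ∀ (l k : ℕ) (f f' : Co I → ℝ), (∀ χ, Adm K (k + l) χ → f χ ≤ f' χ) →
      ∀ χ, Adm K k χ → (Op cA mA)^[l] f χ ≤ (Op cA mA)^[l] f' χ := by
    intro l
    induction l with
    | zero => intro k f f' hf χ hχ; exact hf χ hχ
    | succ l ih =>
      intro k f f' hf χ hχ
      rw [Function.iterate_succ_apply, Function.iterate_succ_apply]
      exact ih k _ _ (fun χ' hχ' => Op_mono hcA (hA (k + l)) hf χ' hχ') χ hχ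
  have hM' : ∀ (R k : ℕ) (f f' : Co I → ℝ), (∀ χ, Adm K (k + R) χ → f χ ≤ f' χ) →
      ∀ χ, Adm K k χ → (Op cM mM)^[R] f χ ≤ (Op cM mM)^[R] f' χ := by
    intro R
    induction R with
    | zero => intro k f f' hf χ hχ; exact hf χ hχ
    | succ R ih =>
      intro k f f' hf χ hχ
      rw [Function.iterate_succ_apply, Function.iterate_succ_apply]
      exact ih k _ _ (fun χ' hχ' => Op_mono hcM (hM (k + R)) hf χ' hχ') χ hχ
  refine hM' R 0 _ _ (fun χ hχ => hA' l (0 + R) f f' (fun χ' hχ' => hf χ' ?_) χ hχ) _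
    (adm_one h0)
  rwa [zero_add] at hχ'

lemma phi_lin (R l : ℕ) (a b : ℝ) (f f' : Co I → ℝ) :
    Phi cM cA mM mA R l (fun χ => a * f χ + b * f' χ) =
      a * Phi cM cA mM mA R l f + b * Phi cM cA mM mA R l f' := by
  have h : ∀ (c : ℝ) (m : J → Co I → Co I) (l : ℕ) (f f' : Co I → ℝ),
      (Op c m)^[l] (fun χ => a * f χ + b * f' χ) =
      fun χ => a * (Op c m)^[l] f χ + b * (Op c m)^[l] f' χ := by
    intro c m l
    induction l with
    | zero => intro f f'; rfl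
    | succ l ih => intro f f'; simp only [Function.iterate_succ_apply, Op_lin, ih]
  unfold Phi
  rw [h, h]

lemma phi_smul (R l : ℕ) (a : ℝ) (f : Co I → ℝ) :
    Phi cM cA mM mA R l (fun χ => a * f χ) = a * Phi cM cA mM mA R l f := by
  have := phi_lin (cM := cM) (cA := cA) (mM := mM) (mA := mA) R l a 0 f f
  simpa using this

end Phi

variable {ι : Type}

lemma lin_at (T : V I → ι → ℝ) (S : V I) (e : ℝ) (χ : Co I) (i : ι) :
    lin T (at' S e χ) i = (lin T χ i + e * lin T (tw S χ) i) / 2 := by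
  unfold lin at' tw
  rw [Finset.mul_sum, ← Finset.sum_add_distrib, Finset.sum_div]
  exact Finset.sum_congr rfl fun U _ => by ring

lemma lin_tw (T : V I → ι → ℝ) (S : V I) (χ : Co I) (i : ι) :
    lin T (tw S χ) i = ∑ U, χ U * T (U + S) i := by
  unfold lin tw
  rw [← sum_tr S]
  exact Finset.sum_congr rfl fun U _ => by rw [add_add']

lemma x_add_y (T : V I → ι → ℝ) (S : V I) (χ : Co I) (i : ι) :
    lin T (at' S 1 χ) i + lin T (at' S (-1) χ) i = lin T χ i := by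
  rw [lin_at, lin_at]; ring

lemma x_sub_y (T : V I → ι → ℝ) (S : V I) (χ : Co I) (i : ι) :
    lin T (at' S 1 χ) i - lin T (at' S (-1) χ) i = lin T (tw S χ) i := by
  rw [lin_at, lin_at]; ring

lemma trans_eq_lin (χ : Co I) (T : V I → ι → ℝ) (S : V I) (i : ι) :
    trans χ T S i = lin T (tw S χ) i := by
  rw [lin_tw]; rfl

lemma trans_zero (χ : Co I) (T : V I → ι → ℝ) (i : ι) : trans χ T 0 i = lin T χ i := by
  unfold trans lin
  exact Finset.sum_congr rfl fun U _ => by rw [add_zero]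

variable [Fintype ι]

lemma f0_nonneg (p : ℝ) (T : V I → ι → ℝ) (χ : Co I) : 0 ≤ f0 p T χ :=
  Finset.sum_nonneg fun _ _ => Real.rpow_nonneg (abs_nonneg _) _

lemma Df_nonneg (p : ℝ) (T : V I → ι → ℝ) (S : V I) (χ : Co I) : 0 ≤ Df p T S χ :=
  Finset.sum_nonneg fun _ _ => Real.rpow_nonneg (le_min (abs_nonneg _) (abs_nonneg _)) _

lemma lin_at_at (T : V I → ι → ℝ) (S S' : V I) (e e' : ℝ) (χ : Co I) (i : ι) :
    lin T (at' S' e' (at' S e χ)) i = (lin T χ i + e * lin T (tw S χ) i +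
      e' * lin T (tw S' χ) i + e' * e * lin T (tw (S + S') χ) i) / 4 := by
  rw [lin_at, lin_at, ← at_tw, lin_at, tw_tw]
  ring

lemma def1_trans (p : ℝ) (T : V I → ι → ℝ) (S : V I) (χ : Co I) :
    def1 p (trans χ T) S = Df p T S χ := by
  unfold def1 Df
  refine Finset.sum_congr rfl fun i _ => ?_
  rw [trans_zero, trans_eq_lin, lin_at, lin_at]
  ring_nf

lemma def2_trans (p : ℝ) (T : V I → ι → ℝ) (S S' : V I) (χ : Co I) :
    def2 p (trans χ T) S S' = Df p T S' (at' S 1 χ) + Df p T S' (at' S (-1) χ) := by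
  unfold def2 Df
  rw [← Finset.sum_add_distrib]
  refine Finset.sum_congr rfl fun i _ => ?_
  rw [trans_zero, trans_eq_lin, trans_eq_lin, trans_eq_lin, lin_at_at, lin_at_at, lin_at_at,
    lin_at_at]
  congr 1 <;> congr 2 <;> ring_nf

/-- Clarkson step, `p ≥ 2`, one frequency `S` -/
lemma clk_S_ge {p : ℝ} (hp : 1 < p) (h2 : 2 ≤ p) (T : V I → ι → ℝ) (S : V I) (χ : Co I) :
    f0 p T (at' S 1 χ) + f0 p T (at' S (-1) χ) + (p / 2 - 1) * Df p T S χ ≤
      (f0 p T χ + f0 p T (tw S χ)) / 2 := by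
  have h : ∀ i, |lin T (at' S 1 χ) i| ^ p + |lin T (at' S (-1) χ) i| ^ p +
      (p / 2 - 1) * (min |lin T (at' S 1 χ) i| |lin T (at' S (-1) χ) i|) ^ p ≤
      (|lin T χ i| ^ p + |lin T (tw S χ) i| ^ p) / 2 := by
    intro i
    have := (SP.specClk p hp (lin T (at' S 1 χ) i) (lin T (at' S (-1) χ) i)).1 h2
    rwa [x_add_y, x_sub_y] at this
  have hs := Finset.sum_le_sum fun i (_ : i ∈ (univ : Finset ι)) => h i
  rw [Finset.sum_add_distrib, Finset.sum_add_distrib, ← Finset.mul_sum, ← Finset.sum_div,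
    Finset.sum_add_distrib] at hs
  exact hs

/-- Clarkson step, `p ≤ 2`, one frequency `S` -/
lemma clk_S_le {p : ℝ} (hp : 1 < p) (h2 : p ≤ 2) (T : V I → ι → ℝ) (S : V I) (χ : Co I) :
    (f0 p T χ + f0 p T (tw S χ)) / 2 ≤
      f0 p T (at' S 1 χ) + f0 p T (at' S (-1) χ) - (1 - p / 2) * Df p T S χ := by
  have h : ∀ i, (|lin T χ i| ^ p + |lin T (tw S χ) i| ^ p) / 2 ≤
      |lin T (at' S 1 χ) i| ^ p + |lin T (at' S (-1) χ) i| ^ p -
      (1 - p / 2) * (min |lin T (at' S 1 χ) i| |lin T (at' S (-1) χ) i|) ^ p := by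
    intro i
    have := (SP.specClk p hp (lin T (at' S 1 χ) i) (lin T (at' S (-1) χ) i)).2 h2
    rwa [x_add_y, x_sub_y] at this
  have hs := Finset.sum_le_sum fun i (_ : i ∈ (univ : Finset ι)) => h i
  rw [Finset.sum_sub_distrib, Finset.sum_add_distrib, ← Finset.mul_sum, ← Finset.sum_div,
    Finset.sum_add_distrib] at hs
  exact hs

/-- the four translates -/
noncomputable def tr4 (f : Co I → ℝ) (S S' : V I) (χ : Co I) : ℝ :=
  f χ + f (tw S χ) + f (tw S' χ) + f (tw (S + S') χ)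

/-- the four atoms -/
noncomputable def at4 (f : Co I → ℝ) (S S' : V I) (χ : Co I) : ℝ :=
  f (at' S' 1 (at' S 1 χ)) + f (at' S' (-1) (at' S 1 χ)) +
    (f (at' S' 1 (at' S (-1) χ)) + f (at' S' (-1) (at' S (-1) χ)))

/-- Clarkson for a pair, `p ≥ 2` -/
lemma pair_ge {p : ℝ} (hp : 1 < p) (h2 : 2 ≤ p) (T : V I → ι → ℝ) (S S' : V I) (χ : Co I) :
    at4 (f0 p T) S S' χ + (p / 2 - 1) / 2 *
      (def1 p (trans χ T) S + def2 p (trans χ T) S S') ≤ 1 / 4 * tr4 (f0 p T) S S' χ := by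
  rw [def1_trans, def2_trans]
  have h1 := clk_S_ge hp h2 T S' (at' S 1 χ)
  have h3 := clk_S_ge hp h2 T S' (at' S (-1) χ)
  have h4 := clk_S_ge hp h2 T S χ
  have h5 := clk_S_ge hp h2 T S (tw S' χ)
  rw [at_tw, at_tw, tw_tw] at h5
  have hc : 0 ≤ p / 2 - 1 := by linarith
  have n1 := mul_nonneg hc (Df_nonneg p T S' (at' S 1 χ))
  have n2 := mul_nonneg hc (Df_nonneg p T S' (at' S (-1) χ))
  have n3 := mul_nonneg hc (Df_nonneg p T S (tw S' χ))
  unfold at4 tr4
  nlinarith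

/-- Clarkson for a pair, `p ≤ 2` -/
lemma pair_le {p : ℝ} (hp : 1 < p) (h2 : p ≤ 2) (T : V I → ι → ℝ) (S S' : V I) (χ : Co I) :
    1 / 4 * tr4 (f0 p T) S S' χ + (1 - p / 2) / 2 *
      (def1 p (trans χ T) S + def2 p (trans χ T) S S') ≤ at4 (f0 p T) S S' χ := by
  rw [def1_trans, def2_trans]
  have h1 := clk_S_le hp h2 T S' (at' S 1 χ)
  have h3 := clk_S_le hp h2 T S' (at' S (-1) χ)
  have h4 := clk_S_le hp h2 T S χ
  have h5 := clk_S_le hp h2 T S (tw S' χ)
  rw [at_tw, at_tw, tw_tw] at h5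
  have hc : 0 ≤ 1 - p / 2 := by linarith
  have n1 := mul_nonneg hc (Df_nonneg p T S' (at' S 1 χ))
  have n2 := mul_nonneg hc (Df_nonneg p T S' (at' S (-1) χ))
  have n3 := mul_nonneg hc (Df_nonneg p T S (tw S' χ))
  unfold at4 tr4
  nlinarith

end Basic

end Vale.Agent.P249.TP.Uni
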