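import Vale.Agent.P249.TP.UniA

/-!
# P249 phase 2, block UNI, part B: masses, upper bound, translated systems (helper583)
-/

open Finset
open scoped BigOperators

namespace Vale.Agent.P249.TP.Uni

open Vale.Agent.P249.TP

set_option linter.unusedSectionVars false

variable {I : Type} [Fintype I] [DecidableEq I]

/-! ### indices -/

/-- frequency of an index of `M` -/
def fr (S S' : V I) (a b : Bool) : V I := (if a then S else 0) + (if b then S' else 0)

/-- sign of a bit -/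
def sb (a : Bool) : ℝ := if a then 1 else -1

lemma abs_sb (a : Bool) : |sb a| ≤ 1 := by
  cases a <;> simp [sb]

/-- the moves of `M` -/
noncomputable def mM {Q : Type} (s s' : Q → V I) (j : Q × Bool × Bool) (χ : Co I) : Co I :=
  tw (fr (s j.1) (s' j.1) j.2.1 j.2.2) χ

/-- the moves of `A` -/
noncomputable def mA {Q : Type} (s s' : Q → V I) (j : Q × Bool × Bool) (χ : Co I) : Co I :=
  at' (s' j.1) (sb j.2.2) (at' (s j.1) (sb j.2.1) χ)

lemma mM_mA {Q : Type} (s s' : Q → V I) (j j' : Q × Bool × Bool) (χ : Co I) :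
    mM s s' j (mA s s' j' χ) = mA s s' j' (mM s s' j χ) := by
  unfold mM mA
  rw [at_tw, at_tw]

lemma tw_zero (χ : Co I) : tw 0 χ = χ := by
  funext U
  unfold tw
  rw [add_zero]

lemma sum_mM {Q : Type} [Fintype Q] (s s' : Q → V I) (f : Co I → ℝ) (χ : Co I) :
    ∑ j, f (mM s s' j χ) = ∑ q, tr4 f (s q) (s' q) χ := by
  rw [Fintype.sum_prod_type]
  refine Finset.sum_congr rfl fun q _ => ?_
  rw [Fintype.sum_prod_type]
  simp only [Fintype.sum_bool, mM, fr, tr4]
  simp only [if_true, Bool.false_eq_true, if_false, add_zero, zero_add, tw_zero]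
  ring

lemma sum_mA {Q : Type} [Fintype Q] (s s' : Q → V I) (f : Co I → ℝ) (χ : Co I) :
    ∑ j, f (mA s s' j χ) = ∑ q, at4 f (s q) (s' q) χ := by
  rw [Fintype.sum_prod_type]
  refine Finset.sum_congr rfl fun q _ => ?_
  rw [Fintype.sum_prod_type]
  simp only [Fintype.sum_bool, mA, sb, at4]
  simp only [if_true, Bool.false_eq_true, if_false]

/-- weight of a move of `M` -/
noncomputable def cM (Q : Type) [Fintype Q] : ℝ := 1 / (4 * Fintype.card Q)

/-- weight of a move of `A` -/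
noncomputable def cA (Q : Type) [Fintype Q] : ℝ := 1 / Fintype.card Q

lemma cM_nonneg (Q : Type) [Fintype Q] : 0 ≤ cM Q := by unfold cM; positivity

lemma cA_nonneg (Q : Type) [Fintype Q] : 0 ≤ cA Q := by unfold cA; positivity

lemma opM_eq {Q : Type} [Fintype Q] (s s' : Q → V I) (f : Co I → ℝ) (χ : Co I) :
    Op (cM Q) (mM s s') f χ = av (fun q => 1 / 4 * tr4 f (s q) (s' q) χ) := by
  unfold Op av cM
  rw [sum_mM, ← Finset.mul_sum, one_div, one_div, mul_inv]
  ring

lemma opA_eq {Q : Type} [Fintype Q] (s s' : Q → V I) (f : Co I → ℝ) (χ : Co I) :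
    Op (cA Q) (mA s s') f χ = av (fun q => at4 f (s q) (s' q) χ) := by
  unfold Op av cA
  rw [sum_mA, one_div, inv_mul_eq_div]

lemma av_mono' {Q : Type} [Fintype Q] {f g : Q → ℝ} (h : ∀ q, f q ≤ g q) : av f ≤ av g := by
  unfold av
  exact div_le_div_of_nonneg_right (Finset.sum_le_sum fun q _ => h q) (Nat.cast_nonneg _)

lemma av_nonneg' {Q : Type} [Fintype Q] {f : Q → ℝ} (h : ∀ q, 0 ≤ f q) : 0 ≤ av f := by
  unfold av
  exact div_nonneg (Finset.sum_nonneg fun q _ => h q) (Nat.cast_nonneg _)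

lemma av_lin' {Q : Type} [Fintype Q] (a b : ℝ) (f g : Q → ℝ) :
    av (fun q => a * f q + b * g q) = a * av f + b * av g := by
  unfold av
  rw [Finset.sum_add_distrib, ← Finset.mul_sum, ← Finset.mul_sum]
  ring

lemma av_const' {Q : Type} [Fintype Q] [Nonempty Q] (c : ℝ) : av (fun _ : Q => c) = c := by
  unfold av
  have : (Fintype.card Q : ℝ) ≠ 0 := by
    have := Fintype.card_pos (α := Q)
    positivity
  rw [Finset.sum_const, Finset.card_univ, nsmul_eq_mul]
  field_simp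

/-- the defect functional -/
noncomputable def De (p : ℝ) {Q : Type} [Fintype Q] (s s' : Q → V I) {ι : Type} [Fintype ι]
    (T : V I → ι → ℝ) (χ : Co I) : ℝ :=
  av (fun q => def1 p (trans χ T) (s q) + def2 p (trans χ T) (s q) (s' q))

lemma De_nonneg (p : ℝ) {Q : Type} [Fintype Q] (s s' : Q → V I) {ι : Type} [Fintype ι]
    (T : V I → ι → ℝ) (χ : Co I) : 0 ≤ De p s s' T χ := by
  refine av_nonneg' fun q => ?_
  rw [def1_trans, def2_trans]
  have h1 := Df_nonneg p T (s q) χ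
  have h2 := Df_nonneg p T (s' q) (at' (s q) 1 χ)
  have h3 := Df_nonneg p T (s' q) (at' (s q) (-1) χ)
  linarith

lemma int_ge {p : ℝ} (hp : 1 < p) (h2 : 2 ≤ p) {Q : Type} [Fintype Q] (s s' : Q → V I)
    {ι : Type} [Fintype ι] (T : V I → ι → ℝ) (χ : Co I) :
    Op (cA Q) (mA s s') (f0 p T) χ + (p / 2 - 1) / 2 * De p s s' T χ ≤
      Op (cM Q) (mM s s') (f0 p T) χ := by
  rw [opA_eq, opM_eq]
  have h := av_mono' fun q => pair_ge hp h2 T (s q) (s' q) χ
  have e := av_lin' (Q := Q) 1 ((p / 2 - 1) / 2) (fun q => at4 (f0 p T) (s q) (s' q) χ)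
    (fun q => def1 p (trans χ T) (s q) + def2 p (trans χ T) (s q) (s' q))
  simp only [one_mul] at e
  unfold De
  rw [← e]
  exact h

lemma int_le {p : ℝ} (hp : 1 < p) (h2 : p ≤ 2) {Q : Type} [Fintype Q] (s s' : Q → V I)
    {ι : Type} [Fintype ι] (T : V I → ι → ℝ) (χ : Co I) :
    Op (cM Q) (mM s s') (f0 p T) χ + (1 - p / 2) / 2 * De p s s' T χ ≤
      Op (cA Q) (mA s s') (f0 p T) χ := by
  rw [opA_eq, opM_eq]
  have h := av_mono' fun q => pair_le hp h2 T (s q) (s' q) χ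
  have e := av_lin' (Q := Q) 1 ((1 - p / 2) / 2) (fun q => 1 / 4 * tr4 (f0 p T) (s q) (s' q) χ)
    (fun q => def1 p (trans χ T) (s q) + def2 p (trans χ T) (s q) (s' q))
  simp only [one_mul] at e
  unfold De
  rw [← e]
  exact h

/-! ### masses -/

lemma Nf_tw (p : ℝ) (S : V I) (χ : Co I) : Nf p (tw S χ) = Nf p χ := by
  unfold Nf
  congr 1
  exact Finset.sum_congr rfl fun y _ => by rw [poly_tw, abs_mul, abs_w', one_mul]

lemma Nf_at {p : ℝ} (hp : 1 < p) (S : V I) (χ : Co I) :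
    Nf p (at' S 1 χ) + Nf p (at' S (-1) χ) = Nf p χ := by
  unfold Nf
  rw [← add_div, ← Finset.sum_add_distrib]
  congr 1
  refine Finset.sum_congr rfl fun y _ => ?_
  rw [poly_at, poly_at]
  have hp0 : p ≠ 0 := by linarith
  rcases w_cases' S y with h | h <;> rw [h] <;> norm_num [Real.zero_rpow hp0]

lemma tr4_Nf (p : ℝ) (S S' : V I) (χ : Co I) : tr4 (Nf p) S S' χ = 4 * Nf p χ := by
  unfold tr4
  rw [Nf_tw, Nf_tw, Nf_tw]
  ring

lemma at4_Nf {p : ℝ} (hp : 1 < p) (S S' : V I) (χ : Co I) : at4 (Nf p) S S' χ = Nf p χ := by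
  unfold at4
  rw [Nf_at hp, Nf_at hp, Nf_at hp]

lemma opM_Nf (p : ℝ) {Q : Type} [Fintype Q] [Nonempty Q] (s s' : Q → V I) :
    Op (cM Q) (mM s s') (Nf p) = Nf p := by
  funext χ
  rw [opM_eq]
  simp only [tr4_Nf]
  rw [av_const']
  ring

lemma opA_Nf {p : ℝ} (hp : 1 < p) {Q : Type} [Fintype Q] [Nonempty Q] (s s' : Q → V I) :
    Op (cA Q) (mA s s') (Nf p) = Nf p := by
  funext χ
  rw [opA_eq]
  simp only [at4_Nf hp]
  rw [av_const']

lemma opM_one {Q : Type} [Fintype Q] [Nonempty Q] (s s' : Q → V I) :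
    Op (cM Q) (mM s s') (fun _ => (1 : ℝ)) = fun _ => 1 := by
  funext χ
  rw [opM_eq]
  unfold tr4
  rw [av_const']
  norm_num

lemma opA_one {Q : Type} [Fintype Q] [Nonempty Q] (s s' : Q → V I) :
    Op (cA Q) (mA s s') (fun _ => (1 : ℝ)) = fun _ => 4 * 1 := by
  funext χ
  rw [opA_eq]
  unfold at4
  rw [av_const']
  norm_num

lemma Nf_one' (p : ℝ) : Nf p (one' I) = 1 := by
  unfold Nf
  simp only [poly_one', abs_one, Real.one_rpow, Finset.sum_const, Finset.card_univ, nsmul_eq_mul,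
    mul_one]
  have : (Fintype.card (V I) : ℝ) ≠ 0 := by
    have := Fintype.card_pos (α := V I)
    positivity
  field_simp

/-- `Phi` for the system of moves of `s, s'` -/
noncomputable def Ph {Q : Type} [Fintype Q] (s s' : Q → V I) (R l : ℕ) (f : Co I → ℝ) : ℝ :=
  Phi (cM Q) (cA Q) (mM s s') (mA s s') R l f

section Ph

variable {Q : Type} [Fintype Q] (s s' : Q → V I)

lemma ph_succ_M (R l : ℕ) (f : Co I → ℝ) :
    Ph s s' (R + 1) l f = Ph s s' R l (Op (cM Q) (mM s s') f) :=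
  phi_succ_M (fun j j' χ => mM_mA s s' j j' χ) R l f

lemma ph_succ_A (R l : ℕ) (f : Co I → ℝ) :
    Ph s s' R (l + 1) f = Ph s s' R l (Op (cA Q) (mA s s') f) :=
  phi_succ_A R l f

lemma ph_zero (f : Co I → ℝ) : Ph s s' 0 0 f = f (one' I) := rfl

lemma ph_lin (R l : ℕ) (a b : ℝ) (f f' : Co I → ℝ) :
    Ph s s' R l (fun χ => a * f χ + b * f' χ) = a * Ph s s' R l f + b * Ph s s' R l f' :=
  phi_lin R l a b f f'

lemma ph_smul (R l : ℕ) (a : ℝ) (f : Co I → ℝ) :
    Ph s s' R l (fun χ => a * f χ) = a * Ph s s' R l f := phi_smul R l a f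

lemma ph_Nf [Nonempty Q] {p : ℝ} (hp : 1 < p) (R l : ℕ) : Ph s s' R l (Nf p) = 1 := by
  induction R with
  | zero =>
    induction l with
    | zero => rw [ph_zero, Nf_one']
    | succ l ih => rw [ph_succ_A, opA_Nf hp, ih]
  | succ R ih => rw [ph_succ_M, opM_Nf, ih]

lemma ph_one [Nonempty Q] (R l : ℕ) : Ph s s' R l (fun _ => (1 : ℝ)) = 4 ^ l := by
  induction R with
  | zero =>
    induction l with
    | zero => rw [ph_zero, pow_zero]
    | succ l ih => rw [ph_succ_A, opA_one, ph_smul, ih]; ring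
  | succ R ih => rw [ph_succ_M, opM_one, ih]

end Ph

/-! ### supports -/

section Supp

variable {K : ℕ → V I → Prop}

lemma supp_tw (hK : Graded K) {a m : ℕ} {χ : Co I} (h : ∀ U, ¬ K a U → χ U = 0) {S : V I}
    (hS : K m S) : ∀ U, ¬ K (a + m) U → tw S χ U = 0 := by
  intro U hU
  unfold tw
  apply h
  intro h1
  apply hU
  have := hK.add _ _ _ _ h1 hS
  rwa [add_add'] at this

lemma supp_at (hK : Graded K) {a m : ℕ} {χ : Co I} (h : ∀ U, ¬ K a U → χ U = 0) {S : V I}
    (hS : K m S) (e : ℝ) : ∀ U, ¬ K (a + m) U → at' S e χ U = 0 := by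
  intro U hU
  have h1 := supp_tw hK h hS U hU
  unfold tw at h1
  have h2 : χ U = 0 := h U fun h3 => hU (hK.mono _ _ _ (Nat.le_add_right a m) h3)
  unfold at'
  rw [h1, h2]; simp

lemma adm_zero' (hK : Graded K) (m : ℕ) : (fun k => K (k * (2 * m))) 0 (0 : V I) := by
  simp only [zero_mul]
  exact hK.zero

lemma fr_mem (hK : Graded K) {m : ℕ} {S S' : V I} (hS : K m S) (hS' : K m S') (a b : Bool) :
    K (2 * m) (fr S S' a b) := by
  have h0 : K m (0 : V I) := hK.mono 0 m 0 (Nat.zero_le _) hK.zero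
  have h1 : K m (if a then S else 0) := by cases a <;> simp [h0, hS]
  have h2 : K m (if b then S' else 0) := by cases b <;> simp [h0, hS']
  have h3 := hK.add _ _ _ _ h1 h2
  rwa [← two_mul] at h3

lemma adm_mM (hK : Graded K) {Q : Type} {s s' : Q → V I} {m : ℕ} (hs : ∀ q, K m (s q))
    (hs' : ∀ q, K m (s' q)) (k : ℕ) (j : Q × Bool × Bool) (χ : Co I)
    (hχ : Adm (fun k => K (k * (2 * m))) k χ) :
    Adm (fun k => K (k * (2 * m))) (k + 1) (mM s s' j χ) := by
  refine ⟨?_, ?_, ?_⟩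
  · have := supp_tw hK (a := k * (2 * m)) hχ.supp
      (fr_mem hK (hs j.1) (hs' j.1) j.2.1 j.2.2)
    intro U hU
    refine this U fun h => hU ?_
    rwa [add_one_mul]
  · unfold mM
    rw [l1_tw]
    exact hχ.l1
  · exact fun y => sup_tw hχ.sup y

lemma adm_mA (hK : Graded K) {Q : Type} {s s' : Q → V I} {m : ℕ} (hs : ∀ q, K m (s q))
    (hs' : ∀ q, K m (s' q)) (k : ℕ) (j : Q × Bool × Bool) (χ : Co I)
    (hχ : Adm (fun k => K (k * (2 * m))) k χ) :
    Adm (fun k => K (k * (2 * m))) (k + 1) (mA s s' j χ) := by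
  refine ⟨?_, ?_, ?_⟩
  · have h1 := supp_at hK (a := k * (2 * m)) hχ.supp (hs j.1) (sb j.2.1)
    have h2 := supp_at hK h1 (hs' j.1) (sb j.2.2)
    intro U hU
    refine h2 U fun h => hU ?_
    have e : (k + 1) * (2 * m) = k * (2 * m) + m + m := by ring
    rwa [e]
  · unfold mA
    exact ((l1_at _ (abs_sb _) _).trans (l1_at _ (abs_sb _) _)).trans hχ.l1
  · exact fun y => sup_at (abs_sb _) (fun y => sup_at (abs_sb _) hχ.sup y) y

lemma ph_mono (hK : Graded K) {Q : Type} [Fintype Q] {s s' : Q → V I} {m : ℕ}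
    (hs : ∀ q, K m (s q)) (hs' : ∀ q, K m (s' q)) {R l : ℕ} {f f' : Co I → ℝ}
    (hf : ∀ χ, Adm (fun k => K (k * (2 * m))) (R + l) χ → f χ ≤ f' χ) :
    Ph s s' R l f ≤ Ph s s' R l f' :=
  phi_mono (adm_zero' hK m) (cM_nonneg Q) (cA_nonneg Q) (adm_mM hK hs hs') (adm_mA hK hs hs') hf

lemma ph_nonneg (hK : Graded K) {Q : Type} [Fintype Q] {s s' : Q → V I} {m : ℕ}
    (hs : ∀ q, K m (s q)) (hs' : ∀ q, K m (s' q)) {R l : ℕ} {f : Co I → ℝ}
    (hf : ∀ χ, Adm (fun k => K (k * (2 * m))) (R + l) χ → 0 ≤ f χ) : 0 ≤ Ph s s' R l f := by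
  have h2 := ph_mono hK hs hs' (R := R) (l := l) (f := fun _ => 0) (f' := f) hf
  have h3 := ph_smul s s' R l 0 f
  simp only [zero_mul] at h3
  linarith

end Supp

/-! ### norms -/

lemma nT_nonneg' {ι : Type} [Fintype ι] (p : ℝ) (v : ι → ℝ) : 0 ≤ nT p v := by
  unfold nT
  exact Real.rpow_nonneg (Finset.sum_nonneg fun _ _ => Real.rpow_nonneg (abs_nonneg _) _) _

lemma nT_add_le' {ι : Type} [Fintype ι] {p : ℝ} (hp : 1 ≤ p) (u v : ι → ℝ) :
    nT p (u + v) ≤ nT p u + nT p v := by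
  unfold nT
  exact Real.Lp_add_le univ u v hp

lemma nT_smul' {ι : Type} [Fintype ι] {p : ℝ} (hp : 0 < p) (a : ℝ) (v : ι → ℝ) :
    nT p (a • v) = |a| * nT p v := by
  unfold nT
  have h : ∀ i, |(a • v) i| ^ p = |a| ^ p * |v i| ^ p := fun i => by
    rw [Pi.smul_apply, smul_eq_mul, abs_mul, Real.mul_rpow (abs_nonneg _) (abs_nonneg _)]
  rw [Finset.sum_congr rfl fun i _ => h i, ← Finset.mul_sum,
    Real.mul_rpow (Real.rpow_nonneg (abs_nonneg _) _)
      (Finset.sum_nonneg fun _ _ => Real.rpow_nonneg (abs_nonneg _) _),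
    ← Real.rpow_mul (abs_nonneg _), mul_one_div_cancel hp.ne', Real.rpow_one]

lemma nT_zero' {ι : Type} [Fintype ι] {p : ℝ} (hp : 0 < p) : nT p (0 : ι → ℝ) = 0 := by
  have := nT_smul' hp (0 : ℝ) (0 : ι → ℝ)
  simpa using this

lemma nT_sum_le' {ι : Type} [Fintype ι] {p : ℝ} (hp : 1 ≤ p) {α : Type*} (s : Finset α)
    (v : α → ι → ℝ) : nT p (∑ a ∈ s, v a) ≤ ∑ a ∈ s, nT p (v a) := by
  classical
  induction s using Finset.induction_on with
  | empty => simp [nT_zero' (lt_of_lt_of_le zero_lt_one hp)]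
  | insert a s ha ih =>
    rw [Finset.sum_insert ha, Finset.sum_insert ha]
    exact (nT_add_le' hp _ _).trans (by linarith)

lemma nE_nonneg' (p : ℝ) (f : V I → ℝ) : 0 ≤ nE p f := by
  unfold nE
  exact Real.rpow_nonneg (div_nonneg
    (Finset.sum_nonneg fun _ _ => Real.rpow_nonneg (abs_nonneg _) _) (Nat.cast_nonneg _)) _

lemma nE_mono' {p : ℝ} (hp : 0 < p) {f g : V I → ℝ} (h : ∀ y, |f y| ≤ |g y|) :
    nE p f ≤ nE p g := by
  unfold nE
  refine Real.rpow_le_rpow ?_ ?_ (by positivity)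
  · exact div_nonneg (Finset.sum_nonneg fun _ _ => Real.rpow_nonneg (abs_nonneg _) _)
      (Nat.cast_nonneg _)
  · exact div_le_div_of_nonneg_right
      (Finset.sum_le_sum fun y _ => Real.rpow_le_rpow (abs_nonneg _) (h y) hp.le)
      (Nat.cast_nonneg _)

lemma f0_nT {p : ℝ} (hp : 1 < p) {ι : Type} [Fintype ι] (T : V I → ι → ℝ) (χ : Co I) :
    f0 p T χ = nT p (∑ S, χ S • T S) ^ p := by
  unfold nT
  rw [← Real.rpow_mul (Finset.sum_nonneg fun _ _ => Real.rpow_nonneg (abs_nonneg _) _),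
    one_div_mul_cancel (by linarith), Real.rpow_one]
  unfold f0 lin
  refine Finset.sum_congr rfl fun i _ => ?_
  simp [Finset.sum_apply]

lemma nE_rpow {p : ℝ} (hp : 1 < p) (χ : Co I) : nE p (poly χ) ^ p = Nf p χ := by
  unfold nE Nf
  rw [← Real.rpow_mul (div_nonneg
    (Finset.sum_nonneg fun _ _ => Real.rpow_nonneg (abs_nonneg _) _) (Nat.cast_nonneg _)),
    one_div_mul_cancel (by linarith), Real.rpow_one]

lemma add_rpow_le' {p : ℝ} (hp : 1 < p) {a b : ℝ} (ha : 0 ≤ a) (hb : 0 ≤ b) :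
    (a + b) ^ p ≤ 2 ^ (p - 1) * (a ^ p + b ^ p) := by
  lift a to NNReal using ha
  lift b to NNReal using hb
  have := NNReal.rpow_add_le_mul_rpow_add_rpow a b hp.le
  exact_mod_cast this

/-- the upper bound for `Phi f0` -/
theorem ph_up {K : ℕ → V I → Prop} (hK : Graded K) {Q : Type} [Fintype Q] [Nonempty Q]
    {s s' : Q → V I} {m : ℕ} (hs : ∀ q, K m (s q)) (hs' : ∀ q, K m (s' q)) {p D ε : ℝ}
    (hp : 1 < p) (hD : 1 ≤ D) (hε : 0 ≤ ε) {R l n : ℕ} (hn : (R + l) * (2 * m) ≤ n)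
    (hεl : ε * 4 ^ l ≤ 1) {ι : Type} [Fintype ι] {τ : List (I × ZMod 2) → V I → ι → ℝ}
    (hsys : Sys p D ε (K n) τ) :
    0 ≤ Ph s s' R l (f0 p (τ [])) ∧ Ph s s' R l (f0 p (τ [])) ≤ 2 ^ p * D ^ p := by
  have hp0 : 0 < p := by linarith
  constructor
  · exact ph_nonneg hK hs hs' fun χ _ => f0_nonneg p (τ []) χ
  have hpt : ∀ χ : Co I, Adm (fun k => K (k * (2 * m))) (R + l) χ → f0 p (τ []) χ ≤
      (2 ^ (p - 1) * D ^ p) * Nf p χ + (2 ^ (p - 1) * ε ^ p) * (1 : ℝ) := by
    intro χ hχ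
    rw [f0_nT hp]
    have hL := hsys.L1 [] (Nat.zero_le _) χ
      (fun S hS => hχ.supp S fun h => hS (hK.mono _ _ _ hn h))
    have hind : (fun y => ind ([] : List (I × ZMod 2)) y * poly χ y) = poly χ := by
      funext y; simp [ind]
    rw [hind] at hL
    have h2 : ε * ∑ S, |χ S| ≤ ε := by
      have := mul_le_mul_of_nonneg_left hχ.l1 hε
      linarith
    have h3 : nT p (∑ S, χ S • τ [] S) ≤ D * nE p (poly χ) + ε := by linarith
    have h4 := Real.rpow_le_rpow (nT_nonneg' _ _) h3 hp0.le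
    have hDn : 0 ≤ D * nE p (poly χ) := mul_nonneg (by linarith) (nE_nonneg' _ _)
    refine h4.trans ((add_rpow_le' hp hDn hε).trans (le_of_eq ?_))
    rw [Real.mul_rpow (by linarith) (nE_nonneg' _ _), nE_rpow hp]
    ring
  have h2 := ph_mono hK hs hs' hpt
  rw [ph_lin s s' R l _ _ (Nf p) (fun _ => 1), ph_Nf s s' hp, ph_one] at h2
  have hε1 : ε ≤ 1 := by
    have h5 : (1 : ℝ) ≤ 4 ^ l := one_le_pow₀ (by norm_num)
    have h6 : ε * 1 ≤ ε * 4 ^ l := mul_le_mul_of_nonneg_left h5 hε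
    linarith
  have hεp : ε ^ p ≤ ε := by
    rcases eq_or_lt_of_le hε with h | h
    · rw [← h, Real.zero_rpow (by linarith)]
    · have := Real.rpow_le_rpow_of_exponent_ge h hε1 hp.le
      rwa [Real.rpow_one] at this
  have h7 : ε ^ p * 4 ^ l ≤ 1 :=
    le_trans (mul_le_mul_of_nonneg_right hεp (by positivity)) hεl
  have h9 : 1 ≤ D ^ p := Real.one_le_rpow hD hp0.le
  have h10 : (2 : ℝ) ^ p = 2 * 2 ^ (p - 1) := by
    rw [show p = 1 + (p - 1) by ring, Real.rpow_add (by norm_num), Real.rpow_one]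
    ring_nf
  have h11 : (0 : ℝ) < 2 ^ (p - 1) := by positivity
  have h12 : (2 : ℝ) ^ (p - 1) * (D ^ p + ε ^ p * 4 ^ l) ≤ 2 ^ (p - 1) * (2 * D ^ p) :=
    mul_le_mul_of_nonneg_left (by linarith) h11.le
  calc Ph s s' R l (f0 p (τ [])) ≤ _ := h2
    _ = (2 : ℝ) ^ (p - 1) * (D ^ p + ε ^ p * 4 ^ l) := by ring
    _ ≤ 2 ^ (p - 1) * (2 * D ^ p) := h12
    _ = 2 ^ p * D ^ p := by rw [h10]; ring

/-! ### translated systems -/

lemma sum_tr' {M : Type*} [AddCommMonoid M] (S : V I) (g : V I → M) :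
    ∑ U, g (S + U) = ∑ U, g U :=
  Equiv.sum_comp (Equiv.addLeft S) g

/-- convolution of coefficient functions -/
noncomputable def conv (χ b : Co I) : Co I := fun U => ∑ X, χ X * b (X + U)

lemma poly_conv (χ b : Co I) (y : V I) : poly (conv χ b) y = poly χ y * poly b y := by
  unfold conv
  have h : ∀ X : V I, ∑ U, b (X + U) * w U y = w X y * poly b y := by
    intro X
    rw [← poly_tw X b y]
    unfold poly tw
    exact Finset.sum_congr rfl fun U _ => by rw [add_comm]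
  calc poly (fun U => ∑ X, χ X * b (X + U)) y
      = ∑ U, ∑ X, χ X * (b (X + U) * w U y) := by
        unfold poly
        exact Finset.sum_congr rfl fun U _ => by
          rw [Finset.sum_mul]; exact Finset.sum_congr rfl fun X _ => by ring
    _ = ∑ X, χ X * ∑ U, b (X + U) * w U y := by
        rw [Finset.sum_comm]
        exact Finset.sum_congr rfl fun X _ => by rw [Finset.mul_sum]
    _ = ∑ X, χ X * (w X y * poly b y) := Finset.sum_congr rfl fun X _ => by rw [h]
    _ = poly χ y * poly b y := by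
        unfold poly
        rw [Finset.sum_mul]
        exact Finset.sum_congr rfl fun X _ => by ring

lemma sum_abs_conv (χ b : Co I) : ∑ U, |conv χ b U| ≤ (∑ X, |χ X|) * ∑ U, |b U| := by
  calc ∑ U, |conv χ b U| ≤ ∑ U, ∑ X, |χ X| * |b (X + U)| := by
        refine Finset.sum_le_sum fun U _ => ?_
        unfold conv
        refine (Finset.abs_sum_le_sum_abs _ _).trans (le_of_eq ?_)
        exact Finset.sum_congr rfl fun X _ => abs_mul _ _
    _ = ∑ X, |χ X| * ∑ U, |b (X + U)| := by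
        rw [Finset.sum_comm]
        exact Finset.sum_congr rfl fun X _ => by rw [Finset.mul_sum]
    _ = (∑ X, |χ X|) * ∑ U, |b U| := by
        rw [Finset.sum_mul]
        exact Finset.sum_congr rfl fun X _ => by rw [sum_tr' X fun U => |b U|]

lemma sum_trans {ι : Type} (χ b : Co I) (T : V I → ι → ℝ) :
    ∑ S, b S • trans χ T S = ∑ U, conv χ b U • T U := by
  funext i
  simp only [Finset.sum_apply, Pi.smul_apply, smul_eq_mul, trans, conv]
  calc ∑ S, b S * ∑ X, χ X * T (X + S) i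
      = ∑ X, ∑ S, χ X * (b (X + (X + S)) * T (X + S) i) := by
        rw [Finset.sum_comm]
        refine Finset.sum_congr rfl fun S _ => ?_
        rw [Finset.mul_sum]
        refine Finset.sum_congr rfl fun X _ => ?_
        have : X + (X + S) = S := by rw [← add_assoc, two', zero_add]
        rw [this]; ring
    _ = ∑ X, ∑ U, χ X * (b (X + U) * T U i) :=
        Finset.sum_congr rfl fun X _ => sum_tr' X fun U => χ X * (b (X + U) * T U i)
    _ = ∑ U, (∑ X, χ X * b (X + U)) * T U i := by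
        rw [Finset.sum_comm]
        refine Finset.sum_congr rfl fun U _ => ?_
        rw [Finset.sum_mul]
        exact Finset.sum_congr rfl fun X _ => by ring

/-- **the translated system is a system** -/
theorem sys_trans {K : ℕ → V I → Prop} (hK : Graded K) {p D ε : ℝ} (hp : 1 < p) (hD : 0 ≤ D)
    (hε : 0 ≤ ε) {a n m' : ℕ} {ι : Type} [Fintype ι] {τ : List (I × ZMod 2) → V I → ι → ℝ}
    (hS : Sys p D ε (K n) τ) {χ : Co I} (hsupp : ∀ U, ¬ K a U → χ U = 0)
    (hl1 : ∑ U, |χ U| ≤ 1) (hsup : ∀ y, |poly χ y| ≤ 1) (hn : a + m' ≤ n) :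
    Sys p D ε (K m') (fun P => trans χ (τ P)) := by
  refine ⟨fun P hP b hb => ?_, fun P hP i β S hK1 hK2 => ?_⟩
  · rw [sum_trans]
    have hsupp' : ∀ U : V I, ¬ K n U → conv χ b U = 0 := by
      intro U hU
      unfold conv
      refine Finset.sum_eq_zero fun X _ => ?_
      by_cases hX : K a X
      · rw [hb, mul_zero]
        intro h1
        apply hU
        have h2 := hK.add _ _ _ _ hX h1
        rw [← add_assoc, two', zero_add] at h2
        exact hK.mono _ _ _ hn h2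
      · rw [hsupp X hX, zero_mul]
    refine (hS.L1 P hP _ hsupp').trans ?_
    have h1 : nE p (fun y => ind P y * poly (conv χ b) y) ≤
        nE p (fun y => ind P y * poly b y) := by
      refine nE_mono' (by linarith) fun y => ?_
      rw [poly_conv, abs_mul, abs_mul, abs_mul]
      have := mul_le_mul_of_nonneg_right (hsup y) (abs_nonneg (poly b y))
      rw [one_mul] at this
      exact mul_le_mul_of_nonneg_left this (abs_nonneg _)
    have h2 : ∑ U, |conv χ b U| ≤ ∑ S, |b S| := by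
      refine (sum_abs_conv χ b).trans ?_
      have h3 : 0 ≤ ∑ U, |b U| := Finset.sum_nonneg fun _ _ => abs_nonneg _
      have := mul_le_mul_of_nonneg_right hl1 h3
      linarith
    exact add_le_add (mul_le_mul_of_nonneg_left h1 hD) (mul_le_mul_of_nonneg_left h2 hε)
  · have e1 : trans χ (τ (P ++ [(i, β)])) S -
        (1 / 2 : ℝ) • (trans χ (τ P) S + sg β • trans χ (τ P) (S + Pi.single i 1)) =
        ∑ X, χ X • (τ (P ++ [(i, β)]) (X + S) -
          (1 / 2 : ℝ) • (τ P (X + S) + sg β • τ P ((X + S) + Pi.single i 1))) := by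
      funext j
      simp only [trans, Pi.sub_apply, Pi.smul_apply, Pi.add_apply, smul_eq_mul,
        Finset.sum_apply]
      rw [Finset.mul_sum, ← Finset.sum_add_distrib, Finset.mul_sum, ← Finset.sum_sub_distrib]
      refine Finset.sum_congr rfl fun X _ => ?_
      rw [add_assoc X S]
      ring
    rw [e1]
    refine (nT_sum_le' hp.le _ _).trans ?_
    have h1 : ∀ X : V I, nT p (χ X • (τ (P ++ [(i, β)]) (X + S) -
          (1 / 2 : ℝ) • (τ P (X + S) + sg β • τ P ((X + S) + Pi.single i 1)))) ≤ |χ X| * ε := by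
      intro X
      rw [nT_smul' (by linarith)]
      by_cases hX : K a X
      · refine mul_le_mul_of_nonneg_left (hS.L2 P hP i β (X + S) ?_ ?_) (abs_nonneg _)
        · exact hK.mono _ _ _ hn (hK.add _ _ _ _ hX hK1)
        · rw [add_assoc]
          exact hK.mono _ _ _ hn (hK.add _ _ _ _ hX hK2)
      · rw [hsupp X hX]; simp
    refine (Finset.sum_le_sum fun X _ => h1 X).trans ?_
    rw [← Finset.sum_mul]
    have := mul_le_mul_of_nonneg_right hl1 hε
    linarith

end Vale.Agent.P249.TP.Uni
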