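import Vale.Agent.P249.TP.UniB

/-!
# P249 phase 2, block UNI, part C: the test family (helper583)
-/

open Finset
open scoped BigOperators

namespace Vale.Agent.P249.TP.Uni

open Vale.Agent.P249.TP

set_option linter.unusedSectionVars false

variable {I : Type} [Fintype I] [DecidableEq I]

/-- `Φ` is a finite positive combination of evaluations at universes with denominators `4^l` -/
def Rep (P : V I → Prop) (l : ℕ) (Φ : (Co I → ℝ) → ℝ) : Prop :=
  ∃ (T : Type) (_ : Fintype T) (π : T → ℝ) (b : T → V I → ℤ),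
    (∀ t, 0 ≤ π t) ∧ (∀ t S, ¬ P S → b t S = 0) ∧
    (∀ t, ∑ S, |(b t S : ℝ)| ≤ 4 ^ l) ∧
    ∀ f, Φ f = ∑ t, π t * f (fun S => (b t S : ℝ) / 4 ^ l)

lemma rep_zero {P : V I → Prop} (hP : P 0) : Rep P 0 (fun f => f (one' I)) := by
  refine ⟨Unit, inferInstance, fun _ => 1, fun _ S => if S = 0 then 1 else 0,
    fun _ => zero_le_one, fun _ S hS => ?_, fun _ => ?_, fun f => ?_⟩
  · have : S ≠ 0 := by
      rintro rfl
      exact hS hP
    simp [this]
  · simp [apply_ite abs]
  · simp only [Finset.univ_unique, Finset.sum_singleton, one_mul, pow_zero, div_one]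
    congr 1
    funext S
    unfold one'
    split_ifs <;> simp

section Rep

variable {K : ℕ → V I → Prop} {Q : Type} [Fintype Q] {s s' : Q → V I} {m : ℕ}

lemma rep_M (hK : Graded K) (hs : ∀ q, K m (s q)) (hs' : ∀ q, K m (s' q)) {a l : ℕ}
    {Φ : (Co I → ℝ) → ℝ} (h : Rep (K a) l Φ) :
    Rep (K (a + 2 * m)) l (fun f => Φ (Op (cM Q) (mM s s') f)) := by
  obtain ⟨T, hT, π, b, hπ, hsupp, hl1, hrep⟩ := h
  refine ⟨T × (Q × Bool × Bool), inferInstance, fun t => π t.1 * cM Q,
    fun t U => b t.1 (U + fr (s t.2.1) (s' t.2.1) t.2.2.1 t.2.2.2),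
    fun t => mul_nonneg (hπ _) (cM_nonneg Q),
    fun t U hU => ?_, fun t => ?_, fun f => ?_⟩
  · apply hsupp
    intro h1
    apply hU
    have := hK.add _ _ _ _ h1 (fr_mem hK (hs t.2.1) (hs' t.2.1) t.2.2.1 t.2.2.2)
    rwa [add_add'] at this
  · have := sum_tr (fr (s t.2.1) (s' t.2.1) t.2.2.1 t.2.2.2) fun U => |(b t.1 U : ℝ)|
    rw [this]
    exact hl1 t.1
  · simp only
    rw [hrep, Fintype.sum_prod_type]
    refine Finset.sum_congr rfl fun t _ => ?_
    unfold Op
    rw [← mul_assoc, Finset.mul_sum]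
    rfl

lemma rep_A (hK : Graded K) (hs : ∀ q, K m (s q)) (hs' : ∀ q, K m (s' q)) {a l : ℕ}
    {Φ : (Co I → ℝ) → ℝ} (h : Rep (K a) l Φ) :
    Rep (K (a + 2 * m)) (l + 1) (fun f => Φ (Op (cA Q) (mA s s') f)) := by
  obtain ⟨T, hT, π, b, hπ, hsupp, hl1, hrep⟩ := h
  set sz : Bool → ℤ := fun x => if x then 1 else -1 with hsz
  have hszr : ∀ x, ((sz x : ℤ) : ℝ) = sb x := fun x => by cases x <;> simp [hsz, sb]
  have hsza : ∀ x, |((sz x : ℤ) : ℝ)| = 1 := fun x => by cases x <;> simp [hsz]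
  refine ⟨T × (Q × Bool × Bool), inferInstance, fun t => π t.1 * cA Q,
    fun t U => b t.1 U + sz t.2.2.1 * b t.1 (U + s t.2.1) +
      sz t.2.2.2 * (b t.1 (U + s' t.2.1) + sz t.2.2.1 * b t.1 (U + s' t.2.1 + s t.2.1)),
    fun t => mul_nonneg (hπ _) (cA_nonneg Q),
    fun t U hU => ?_, fun t => ?_, fun f => ?_⟩
  · have hm0 : ∀ X : V I, K a (U + X) → K (2 * m) X → False := by
      intro X h1 h2
      apply hU
      have := hK.add _ _ _ _ h1 h2
      rwa [add_add'] at this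
    have hmm : ∀ X : V I, K m X → K (2 * m) X := fun X hX =>
      hK.mono _ _ _ (by omega) hX
    have h1 := hsupp t.1 U fun h => hU (hK.mono _ _ _ (Nat.le_add_right _ _) h)
    have h2 := hsupp t.1 (U + s t.2.1) fun h => hm0 _ h (hmm _ (hs _))
    have h3 := hsupp t.1 (U + s' t.2.1) fun h => hm0 _ h (hmm _ (hs' _))
    have h4 := hsupp t.1 (U + s' t.2.1 + s t.2.1) fun h => by
      rw [add_assoc] at h
      refine hm0 _ h ?_
      have := hK.add _ _ _ _ (hs' t.2.1) (hs t.2.1)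
      rwa [← two_mul] at this
    simp only [h1, h2, h3, h4]
    simp
  · have h2 : ∀ U : V I, |((b t.1 U + sz t.2.2.1 * b t.1 (U + s t.2.1) +
        sz t.2.2.2 * (b t.1 (U + s' t.2.1) + sz t.2.2.1 * b t.1 (U + s' t.2.1 + s t.2.1)) :
          ℤ) : ℝ)| ≤ |(b t.1 U : ℝ)| + |(b t.1 (U + s t.2.1) : ℝ)| +
        (|(b t.1 (U + s' t.2.1) : ℝ)| + |(b t.1 (U + s' t.2.1 + s t.2.1) : ℝ)|) := by
      intro U
      push_cast
      refine (abs_add_le _ _).trans (add_le_add ((abs_add_le _ _).trans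
        (add_le_add le_rfl (le_of_eq ?_))) ?_)
      · rw [abs_mul, hsza, one_mul]
      · rw [abs_mul, hsza, one_mul]
        refine (abs_add_le _ _).trans (add_le_add le_rfl (le_of_eq ?_))
        rw [abs_mul, hsza, one_mul]
    refine (Finset.sum_le_sum fun U _ => h2 U).trans ?_
    rw [Finset.sum_add_distrib, Finset.sum_add_distrib, Finset.sum_add_distrib,
      sum_tr (s t.2.1) fun U => |(b t.1 U : ℝ)|, sum_tr (s' t.2.1) fun U => |(b t.1 U : ℝ)|]
    have e1 : ∑ U, |(b t.1 (U + s' t.2.1 + s t.2.1) : ℝ)| = ∑ U, |(b t.1 U : ℝ)| := by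
      rw [sum_tr (s' t.2.1) fun U => |(b t.1 (U + s t.2.1) : ℝ)|,
        sum_tr (s t.2.1) fun U => |(b t.1 U : ℝ)|]
    rw [e1]
    have := hl1 t.1
    rw [pow_succ]
    linarith
  · simp only
    rw [hrep, Fintype.sum_prod_type]
    refine Finset.sum_congr rfl fun t _ => ?_
    unfold Op
    rw [← mul_assoc, Finset.mul_sum]
    refine Finset.sum_congr rfl fun j _ => ?_
    congr 2
    funext U
    unfold mA at'
    push_cast
    rw [hszr, hszr, pow_succ]
    field_simp
    ring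

lemma rep_Ph (hK : Graded K) (hs : ∀ q, K m (s q)) (hs' : ∀ q, K m (s' q)) (R l : ℕ) :
    Rep (K ((R + l) * (2 * m))) l (fun f => Ph s s' R l f) := by
  induction R with
  | zero =>
    induction l with
    | zero =>
      simp only [add_zero, zero_mul]
      exact rep_zero hK.zero
    | succ l ih =>
      have := rep_A hK hs hs' ih
      have h2 : (fun f : Co I → ℝ => Ph s s' 0 (l + 1) f) =
          fun f => Ph s s' 0 l (Op (cA Q) (mA s s') f) := by
        funext f; rw [ph_succ_A]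
      rw [h2]
      have h3 : (0 + (l + 1)) * (2 * m) = (0 + l) * (2 * m) + 2 * m := by ring
      rw [h3]
      exact this
  | succ R ih =>
    have := rep_M hK hs hs' ih
    have h2 : (fun f : Co I → ℝ => Ph s s' (R + 1) l f) =
        fun f => Ph s s' R l (Op (cM Q) (mM s s') f) := by
      funext f; rw [ph_succ_M]
    rw [h2]
    have h3 : (R + 1 + l) * (2 * m) = (R + l) * (2 * m) + 2 * m := by ring
    rw [h3]
    exact this

end Rep

lemma f0_scale {ι : Type} [Fintype ι] (p c : ℝ) (T : V I → ι → ℝ) (b : Co I) :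
    f0 p T (fun S => b S / c) = f0 p T b / |c| ^ p := by
  unfold f0
  rw [Finset.sum_div]
  refine Finset.sum_congr rfl fun i _ => ?_
  have : lin T (fun S => b S / c) i = lin T b i / c := by
    unfold lin
    rw [Finset.sum_div]
    exact Finset.sum_congr rfl fun S _ => by ring
  rw [this, abs_div, Real.div_rpow (abs_nonneg _) (abs_nonneg _)]

lemma Nf_scale (p c : ℝ) (b : Co I) :
    Nf p (fun S => b S / c) = Nf p b / |c| ^ p := by
  have h : ∀ y, |poly (fun S => b S / c) y| ^ p = |poly b y| ^ p / |c| ^ p := by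
    intro y
    have : poly (fun S => b S / c) y = poly b y / c := by
      unfold poly
      rw [Finset.sum_div]
      exact Finset.sum_congr rfl fun S _ => by ring
    rw [this, abs_div, Real.div_rpow (abs_nonneg _) (abs_nonneg _)]
  unfold Nf
  rw [Finset.sum_congr rfl fun y _ => h y, ← Finset.sum_div]
  ring

/-- the test family and the lower bound -/
theorem exists_fam {K : ℕ → V I → Prop} (hK : Graded K) {Q : Type} [Fintype Q] [Nonempty Q]
    {s s' : Q → V I} {m : ℕ} (hs : ∀ q, K m (s q)) (hs' : ∀ q, K m (s' q)) {p Λ : ℝ}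
    (hp : 1 < p) {R l n : ℕ} (hn : (R + l) * (2 * m) ≤ n) (hΛ : (4 : ℝ) ^ l ≤ Λ) :
    ∃ fam : TestFam p Λ (K n), ∀ (ι : Type) [Fintype ι]
      (τ : List (I × ZMod 2) → V I → ι → ℝ), L3 fam τ →
      (1 / 2 : ℝ) ^ p ≤ Ph s s' R l (f0 p (τ [])) := by
  have hp0 : 0 < p := by linarith
  obtain ⟨T, hT, π, b, hπ, hsupp, hl1, hrep⟩ := rep_Ph (Q := Q) hK hs hs' R l
  have hc0 : (0 : ℝ) < 4 ^ l := by positivity
  have habs : |(4 : ℝ) ^ l| = 4 ^ l := abs_of_pos hc0
  have hc : (0 : ℝ) < ((4 : ℝ) ^ l) ^ p := Real.rpow_pos_of_pos hc0 p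
  have hone : ∑ t, π t = 4 ^ l := by
    have h3 := hrep (fun _ => 1)
    simp only [mul_one] at h3
    rw [← h3, ph_one]
  have hN : ((4 : ℝ) ^ l) ^ p = ∑ t, π t * Nf p (fun S => (b t S : ℝ)) := by
    have h3 := hrep (Nf p)
    simp only at h3
    rw [ph_Nf s s' hp] at h3
    have h6 : ∑ t, π t * Nf p (fun S => (b t S : ℝ) / 4 ^ l) =
        (∑ t, π t * Nf p (fun S => (b t S : ℝ))) / ((4 : ℝ) ^ l) ^ p := by
      rw [Finset.sum_div]
      refine Finset.sum_congr rfl fun t _ => ?_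
      rw [Nf_scale p (4 ^ l) (fun S => (b t S : ℝ)), habs]
      ring
    rw [h6, eq_div_iff hc.ne', one_mul] at h3
    exact h3
  have hNE : ∀ t, nE p (poly fun S => (b t S : ℝ)) ^ p = Nf p (fun S => (b t S : ℝ)) :=
    fun t => nE_rpow hp _
  refine ⟨{ T := T
            ft := hT
            π := π
            b := b
            π_nonneg := hπ
            supp := fun t S hS => hsupp t S fun h => hS (hK.mono _ _ _ hn h)
            l1 := fun t => (hl1 t).trans hΛ
            mass := ?_ }, ?_⟩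
  · simp only [hNE]
    rw [← hN, hone]
    have h5 : (1 : ℝ) ≤ ((4 : ℝ) ^ l) ^ p :=
      Real.one_le_rpow (one_le_pow₀ (by norm_num)) hp0.le
    calc (4 : ℝ) ^ l = 4 ^ l * 1 := by ring
      _ ≤ Λ * ((4 : ℝ) ^ l) ^ p := mul_le_mul hΛ h5 zero_le_one (hc0.le.trans hΛ)
  · intro ι _ τ hL3
    unfold L3 at hL3
    simp only at hL3
    have h4 : ∀ t, nT p (∑ S, (b t S : ℝ) • τ [] S) ^ p =
        f0 p (τ []) (fun S => (b t S : ℝ)) := fun t => (f0_nT hp _ _).symm
    simp only [hNE, h4] at hL3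
    have hL3' : (1 / 2 : ℝ) ^ p * ((4 : ℝ) ^ l) ^ p ≤
        ∑ t, π t * f0 p (τ []) (fun S => (b t S : ℝ)) := by
      rw [hN]
      exact hL3
    have h3 := hrep (f0 p (τ []))
    simp only at h3
    rw [h3]
    have h5 : ∑ t, π t * f0 p (τ []) (fun S => (b t S : ℝ) / 4 ^ l) =
        (∑ t, π t * f0 p (τ []) (fun S => (b t S : ℝ))) / ((4 : ℝ) ^ l) ^ p := by
      rw [Finset.sum_div]
      refine Finset.sum_congr rfl fun t _ => ?_
      rw [f0_scale p (4 ^ l) (τ []) (fun S => (b t S : ℝ)), habs]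
      ring
    rw [h5, le_div_iff₀ hc]
    exact hL3'

end Vale.Agent.P249.TP.Uni
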